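import Vale.Agent.P159.TM.H265.TransFin

/-!
P159, START (ST5), part 1: the kernels of two tori of sides at least `K ξ` differ by at most
`C (e^{-cK} + y) ξ²` in total mass (one side), from Theorem A (1) on the first torus.
-/

open Finset

namespace Vale.Agent.P159.H197

open Vale.Agent.P159.TM Vale.Agent.P159.TM.Spec Vale.Agent.P159.TM.H459 Vale.Agent.P159.TM.H265
open Vale.Agent.P159.TM.H705 (AB bx b0 dB pt Near)

variable {N M : ℕ} [NeZero N] [NeZero M] {b : ℝ} {ξ : ℕ} {y c C : ℝ}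

/-- the far tail of the kernel on an arbitrarily large torus -/
theorem far_exp (hb : 0 ≤ b) (hξ : 1 ≤ ξ) (hN : 2 * ξ ≤ N) (hc : 0 < c) (hC : 0 ≤ C) (hy : 0 < y)
    (hyc : y ≤ c) (hA : HA N b ξ hb y c C) {a : ℝ} (ha : 0 ≤ a)
    (hQ : H764.QK (ξ : ℝ) (H41.G b N (ξ : ℝ)) y a) (K : ℕ) :
    ∑ w ∈ univ.filter (fun w : V N => K * ξ / 4 < sn w), H41.G b N (ξ : ℝ) w ≤
      (ξ : ℝ) ^ 2 * (K2 c C * Real.exp (-(c * K / 32)) +
        2 * (2 + 80 * a) * (1 + 2 / c) * y) := by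
  classical
  have hξ' : (0 : ℝ) < ξ := by exact_mod_cast hξ
  have hG := fun w => H41.G_nonneg (N := N) hb hξ' w
  set L : ℕ := ⌊4 * c / y⌋₊ with hL
  have hLle : (L : ℝ) ≤ 4 * c / y := Nat.floor_le (by positivity)
  have hLge : 3 * c / y ≤ L := by
    have h1 : 4 * c / y < L + 1 := Nat.lt_floor_add_one _
    have h2 : 1 ≤ c / y := by rwa [le_div_iff₀ hy, one_mul]
    have h3 : 4 * c / y = 3 * c / y + c / y := by ring
    linarith
  have hL1 : 1 ≤ L := by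
    have h2 : 1 ≤ c / y := by rwa [le_div_iff₀ hy, one_mul]
    have h3 : 3 * c / y = 3 * (c / y) := by ring
    have : (1 : ℝ) ≤ L := by linarith
    exact_mod_cast this
  have hR : ((L * ξ / 4 : ℕ) : ℝ) * y ≤ c * ξ := by
    have h1 : ((L * ξ / 4 : ℕ) : ℝ) ≤ ((L * ξ : ℕ) : ℝ) / 4 := Nat.cast_div_le
    have h2 := mul_le_mul_of_nonneg_right h1 hy.le
    push_cast at h2
    have h3 : (L : ℝ) * y ≤ 4 * c := by rwa [le_div_iff₀ hy] at hLle
    have h4 : (L : ℝ) * ξ / 4 * y = (L * y) * ξ / 4 := by ring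
    rw [h4] at h2
    have h5 := mul_le_mul_of_nonneg_right h3 hξ'.le
    linarith
  have h1 := v2 hb hξ hN hc hC hy.le hA hR
  have h2 := H705.far_tail hL1 hξ hG (H41.G_swap b _) hy.le ha hQ (sum_G_le hb hξ)
  have h3 : 16 / (L : ℝ) ^ 2 ≤ 2 / c * y := by
    have h5 : 0 < 3 * c / y := by positivity
    have h6 := pow_le_pow_left₀ h5.le hLge 2
    have h7 : 16 / (L : ℝ) ^ 2 ≤ 16 / (3 * c / y) ^ 2 := by gcongr
    refine h7.trans ?_
    have h8 : 16 / (3 * c / y) ^ 2 = 16 / 9 * (y / c) * (y / c) := by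
      field_simp
      ring
    rw [h8]
    have h9 : y / c ≤ 1 := by rwa [div_le_one hc]
    have h10 : 0 ≤ y / c := by positivity
    calc 16 / 9 * (y / c) * (y / c) ≤ 16 / 9 * (y / c) * 1 :=
          mul_le_mul_of_nonneg_left h9 (by positivity)
      _ ≤ 2 * (y / c) := by linarith
      _ = 2 / c * y := by ring
  have h4 : ∑ w ∈ univ.filter (fun w : V N => K * ξ / 4 < sn w), H41.G b N (ξ : ℝ) w ≤
      ∑ w ∈ univ.filter (fun w : V N => K * ξ / 4 < sn w ∧ sn w ≤ L * ξ / 4),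
        H41.G b N (ξ : ℝ) w +
      ∑ w ∈ univ.filter (fun w : V N => L * ξ / 4 < sn w), H41.G b N (ξ : ℝ) w := by
    rw [sum_filter, sum_filter, sum_filter, ← sum_add_distrib]
    refine sum_le_sum fun w _ => ?_
    have := hG w
    by_cases k1 : K * ξ / 4 < sn w
    · by_cases k2 : sn w ≤ L * ξ / 4
      · rw [if_pos k1, if_pos ⟨k1, k2⟩, if_neg (by omega)]
        linarith
      · rw [if_pos k1, if_neg (fun h => k2 h.2), if_pos (by omega)]
        linarith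
    · rw [if_neg k1, if_neg (fun h => k1 h.1)]
      split_ifs <;> linarith
  have h5 : (∑ w ∈ univ.filter (fun w : V N => K * ξ / 4 < sn w ∧ sn w ≤ L * ξ / 4),
        H41.G b N (ξ : ℝ) w) * Real.exp (c * K / 32) ≤ K2 c C * (ξ : ℝ) ^ 2 := by
    refine le_trans ?_ h1
    rw [sum_mul]
    refine (sum_le_sum fun w hw => ?_).trans
      (sum_le_sum_of_subset_of_nonneg (s := univ.filter (fun w : V N => K * ξ / 4 < sn w ∧
        sn w ≤ L * ξ / 4)) (t := univ.filter (fun w : V N => sn w ≤ L * ξ / 4)) (fun w hw => by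
        rw [mem_filter] at hw ⊢
        exact ⟨hw.1, hw.2.2⟩) fun w _ _ => mul_nonneg (hG w) (Real.exp_pos _).le)
    refine mul_le_mul_of_nonneg_left (Real.exp_le_exp.2 ?_) (hG w)
    have h6 := (mem_filter.1 hw).2.1
    have h7 : K * ξ ≤ 4 * sn w := by omega
    have h8 : (K : ℝ) * ξ ≤ 4 * sn w := by exact_mod_cast h7
    rw [div_le_div_iff₀ (by norm_num) hξ']
    nlinarith
  have h6 : ∑ w ∈ univ.filter (fun w : V N => K * ξ / 4 < sn w ∧ sn w ≤ L * ξ / 4),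
        H41.G b N (ξ : ℝ) w ≤ K2 c C * (ξ : ℝ) ^ 2 * Real.exp (-(c * K / 32)) := by
    rw [Real.exp_neg, ← div_eq_mul_inv, le_div_iff₀ (Real.exp_pos _)]
    exact h5
  refine h4.trans ((add_le_add h6 h2).trans ?_)
  have h7 : 2 * (2 + 80 * a) * (y + 16 / (L : ℝ) ^ 2) ≤ 2 * (2 + 80 * a) * (y + 2 / c * y) := by
    gcongr
  have h8 := mul_le_mul_of_nonneg_left h7 (by positivity : 0 ≤ (ξ : ℝ) ^ 2)
  nlinarith [h8]

/-- **two tori** -/
theorem near_tori (hb : 0 ≤ b) (hξ : 1 ≤ ξ) (hc : 0 < c) (hC : 0 ≤ C) (hy : 0 < y)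
    (hyc : y ≤ c) (hA : HA N b ξ hb y c C) {a : ℝ} (ha : 0 ≤ a)
    (hQ : H764.QK (ξ : ℝ) (H41.G b N (ξ : ℝ)) y a) {K : ℕ} (hK : 8 ≤ K) (hKN : K * ξ ≤ N)
    (hKM : K * ξ ≤ M) (hKy : (K : ℝ) * y ≤ 2 * c) :
    Near (K * ξ / 4 + 1) (ξ : ℝ) (y + √C * K * Real.exp c * Real.exp (-(c * K / 4)) +
      (K2 c C * Real.exp (-(c * K / 32)) + 2 * (2 + 80 * a) * (1 + 2 / c) * y))
      (H41.G b N (ξ : ℝ)) (H41.G b M (ξ : ℝ)) := by
  have hξ' : (0 : ℝ) < ξ := by exact_mod_cast hξ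
  have h8 : 8 * ξ ≤ K * ξ := Nat.mul_le_mul_right ξ hK
  have h3 : (1 - y) * (ξ : ℝ) ^ 2 ≤ ∑ w, H41.G b N (ξ : ℝ) w := by
    have := hQ 0
    rw [H764.EE_zero, mul_zero, sub_zero, H705.Gh_zero] at this
    exact this
  exact H705.trans_near hK hξ hKN hKM (fun w => H41.G_nonneg hb hξ' w)
    (fun w => H41.G_nonneg hb hξ' w) (fun w => H41.G_refl b _ w) (fun w => H41.G_refl b _ w)
    (fun w => H41.G_swap b _ w) (fun w => H41.G_swap b _ w)
    (AB N b (ξ : ℝ) (K * ξ)) (fun u _ z _ => H705.AB_le hb hξ' u z)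
    (fun u hu z hz => H705.AB_le' hKN hKM hb hξ' hu hz)
    (v1 hb hξ hc.le hC hy.le hA hK hKN hKy)
    (far_exp hb hξ (by omega) hc hC hy hyc hA ha hQ K) h3 (sum_G_le hb hξ) (sum_G_le hb hξ)

end Vale.Agent.P159.H197
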