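import Vale.Agent.P159.H197.Win2
import Vale.Agent.P159.H197.Near2

/-!
P159, START (ST5), part 2: the hypothesis `Hyp 5 W` on the torus of side `2^k` at the scales
`ξ = 2^(k-i)`, and the kernels at integer wave numbers.
-/

open Finset

namespace Vale.Agent.P159.H197

open Vale.Agent.P159 Vale.Agent.P159.TM
open Vale.Agent.P159.TM.H764 (Gh cN sN QK Hyp EE pw DD)
open Vale.Agent.P159.TM.H705 (TT Near)
open Vale.Agent.P159.TM.H41 (G)

noncomputable section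

/-- `QU` and `(H2)` on the torus of side `2^k` at the scale `2^(k-i)`, `i` large, `k` large -/
theorem hyp_big {b : ℝ} (hb : 0 < b) (hY : 0 < helicity b) {a' : ℝ} (haY : 1 / helicity b < a')
    (ha5 : 2 * a' ≤ 5) (W : ℝ) {y0 : ℝ} (hy0 : 0 < y0) :
    ∃ i₁ : ℕ, ∀ i : ℕ, i₁ ≤ i → ∃ k₁ : ℕ, i ≤ k₁ ∧ ∀ k : ℕ, k₁ ≤ k →
      Hyp 5 W ((2 ^ (k - i) : ℕ) : ℝ) (G b (2 ^ k) ((2 ^ (k - i) : ℕ) : ℝ)) y0 a' := by
  have ha0 : 0 < a' := (by positivity : 0 < 1 / helicity b).trans haY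
  obtain ⟨s, hs⟩ := pow_unbounded_of_one_lt (8 * a' * W ^ 2) (show (1 : ℝ) < 4 by norm_num)
  have h4s : (0 : ℝ) < 4 ^ s := by positivity
  set y1 : ℝ := min y0 (min (1 / 4) (1 / 4 ^ s)) with hy1
  have hy1p : 0 < y1 := lt_min hy0 (lt_min (by norm_num) (by positivity))
  have hy10 : y1 ≤ y0 := min_le_left _ _
  have hy14 : y1 ≤ 1 / 4 := (min_le_right _ _).trans (min_le_left _ _)
  have hy1s : y1 ≤ 1 / 4 ^ s := (min_le_right _ _).trans (min_le_right _ _)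
  obtain ⟨i₁, hi₁⟩ := H41.qk_of_win hb.le hY haY (H41.win hb) hy1p
  refine ⟨i₁, fun i hi => ?_⟩
  obtain ⟨k₁, hk₁, hq₁⟩ := hi₁ i hi
  obtain ⟨k₂, hk₂, hq₂⟩ := hi₁ (i + s) (hi.trans (Nat.le_add_right _ _))
  refine ⟨max k₁ k₂, hk₁.trans (le_max_left _ _), fun k hk => ?_⟩
  have hkk1 : k₁ ≤ k := (le_max_left _ _).trans hk
  have hkk2 : k₂ ≤ k := (le_max_right _ _).trans hk
  have hik : i ≤ k := hk₁.trans hkk1
  have hisk : i + s ≤ k := hk₂.trans hkk2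
  have hx : (0 : ℝ) < ((2 ^ (k - i) : ℕ) : ℝ) := by positivity
  have hx2 : (0 : ℝ) < ((2 ^ (k - (i + s)) : ℕ) : ℝ) := by positivity
  have hQ1 := hq₁ k hkk1
  have hQ2 := hq₂ k hkk2
  have hMx : (2 : ℝ) ^ s * ((2 ^ (k - (i + s)) : ℕ) : ℝ) = ((2 ^ (k - i) : ℕ) : ℝ) := by
    push_cast
    rw [← pow_add]
    congr 1
    omega
  refine ⟨(hQ1.mono hx.le hy10 le_rfl).qu, ?_⟩
  have hE := H41.e7 (N := 2 ^ k) (b := b) hb.le hx2
    (show ((2 ^ (k - (i + s)) : ℕ) : ℝ) ≤ (2 : ℝ) ^ s * ((2 ^ (k - (i + s)) : ℕ) : ℝ) from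
      le_mul_of_one_le_left hx2.le (one_le_pow₀ (by norm_num)))
  have h22 : ((2 : ℝ) ^ s) ^ 2 = 4 ^ s := by
    rw [← pow_mul, mul_comm, pow_mul]
    norm_num
  have h := H764.H2.step (C2 := 5) (W := W) (M := 2 ^ s) (by norm_num) hx2
    (one_le_pow₀ (by norm_num)) (fun k => H41.Gh_nonneg hb.le (by rw [hMx]; exact hx) k) hQ2 hE
    hy1p.le hy14 ha0.le ha5 (by rw [h22]; exact hs.le) (by
      rw [h22]
      rw [le_div_iff₀ h4s] at hy1s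
      linarith)
  rw [hMx] at h
  exact h

/-! ### wave numbers -/

/-- the transform at an integer multiple of `2π/N` -/
lemma TT_int {N : ℕ} [NeZero N] (K : ZMod N × ZMod N → ℝ) (J₁ J₂ : ℤ) :
    TT K (2 * Real.pi * J₁ / N) (2 * Real.pi * J₂ / N) = Gh K ((J₁ : ZMod N), (J₂ : ZMod N)) := by
  rw [H764.Gh_dt]
  unfold TT
  refine sum_congr rfl fun w _ => ?_
  have h : H764.dt ((J₁ : ZMod N), (J₂ : ZMod N)) w =
      ((J₁ * w.1.valMinAbs + J₂ * w.2.valMinAbs : ℤ) : ZMod N) := by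
    unfold H764.dt
    push_cast
    simp only [ZMod.coe_valMinAbs]
  rw [h, H764.cN_int]
  congr 2
  push_cast
  ring

lemma Gh_abs {b ξ : ℝ} {N : ℕ} [NeZero N] (J₁ J₂ : ℤ) :
    Gh (G b N ξ) ((J₁ : ZMod N), (J₂ : ZMod N)) =
      Gh (G b N ξ) (((J₁.natAbs : ℕ) : ZMod N), ((J₂.natAbs : ℕ) : ZMod N)) := by
  rw [H764.Gh_prod _ (fun w => H41.G_refl b _ w), H764.Gh_prod _ (fun w => H41.G_refl b _ w)]
  have h : ∀ (J : ℤ) (w : ZMod N), cN ((J : ZMod N) * w) = cN (((J.natAbs : ℕ) : ZMod N) * w) := by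
    intro J w
    rcases Int.natAbs_eq J with h | h
    · conv_lhs => rw [h]
      rw [Int.cast_natCast]
    · conv_lhs => rw [h]
      rw [Int.cast_neg, Int.cast_natCast, neg_mul, H764.cN_neg]
  refine sum_congr rfl fun w _ => ?_
  simp only
  rw [h J₁, h J₂]

/-- `|p| ≤ π` -/
lemma abs_pw_le {N : ℕ} [NeZero N] (j : ZMod N) : |pw j| ≤ Real.pi := by
  have hN : (0 : ℝ) < N := by exact_mod_cast NeZero.pos N
  have hπ := Real.pi_pos
  unfold pw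
  rw [abs_div, abs_mul, abs_of_pos (by positivity : (0 : ℝ) < 2 * Real.pi), abs_of_pos hN,
    div_le_iff₀ hN]
  have h1 : (j.valMinAbs.natAbs : ℝ) ≤ N / 2 := by
    have h2 := ZMod.natAbs_valMinAbs_le j
    have h3 : ((N / 2 : ℕ) : ℝ) ≤ (N : ℝ) / 2 := Nat.cast_div_le
    exact (by exact_mod_cast h2 : (j.valMinAbs.natAbs : ℝ) ≤ ((N / 2 : ℕ) : ℝ)).trans h3
  have h4 : |(j.valMinAbs : ℝ)| = (j.valMinAbs.natAbs : ℝ) := by
    rw [← Int.cast_abs, Nat.cast_natAbs]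
  rw [h4]
  nlinarith

/-- lower bound of the symbol -/
lemma EE_ge {N : ℕ} [NeZero N] (k : ZMod N × ZMod N) :
    4 / Real.pi ^ 2 * (pw k.1 ^ 2 + pw k.2 ^ 2) ≤ EE k := by
  unfold EE
  rw [H764.cN_pw, H764.cN_pw]
  have h1 := H764.one_sub_cos_low (abs_pw_le k.1)
  have h2 := H764.one_sub_cos_low (abs_pw_le k.2)
  have h3 : 4 / Real.pi ^ 2 * (pw k.1 ^ 2 + pw k.2 ^ 2) =
      2 * (2 / Real.pi ^ 2 * pw k.1 ^ 2) + 2 * (2 / Real.pi ^ 2 * pw k.2 ^ 2) := by ring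
  rw [h3]
  linarith

/-- sharp lower bound of the symbol -/
lemma EE_ge' {N : ℕ} [NeZero N] (k : ZMod N × ZMod N) :
    pw k.1 ^ 2 + pw k.2 ^ 2 - (pw k.1 ^ 4 + pw k.2 ^ 4) / 12 ≤ EE k := by
  unfold EE
  rw [H764.cN_pw, H764.cN_pw]
  have h1 := H764.one_sub_cos_ge (pw k.1)
  have h2 := H764.one_sub_cos_ge (pw k.2)
  linarith

end

end Vale.Agent.P159.H197
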