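import Vale.Agent.P159.H197.Nk12
import Vale.Agent.P159.H37.Rxg

/-!
P159 / second order flow, FLATSTEP (helper197, parts (A) and (C) of row 4805): torus comparison and
zero mode of the kernel `GA` at the masses `t_m` and `4 t_m` of one step, in the letters of LIST
P_up.
-/

open Finset MeasureTheory Matrix Filter Topology

set_option linter.unusedSectionVars false

namespace Vale.Agent.P159.H197

open Vale.Agent.P159.TM.SpecC (wT)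
open Vale.Agent.P159.TM.Spec (V Rng)
open Vale.Agent.P159.TM.H764 (Gh)
open Vale.Agent.P159.H612 (GA)
open Vale.Agent.P159.H864 (yt)
open Vale.Agent.P159.H846 (SE)
open Vale.Agent.P159.H972 (Par lg RNG SI en tn_pos)
open Vale.Agent.P159.H37 (small_rpow lg_lo lg_hi)

noncomputable section

/-- stretched exponentials beat powers -/
lemma small_sexp {c th A B : ℝ} (hc : 0 < c) (hth : 0 < th) (p : ℝ) (hB : 0 < B) :
    ∃ e0, 0 < e0 ∧ ∀ e : ℝ, 0 < e → e ≤ e0 →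
      A * e ^ (-p) * Real.exp (-(c * √(e ^ (-th)))) ≤ B := by
  have h1 : Tendsto (fun x : ℝ => x ^ (2 * p / th) * Real.exp (-c * x)) atTop (𝓝 0) :=
    tendsto_rpow_mul_exp_neg_mul_atTop_nhds_zero _ _ hc
  have h2 : Tendsto (fun e : ℝ => e ^ (-(th / 2))) (𝓝[>] 0) atTop :=
    tendsto_rpow_neg_nhdsGT_zero (by linarith)
  have h3 := (h1.comp h2).const_mul A
  rw [mul_zero] at h3
  have h4 := h3.eventually (gt_mem_nhds hB)
  rw [eventually_nhdsWithin_iff, Metric.eventually_nhds_iff] at h4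
  obtain ⟨d, hd, h5⟩ := h4
  refine ⟨d / 2, by positivity, fun e he he2 => ?_⟩
  have h6 := (h5 (y := e) (by rw [Real.dist_eq, sub_zero, abs_of_pos he]; linarith) he).le
  simp only [Function.comp_apply] at h6
  have e1 : (e ^ (-(th / 2))) ^ (2 * p / th) = e ^ (-p) := by
    rw [← Real.rpow_mul he.le]
    congr 1
    field_simp
  have e2 : √(e ^ (-th)) = e ^ (-(th / 2)) := by
    rw [Real.sqrt_eq_rpow, ← Real.rpow_mul he.le]
    congr 1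
    ring
  rw [e1] at h6
  rw [e2, mul_assoc]
  have e3 : -(c * e ^ (-(th / 2))) = -c * e ^ (-(th / 2)) := by ring
  rw [e3]
  exact h6

section numbers

variable {P : Par} {b sg : ℝ} {N0 n m : ℕ} {ε Y e : ℝ}

/-- size of the torus -/
lemma fl_tor (he : 0 < e) (he1 : e ≤ 1) {r' : ℕ}
    (h : r' ≤ m + P.kE e + P.q0 * (4 * P.w e)) :
    (4 : ℝ) ^ r' / 4 ^ m ≤ 4 ^ (1 + 4 * P.q0) * e ^ (-(2 * (P.th + 4 * P.q0 * P.thp))) := by
  have hk := lg_hi P.th0.le he he1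
  have hw := lg_hi P.thp0.le he he1
  rw [div_le_iff₀ (by positivity)]
  have h1 : (4 : ℝ) ^ r' ≤ 4 ^ (m + P.kE e + P.q0 * (4 * P.w e)) :=
    pow_le_pow_right₀ (by norm_num) h
  have h2 : (4 : ℝ) ^ (m + P.kE e + P.q0 * (4 * P.w e)) =
      (((2 : ℝ) ^ P.kE e) ^ 2 * ((2 : ℝ) ^ P.w e) ^ (8 * P.q0)) * 4 ^ m := by
    have e4 : (4 : ℝ) = 2 ^ 2 := by norm_num
    rw [e4]
    simp only [← pow_mul, ← pow_add]
    congr 1
    ring
  have h3 : ((2 : ℝ) ^ P.kE e) ^ 2 * ((2 : ℝ) ^ P.w e) ^ (8 * P.q0) ≤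
      (2 * e ^ (-P.th)) ^ 2 * (2 * e ^ (-P.thp)) ^ (8 * P.q0) := by
    refine mul_le_mul (pow_le_pow_left₀ (by positivity) hk _)
      (pow_le_pow_left₀ (by positivity) hw _) (by positivity) (by positivity)
  have h4 : (2 * e ^ (-P.th)) ^ 2 * (2 * e ^ (-P.thp)) ^ (8 * P.q0) =
      4 ^ (1 + 4 * P.q0) * e ^ (-(2 * (P.th + 4 * P.q0 * P.thp))) := by
    rw [mul_pow, mul_pow, ← Real.rpow_natCast (e ^ (-P.th)), ← Real.rpow_mul he.le,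
      ← Real.rpow_natCast (e ^ (-P.thp)), ← Real.rpow_mul he.le]
    have e5 : (4 : ℝ) ^ (1 + 4 * P.q0) = 2 ^ 2 * 2 ^ (8 * P.q0) := by
      have e4 : (4 : ℝ) = 2 ^ 2 := by norm_num
      rw [e4, ← pow_mul, ← pow_add]
      congr 1
      ring
    have e6 : e ^ (-(2 * (P.th + 4 * P.q0 * P.thp))) =
        e ^ (-P.th * ((2 : ℕ) : ℝ)) * e ^ (-P.thp * ((8 * P.q0 : ℕ) : ℝ)) := by
      rw [← Real.rpow_add he]
      congr 1
      push_cast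
      ring
    rw [e5, e6]
    ring
  calc (4 : ℝ) ^ r' ≤ (((2 : ℝ) ^ P.kE e) ^ 2 * ((2 : ℝ) ^ P.w e) ^ (8 * P.q0)) * 4 ^ m :=
        h1.trans_eq h2
    _ ≤ _ := by
        rw [← h4]
        exact mul_le_mul_of_nonneg_right h3 (by positivity)

/-- the zero background number of the step -/
lemma fl_yt (hS : SI P b N0 n m ε Y) (he : en sg ε Y ≤ e) (hsg : 16 * P.thp ≤ sg)
    (hsg1 : sg ≤ 1) : 4 ^ (m - n) * max Y ε ≤ 512 * √e := by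
  have hε := hS.εpos
  have hε1 := hS.ε1
  have hY := hS.yb.1
  have he2 : ε / 2 ≤ e := hS.half he
  have he0 : 0 < e := by linarith
  have hsq := hS.sq he
  have hthp := P.thp0
  have hw := lg_hi hthp.le hε hε1
  have h1 : (4 : ℝ) ^ (m - n) ≤ 256 * ε ^ (-(8 * P.thp)) := by
    have h2 : m - n ≤ 4 * P.w ε := by
      have := hS.up
      omega
    calc (4 : ℝ) ^ (m - n) ≤ 4 ^ (4 * P.w ε) := pow_le_pow_right₀ (by norm_num) h2
      _ = ((2 : ℝ) ^ P.w ε) ^ 8 := by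
          have e4 : (4 : ℝ) = 2 ^ 2 := by norm_num
          rw [e4, ← pow_mul, ← pow_mul]
          congr 1
          ring
      _ ≤ (2 * ε ^ (-P.thp)) ^ 8 := pow_le_pow_left₀ (by positivity) hw _
      _ = 256 * ε ^ (-(8 * P.thp)) := by
          rw [mul_pow, ← Real.rpow_natCast (ε ^ (-P.thp)), ← Real.rpow_mul hε.le]
          norm_num
          congr 1
          ring
  have h3 : ε ^ (-(8 * P.thp)) * Y ≤ √e := by
    rw [← Real.sqrt_sq (by positivity : 0 ≤ ε ^ (-(8 * P.thp)) * Y)]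
    apply Real.sqrt_le_sqrt
    have e1 : (ε ^ (-(8 * P.thp)) * Y) ^ 2 =
        ε ^ (sg - 16 * P.thp) * (ε ^ (-sg) * Y ^ 2) := by
      rw [mul_pow, ← Real.rpow_natCast (ε ^ (-(8 * P.thp))), ← Real.rpow_mul hε.le,
        ← mul_assoc, ← Real.rpow_add hε]
      congr 2
      push_cast
      ring
    rw [e1]
    calc ε ^ (sg - 16 * P.thp) * (ε ^ (-sg) * Y ^ 2) ≤ 1 * e := by
          refine mul_le_mul (Real.rpow_le_one hε.le hε1 (by linarith)) hsq (by positivity)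
            (by norm_num)
      _ = e := one_mul e
  have h4 : ε ^ (-(8 * P.thp)) * ε ≤ 2 * √e := by
    have e1 : ε ^ (-(8 * P.thp)) * ε = ε ^ (1 - 8 * P.thp) := by
      nth_rewrite 2 [← Real.rpow_one ε]
      rw [← Real.rpow_add hε]
      congr 1
      ring
    have e2 : ε ^ (1 - 8 * P.thp) ≤ ε ^ (1 / 2 : ℝ) :=
      Real.rpow_le_rpow_of_exponent_ge hε hε1 (by linarith)
    rw [e1]
    refine e2.trans ?_
    rw [← Real.sqrt_eq_rpow]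
    have e3 : 2 * √e = √(4 * e) := by
      rw [Real.sqrt_mul (by norm_num), show (4 : ℝ) = 2 ^ 2 by norm_num,
        Real.sqrt_sq (by norm_num)]
    rw [e3]
    exact Real.sqrt_le_sqrt (by linarith)
  calc (4 : ℝ) ^ (m - n) * max Y ε ≤ 256 * ε ^ (-(8 * P.thp)) * max Y ε := by
        exact mul_le_mul_of_nonneg_right h1 (le_max_of_le_left hY.le)
    _ = 256 * max (ε ^ (-(8 * P.thp)) * Y) (ε ^ (-(8 * P.thp)) * ε) := by
        rw [mul_assoc, mul_max_of_nonneg _ _ (by positivity)]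
    _ ≤ 256 * (2 * √e) := by
        refine mul_le_mul_of_nonneg_left (max_le (h3.trans ?_) h4) (by norm_num)
        have := Real.sqrt_nonneg e
        linarith
    _ = 512 * √e := by ring

end numbers


section powers

variable {c C A ρ κ th e K Y' q : ℝ}

lemma fl_w (he0 : 0 < e) (hK0 : 0 ≤ K) (hK : K ≤ 4 * (A * e ^ (-(2 * ρ)))) (hA : 0 ≤ A)
    (hY0 : 0 ≤ Y') (hY : Y' ≤ 512 * √e) : K * Y' ≤ 2048 * A * e ^ (1 / 2 - 2 * ρ) := by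
  have hZZ : e ^ (-(2 * ρ)) * √e = e ^ (1 / 2 - 2 * ρ) := by
    rw [Real.sqrt_eq_rpow, ← Real.rpow_add he0]
    congr 1
    ring
  calc K * Y' ≤ 4 * (A * e ^ (-(2 * ρ))) * (512 * √e) :=
        mul_le_mul hK hY hY0 (by positivity)
    _ = 2048 * A * (e ^ (-(2 * ρ)) * √e) := by ring
    _ = _ := by rw [hZZ]

lemma fl_w2 (he0 : 0 < e) (hK0 : 0 ≤ K) (hK : K ≤ 4 * (A * e ^ (-(2 * ρ)))) (hA : 0 ≤ A)
    (hY0 : 0 ≤ Y') (hY : Y' ≤ 512 * √e) :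
    (K * Y') ^ 2 ≤ (2048 * A) ^ 2 * e ^ (1 - 4 * ρ) := by
  calc (K * Y') ^ 2 ≤ (2048 * A * e ^ (1 / 2 - 2 * ρ)) ^ 2 :=
        pow_le_pow_left₀ (mul_nonneg hK0 hY0) (fl_w he0 hK0 hK hA hY0 hY) 2
    _ = (2048 * A) ^ 2 * e ^ (1 - 4 * ρ) := by
        rw [mul_pow, ← Real.rpow_natCast (e ^ (1 / 2 - 2 * ρ)), ← Real.rpow_mul he0.le]
        congr 2
        push_cast
        ring

lemma fl_q (he0 : 0 < e) (hK : K ≤ 4 * (A * e ^ (-(2 * ρ))))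
    (h : 4 * A * e ^ (1 / 4 - 2 * ρ) ≤ 1) : e ^ (1 / 4 : ℝ) * K ≤ 1 := by
  have h2 : e ^ (1 / 4 : ℝ) * e ^ (-(2 * ρ)) = e ^ (1 / 4 - 2 * ρ) := by
    rw [← Real.rpow_add he0]
    congr 1
  calc e ^ (1 / 4 : ℝ) * K ≤ e ^ (1 / 4 : ℝ) * (4 * (A * e ^ (-(2 * ρ)))) := by
        gcongr
    _ = 4 * A * (e ^ (1 / 4 : ℝ) * e ^ (-(2 * ρ))) := by ring
    _ ≤ 1 := by rw [h2]; exact h

lemma fl_err (he0 : 0 < e) (hK0 : 0 ≤ K) (hK : K ≤ 4 * (A * e ^ (-(2 * ρ)))) (hA : 0 ≤ A)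
    (hY0 : 0 ≤ Y') (hY : Y' ≤ 512 * √e) (hc : 0 < c) (hC : 0 < C) (hq : e ^ (-th) ≤ q)
    (k3 : C * (4 * A) * e ^ (-(1 - 2 * ρ - κ)) * Real.exp (-(c * √(e ^ (-th)))) ≤ 1 / 2)
    (k4 : 112 * (2048 * A) ^ 2 * e ^ κ ≤ 1 / 2) :
    C * K * Real.exp (-(c * √q)) + 112 * (K * Y') ^ 2 ≤ e ^ (1 - 4 * ρ - κ) := by
  have hω2 := fl_w2 he0 hK0 hK hA hY0 hY
  have hsε : e ^ (1 - 4 * ρ - κ) = e ^ (1 - 4 * ρ) * e ^ (-κ) := by
    rw [← Real.rpow_add he0]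
    congr 1
  have hκe : e ^ κ * e ^ (-κ) = 1 := by
    rw [← Real.rpow_add he0, add_neg_cancel, Real.rpow_zero]
  have g1 : C * K * Real.exp (-(c * √q)) ≤ 1 / 2 * e ^ (1 - 4 * ρ - κ) := by
    have f3 : Real.exp (-(c * √q)) ≤ Real.exp (-(c * √(e ^ (-th)))) := by
      apply Real.exp_le_exp.2
      have := Real.sqrt_le_sqrt hq
      nlinarith
    have f4 : e ^ (-(2 * ρ)) = e ^ (-(1 - 2 * ρ - κ)) * e ^ (1 - 4 * ρ - κ) := by
      rw [← Real.rpow_add he0]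
      congr 1
      ring
    calc C * K * Real.exp (-(c * √q)) ≤
          C * (4 * (A * e ^ (-(2 * ρ)))) * Real.exp (-(c * √(e ^ (-th)))) := by gcongr
      _ = C * (4 * A) * e ^ (-(1 - 2 * ρ - κ)) * Real.exp (-(c * √(e ^ (-th)))) *
            e ^ (1 - 4 * ρ - κ) := by rw [f4]; ring
      _ ≤ 1 / 2 * e ^ (1 - 4 * ρ - κ) := mul_le_mul_of_nonneg_right k3 (by positivity)
  have g2 : 112 * (K * Y') ^ 2 ≤ 1 / 2 * e ^ (1 - 4 * ρ - κ) := by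
    calc 112 * (K * Y') ^ 2 ≤ 112 * ((2048 * A) ^ 2 * e ^ (1 - 4 * ρ)) := by gcongr
      _ = (112 * (2048 * A) ^ 2 * e ^ κ) * (e ^ (1 - 4 * ρ) * e ^ (-κ)) := by
          linear_combination (112 * (2048 * A) ^ 2 * e ^ (1 - 4 * ρ)) * (-hκe)
      _ ≤ 1 / 2 * (e ^ (1 - 4 * ρ) * e ^ (-κ)) :=
          mul_le_mul_of_nonneg_right k4 (by positivity)
      _ = _ := by rw [hsε]
  linarith

lemma fl_zero (he0 : 0 < e) (hK0 : 0 ≤ K) (hK : K ≤ 4 * (A * e ^ (-(2 * ρ)))) (hA : 0 ≤ A)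
    (hY0 : 0 ≤ Y') (hY : Y' ≤ 512 * √e)
    (k5 : 58 * (2048 * A) ^ 2 * (4 * A) * e ^ κ ≤ 1) :
    58 * (K * Y') ^ 2 * K ≤ e ^ (1 - 6 * ρ - κ) := by
  have hω2 := fl_w2 he0 hK0 hK hA hY0 hY
  have hκe : e ^ κ * e ^ (-κ) = 1 := by
    rw [← Real.rpow_add he0, add_neg_cancel, Real.rpow_zero]
  have f2 : e ^ (1 - 6 * ρ - κ) = e ^ (1 - 4 * ρ) * e ^ (-(2 * ρ)) * e ^ (-κ) := by
    rw [← Real.rpow_add he0, ← Real.rpow_add he0]
    congr 1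
    ring
  calc 58 * (K * Y') ^ 2 * K ≤
        58 * ((2048 * A) ^ 2 * e ^ (1 - 4 * ρ)) * (4 * (A * e ^ (-(2 * ρ)))) := by gcongr
    _ = (58 * (2048 * A) ^ 2 * (4 * A) * e ^ κ) *
          (e ^ (1 - 4 * ρ) * e ^ (-(2 * ρ)) * e ^ (-κ)) := by
        linear_combination
          (58 * (2048 * A) ^ 2 * (4 * A) * e ^ (1 - 4 * ρ) * e ^ (-(2 * ρ))) * (-hκe)
    _ ≤ 1 * (e ^ (1 - 4 * ρ) * e ^ (-(2 * ρ)) * e ^ (-κ)) :=
        mul_le_mul_of_nonneg_right k5 (by positivity)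
    _ = _ := by rw [f2, one_mul]

end powers

/-- torus comparison at all site momenta `k ≠ 0` of the smaller torus -/
def NKc (b t δ : ℝ) (r r' : ℕ) : Prop :=
  ∀ p q : ℕ, (((p : ZMod (2 ^ r)), (q : ZMod (2 ^ r))) : V (2 ^ r)) ≠ 0 →
    |Gh (fun z => GA (2 ^ r) b t 0 z) ((p : ZMod (2 ^ r)), (q : ZMod (2 ^ r))) -
      Gh (fun z => GA (2 ^ r') b t 0 z)
        (((p * 2 ^ (r' - r) : ℕ) : ZMod (2 ^ r')), ((q * 2 ^ (r' - r) : ℕ) : ZMod (2 ^ r')))| ≤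
      δ / t

/-- zero mode -/
def SEz (b t ζ : ℝ) (r : ℕ) : Prop :=
  0 ≤ SE t (fun z => GA (2 ^ r) b t 0 z) 0 ∧ SE t (fun z => GA (2 ^ r) b t 0 z) 0 ≤ ζ * t

/-- the output of `nkt_pow` -/
def NKp (b1 b2 W c C ys : ℝ) (X : ℕ) : Prop :=
    ∀ (j r r' : ℕ) (b y Y : ℝ), r ≤ r' →
      Rng b1 b2 (5 / 2) W ys X (2 ^ r) b (2 ^ j) y →
      Rng b1 b2 (5 / 2) W ys X (2 ^ r') b (2 ^ j) y →
      y * (4 : ℝ) ^ r' ≤ 4 ^ j → 0 ≤ Y →
      (∀ τ, H972.tn j ≤ τ → τ ≤ 2 * H972.tn j → yt (2 ^ r) b τ ≤ Y ∧ yt (2 ^ r') b τ ≤ Y) →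
      4 * ((4 : ℝ) ^ r' / 4 ^ j * Y) ≤ 1 →
      ∀ p q : ℕ, (((p : ZMod (2 ^ r)), (q : ZMod (2 ^ r))) : V (2 ^ r)) ≠ 0 →
        |Gh (fun z => GA (2 ^ r) b (H972.tn j) 0 z) ((p : ZMod (2 ^ r)), (q : ZMod (2 ^ r))) -
          Gh (fun z => GA (2 ^ r') b (H972.tn j) 0 z)
            (((p * 2 ^ (r' - r) : ℕ) : ZMod (2 ^ r')), ((q * 2 ^ (r' - r) : ℕ) : ZMod (2 ^ r')))| ≤
          (C * ((4 : ℝ) ^ r' / 4 ^ j) * Real.exp (-(c * √((2 : ℝ) ^ r / 2 ^ j))) +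
            112 * ((4 : ℝ) ^ r' / 4 ^ j * Y) ^ 2) / H972.tn j

/-- the step at one index `j` (`m` or `m - 1`) -/
lemma flat_core {P : Par} {W c C A ρ κ ys sg : ℝ} {X : ℕ} (hc : 0 < c) (hC : 0 < C)
    (h : NKp P.b1 P.b2 W c C ys X) (p3 : P.W = W) (p4 : P.ys ≤ ys) (p5 : X ≤ P.X0)
    (hb1 : 0 < P.b1) (hpp : P.th ≤ P.thp) (hA : 0 < A)
    {b : ℝ} {N0 n m : ℕ} {ε Y e : ℝ} (hS : SI P b N0 n m ε Y) (he : en sg ε Y ≤ e)
    (hees : e ≤ P.es) (hy : 4 ^ (m - n) * max Y ε ≤ 512 * √e) (h1κ : 0 ≤ 1 - 6 * ρ - κ)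
    {r r' : ℕ} (hr : m + P.kE e ≤ r) (hrr : r ≤ r')
    (hT0 : (4 : ℝ) ^ r' / 4 ^ m ≤ A * e ^ (-(2 * ρ)))
    (k1 : 8192 * A * e ^ (1 / 2 - 2 * ρ) ≤ 1) (k2 : 4 * A * e ^ (1 / 4 - 2 * ρ) ≤ 1)
    (k3 : C * (4 * A) * e ^ (-(1 - 2 * ρ - κ)) * Real.exp (-(c * √(e ^ (-P.th)))) ≤ 1 / 2)
    (k4 : 112 * (2048 * A) ^ 2 * e ^ κ ≤ 1 / 2)
    (k5 : 58 * (2048 * A) ^ 2 * (4 * A) * e ^ κ ≤ 1)
    (j : ℕ) (hjm : j ≤ m) (hmj : m ≤ j + 1) (htj : 2 * H972.tn j ≤ H972.tn n)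
    (Q1 : RNG P b j r e) (Q2 : RNG P b j r' e) :
    NKc b (H972.tn j) (e ^ (1 - 4 * ρ - κ)) r r' ∧
      SEz b (H972.tn j) (e ^ (1 - 6 * ρ - κ)) r := by
  have hε := hS.εpos
  have he0 : 0 < e := by
    have := hS.half he
    linarith
  have hele1 : e ≤ 1 := hees.trans (P.es1.trans (by norm_num))
  have hb : 0 < b := hb1.trans_le Q1.hb1
  have hK1 : (4 : ℝ) ^ r' / 4 ^ j ≤ 4 * (A * e ^ (-(2 * ρ))) := by
    have h1 : (4 : ℝ) ^ m ≤ 4 * 4 ^ j := by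
      calc (4 : ℝ) ^ m ≤ 4 ^ (j + 1) := pow_le_pow_right₀ (by norm_num) hmj
        _ = 4 * 4 ^ j := by ring
    have h2 : (4 : ℝ) ^ r' / 4 ^ j ≤ 4 * (4 ^ r' / 4 ^ m) := by
      rw [← mul_div_assoc, div_le_div_iff₀ (by positivity) (by positivity)]
      have h3 : (0 : ℝ) < 4 ^ r' := by positivity
      nlinarith
    linarith
  have hK0 : (0 : ℝ) ≤ 4 ^ r' / 4 ^ j := by positivity
  have hRel : ∀ s, RNG P b j s e → Rng P.b1 P.b2 (5 / 2) W ys X (2 ^ s) b (2 ^ j)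
      (e ^ (1 / 4 : ℝ)) := by
    intro s hs
    unfold H972.RNG at hs
    rw [p3] at hs
    exact ⟨hs.hb1, hs.hb2, p5.trans hs.hX, (Nat.mul_le_mul_right _ p5).trans hs.hK, hs.hd,
      hs.y0, hs.y1.trans p4, hs.hyp⟩
  have hyτ : ∀ s, m ≤ s → ∀ τ, H972.tn j ≤ τ → τ ≤ 2 * H972.tn j →
      yt (2 ^ s) b τ ≤ 4 ^ (m - n) * max Y ε := by
    intro s hs τ h1 h2
    refine hS.yt hb hpp hs (le_trans ?_ h1) (h2.trans htj)
    unfold H972.tn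
    exact inv_anti₀ (by positivity) (pow_le_pow_right₀ (by norm_num) hjm)
  have hY0 : (0 : ℝ) ≤ 4 ^ (m - n) * max Y ε :=
    mul_nonneg (by positivity) (le_max_of_le_left hS.yb.1.le)
  have hω := fl_w he0 hK0 hK1 hA.le hY0 hy
  have hω1 : 4 * ((4 : ℝ) ^ r' / 4 ^ j * (4 ^ (m - n) * max Y ε)) ≤ 1 := by linarith
  have hQ : e ^ (1 / 4 : ℝ) * (4 : ℝ) ^ r' ≤ 4 ^ j := by
    have h3 := fl_q he0 hK1 k2
    rwa [← mul_div_assoc, div_le_one (by positivity)] at h3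
  have ht := tn_pos j
  constructor
  · intro p q hk
    have h1 := h j r r' b (e ^ (1 / 4 : ℝ)) (4 ^ (m - n) * max Y ε) hrr (hRel r Q1) (hRel r' Q2)
      hQ hY0 (fun τ u1 u2 => ⟨hyτ r (by omega) τ u1 u2, hyτ r' (by omega) τ u1 u2⟩) hω1 p q hk
    refine h1.trans ?_
    apply div_le_div_of_nonneg_right _ ht.le
    refine fl_err he0 hK0 hK1 hA.le hY0 hy hc hC ?_ k3 k4
    have u1 : e ^ (-P.th) ≤ (2 : ℝ) ^ P.kE e := lg_lo he0
    refine u1.trans ?_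
    rw [le_div_iff₀ (by positivity), ← pow_add]
    exact pow_le_pow_right₀ (by norm_num) (by omega)
  · have f0 := fl_zero he0 hK0 hK1 hA.le hY0 hy k5
    have f3 : e ^ (1 - 6 * ρ - κ) ≤ 1 := Real.rpow_le_one he0.le hele1 h1κ
    obtain ⟨s1, s2⟩ := se_pow hb hrr hY0 (fun τ u1 u2 => hyτ r (by omega) τ u1 u2) hω1
      (f0.trans f3)
    exact ⟨s1, s2.trans (mul_le_mul_of_nonneg_right f0 ht.le)⟩

/-- **FLATSTEP, parts (A) and (C)**: at the masses `t_m` and `4 t_m` of one step, all tori of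
level `m`: torus comparison with error `e ^ (1 - 4 ρ - κ)`, zero mode `e ^ (1 - 6 ρ - κ)`,
`ρ = th + 4 q0 thp` -/
theorem flat_AC {b1 : ℝ} (hb1 : 0 < b1) (b2 : ℝ) :
    ∃ W₀ : ℝ, ∀ W : ℝ, W₀ ≤ W → ∃ ys0 : ℝ, ∃ X00 : ℕ, 0 < ys0 ∧
    ∀ (th thp sg κ : ℝ) (q0 : ℕ), 0 < th → 0 < thp → th + 4 * q0 * thp < 1 / 8 →
      16 * thp ≤ sg → sg ≤ 1 → 0 < κ → κ ≤ 1 / 4 → ∃ E0 : ℝ, 0 < E0 ∧
    ∀ P : Par, P.b1 = b1 → P.b2 = b2 → P.W = W → P.ys ≤ ys0 → X00 ≤ P.X0 → P.th = th →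
      P.thp = thp → P.q0 = q0 → P.th ≤ P.thp → P.es ≤ E0 →
    ∀ (b : ℝ) (N0 n m : ℕ) (ε Y e : ℝ), SI P b N0 n m ε Y → en sg ε Y ≤ e → e ≤ P.es →
    ∀ r r' : ℕ, m + P.kE e ≤ r → r ≤ r' → r' ≤ m + P.kE e + P.q0 * (4 * P.w e) →
      RNG P b m r e → RNG P b m r' e → RNG P b (m - 1) r e → RNG P b (m - 1) r' e →
    ∀ t : ℝ, t = H972.tn m ∨ t = 4 * H972.tn m →
      NKc b t (e ^ (1 - 4 * (th + 4 * q0 * thp) - κ)) r r' ∧
        SEz b t (e ^ (1 - 6 * (th + 4 * q0 * thp) - κ)) r := by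
  obtain ⟨W0, h0⟩ := nkt_pow hb1 b2 (a := 5 / 2) (by norm_num)
  refine ⟨W0, fun W hW => ?_⟩
  obtain ⟨c, C, ys, X, hc, hC, hys, hX, h⟩ := h0 W hW
  refine ⟨ys, X, hys, ?_⟩
  intro th thp sg κ q0 hth hthp hρ hsg hsg1 hκ hκ4
  have hρ0 : 0 ≤ th + 4 * q0 * thp := by positivity
  have hA : (0 : ℝ) < 4 ^ (1 + 4 * q0) := by positivity
  obtain ⟨e1, he1, k1⟩ := small_rpow (s := 1 / 2 - 2 * (th + 4 * q0 * thp))
    (A := 8192 * 4 ^ (1 + 4 * q0)) (B := 1) (by linarith) one_pos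
  obtain ⟨e2, he2, k2⟩ := small_rpow (s := 1 / 4 - 2 * (th + 4 * q0 * thp))
    (A := 4 * 4 ^ (1 + 4 * q0)) (B := 1) (by linarith) one_pos
  obtain ⟨e3, he3, k3⟩ := small_sexp (c := c) (th := th) (A := C * (4 * 4 ^ (1 + 4 * q0)))
    (B := 1 / 2) hc hth (1 - 2 * (th + 4 * q0 * thp) - κ) (by norm_num)
  obtain ⟨e4, he4, k4⟩ := small_rpow (s := κ) (A := 112 * (2048 * 4 ^ (1 + 4 * q0)) ^ 2)
    (B := 1 / 2) hκ (by norm_num)
  obtain ⟨e5, he5, k5⟩ := small_rpow (s := κ)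
    (A := 58 * (2048 * 4 ^ (1 + 4 * q0)) ^ 2 * (4 * 4 ^ (1 + 4 * q0))) (B := 1) hκ one_pos
  obtain ⟨e6, he6, k6⟩ := small_rpow (s := thp) (A := 4) (B := 1) hthp one_pos
  refine ⟨min (min (min e1 e2) (min e3 e4)) (min e5 e6), by positivity, ?_⟩
  intro P p1 p2 p3 p4 p5 p6 p7 p8 hpp hPes b N0 n m ε Y e hS he hees r r' hr hrr hr' R1 R2 R3 R4
  subst p1 p2 p6 p7 p8
  have hE := hPes
  simp only [le_min_iff] at hE
  obtain ⟨⟨⟨E1, E2⟩, E3, E4⟩, E5, E6⟩ := hE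
  have hε := hS.εpos
  have he0 : 0 < e := by
    have := hS.half he
    linarith
  have hele1 : e ≤ 1 := hees.trans (P.es1.trans (by norm_num))
  have hnm := hS.lt
  have hw2 : 2 ≤ P.w ε := by
    by_contra hcon
    have h1 : P.w ε ≤ 1 := by omega
    have h2 : ε ^ (-P.thp) ≤ (2 : ℝ) ^ P.w ε := lg_lo hε
    have h3 : (2 : ℝ) ^ P.w ε ≤ 2 ^ 1 := pow_le_pow_right₀ (by norm_num) h1
    have h4 := k6 ε hε (hS.εes.trans E6)
    have h5 : ε ^ (-P.thp) * ε ^ P.thp = 1 := by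
      rw [← Real.rpow_add hε, neg_add_cancel, Real.rpow_zero]
    have h6 : 0 < ε ^ P.thp := by positivity
    nlinarith
  have hlo := hS.lo
  have hy := fl_yt hS he hsg hsg1
  have hT0 := fl_tor (P := P) (m := m) he0 hele1 hr'
  have htm : ∀ i : ℕ, H972.tn (i + 1) * 4 = H972.tn i := by
    intro i
    unfold H972.tn
    rw [pow_succ]
    field_simp
  have hmono : ∀ i k : ℕ, i ≤ k → H972.tn k ≤ H972.tn i := by
    intro i k hik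
    unfold H972.tn
    exact inv_anti₀ (by positivity) (pow_le_pow_right₀ (by norm_num) hik)
  have core := flat_core hc hC h p3 p4 p5 hb1 hpp hA hS he hees hy (by linarith) hr hrr hT0
    (k1 e he0 (hees.trans E1)) (k2 e he0 (hees.trans E2)) (k3 e he0 (hees.trans E3))
    (k4 e he0 (hees.trans E4)) (k5 e he0 (hees.trans E5))
  intro t ht
  rcases ht with rfl | rfl
  · refine core m le_rfl (by omega) ?_ R1 R2
    have h1 := htm (m - 1)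
    rw [Nat.sub_add_cancel (by omega)] at h1
    have h2 := hmono n (m - 1) (by omega)
    have h3 := tn_pos m
    linarith
  · have h1 := htm (m - 1)
    rw [Nat.sub_add_cancel (by omega)] at h1
    have e7 : 4 * H972.tn m = H972.tn (m - 1) := by linarith
    rw [e7]
    refine core (m - 1) (by omega) (by omega) ?_ R3 R4
    have h4 := htm (m - 2)
    rw [show m - 2 + 1 = m - 1 by omega] at h4
    have h2 := hmono n (m - 2) (by omega)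
    have h3 := tn_pos (m - 1)
    linarith

end

end Vale.Agent.P159.H197
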