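import Vale.Agent.P159.H316.St1

/-!
P159 (helper197): `CBS` of helper316's contract (`H316.St1`), all inputs plugged (helper43's
`ev_chbc`, helper816's typicality).
-/

namespace Vale.Agent.P159.H197

open Vale.Agent.P159.H972 (Par)
open Vale.Agent.P159.H801 (Ev)

/-- **`CBS`**, for each `b ≥ b1` -/
theorem ev_cbs {b b1 b2 pf : ℝ} (hb1 : 0 < b1) (h1 : b1 ≤ b) (hpf : 0 < pf) (Q : ℕ) :
    Ev b1 b2 pf Q fun P c1 => H316.CBS P b c1 := by
  refine ((H43.ev_chbc hb1 b2 pf Q).and (H415.ev_typT (b2 := b2) hb1 h1 hpf Q)).mono ?_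
  rintro P c1 - ⟨h2, h3⟩
  exact h2 b h3

end Vale.Agent.P159.H197
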