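import Vale.Agent.P159.H43.Chb3
import Vale.Agent.P159.H415.EvG

/-!
P159 / START of V (helper197), (e) of helper889's row 8317: bookkeeping of the exponents of the
charges `|q| ≥ 2` along the windows, part 1: the step of `CHB` with a free exponent `c ≤ th / 256`.
-/

set_option linter.unusedSectionVars false

namespace Vale.Agent.P159.H197

open Finset Matrix Filter Topology
open Vale.Agent.P159.TM.Spec (V)
open Vale.Agent.P159.TM.SpecC (Tor wT)
open Vale.Agent.P159.H864 (yt)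
open Vale.Agent.P159.H972 (Par lg Good)
open Vale.Agent.P159.H801 (Ev PS)
open Vale.Agent.P159.H415 (CI TypT)
open Vale.Agent.P159.H43 (CHB P2 close_chb TT_of_P2 gg_of)
open Vale.Agent.P159.H889 (Cx Cw)

noncomputable section

/-- the step of `CHB` (helper43), exponent of the activity up to `th / 256` -/
theorem ev_chbN {b1 : ℝ} (hb1 : 0 < b1) (b2 pf : ℝ) (Q : ℕ) :
    Ev b1 b2 pf Q fun P _ => ∀ b : ℝ, TypT P b →
      ∀ (c : ℝ) (n m : ℕ) (e e' y y' g g' : ℝ), c ≤ P.th / 256 → CI P b c n m e e' y y' →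
        e' ≤ e ^ (19 / 20 : ℝ) →
        y ≤ (2 : ℝ) ^ (1 / 5 * ((m - n : ℕ) : ℝ)) * y' →
        (2 : ℝ) ^ (-(3 / 20 * ((m - n : ℕ) : ℝ))) * e ^ g ≤ e' ^ g' →
        CHB P b n e (y ^ (2 - P.x1 / 50) + y * e ^ g) →
        CHB P b m e' (y' ^ (2 - P.x1 / 50) + y' * e' ^ g') := by
  obtain ⟨W₀, h⟩ := H415.ch2_next' hb1 b2
  refine H801.Ev.of ⟨W₀, fun W hW => ?_⟩
  obtain ⟨ys0, X, hys0, h⟩ := h W hW
  refine ⟨ys0, hys0, fun ys hy1 hy2 => ⟨X, fun X0 hX0 => ⟨1, by norm_num,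
    fun x1 hx1 hx1' => ⟨min (1 / 5000) (x1 / 5000), by positivity,
    fun thp ht1 ht2 => ⟨thp / 1000, by positivity, fun th hs1 hs2 => ⟨1, fun C0 hC0 => ?_⟩⟩⟩⟩⟩⟩
  have t1 : thp ≤ 1 / 5000 := ht2.trans (min_le_left _ _)
  have t2 : thp ≤ x1 / 5000 := ht2.trans (min_le_right _ _)
  have hq : th + 4 * (2 : ℕ) * thp ≤ 1 / 500 := by push_cast; linarith
  obtain ⟨Ea, hEa, h⟩ := h th thp C0 2 hs1 (by linarith) (by linarith) (by linarith)
    (by linarith)
  obtain ⟨Ec, hEc, hEc2, hc⟩ := H415.le_of_ev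
    ((H415.sc1' (C0 := C0) hs1 (by linarith : 1000 * th ≤ thp) (by linarith)).and
      (H415.sc13 2 hs1 ht1 (by linarith) hq))
  refine ⟨1, one_pos, fun c1 hc1 hc2 => ?_⟩
  obtain ⟨Eb, hEb, hEb2, hb⟩ := close_chb (th := th) (thp := thp) (κ := x1 / 50) (c1 := th / 256)
    hs1 (by linarith) (by linarith) (by linarith) (by positivity) le_rfl
  refine ⟨min Ea (min Eb Ec), lt_min hEa (lt_min hEb hEc), fun P hP b hT => ?_⟩
  intro c n m e e' y y' g g' hcc H hhi hyy hgg hZ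
  have he := H.e0
  have hesE : P.es ≤ min Ea (min Eb Ec) := hP.ees
  have hEsa : P.es ≤ Ea := hesE.trans (min_le_left _ _)
  have hEsb : P.es ≤ Eb := hesE.trans ((min_le_right _ _).trans (min_le_left _ _))
  have hEsc : P.es ≤ Ec := hesE.trans ((min_le_right _ _).trans (min_le_right _ _))
  have he' : 0 < e' := by linarith [H.ee]
  have hw : P.w e = lg thp e := by
    unfold Par.w
    rw [hP.ethp]
  have hw' : P.w e' = lg thp e' := by
    unfold Par.w
    rw [hP.ethp]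
  have hkE : P.kE e = lg th e := by
    unfold Par.kE
    rw [hP.eth]
  have hkE' : P.kE e' = lg th e' := by
    unfold Par.kE
    rw [hP.eth]
  have hw2 := H.w2
  have hw1 := H.w1
  have hd1 : lg thp e ≤ 20 * (m - n) := by rw [hw] at hw1; omega
  have hd2 : m - n ≤ 4 * lg thp e := by rw [hw] at hw2; omega
  have hnm : n ≤ m := by omega
  have hv : Real.log (1 / y') ≤ e' ^ (-(th / 256)) := by
    have he1 : e' ≤ 1 := H.es'.trans (hP.adm.es4.trans (by norm_num))
    refine H.hv.trans (Real.rpow_le_rpow_of_exponent_ge he' he1 ?_)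
    rw [← hP.eth]
    linarith
  have c0 := hb e e' y y' g g' (m - n) he (H.es.trans hEsb) H.ee (H.es'.trans hEsb) hhi
    H.y0 H.y0' H.ye' hv hd2 hyy hgg
  obtain ⟨⟨s1, s1'⟩, s13⟩ := hc e he (H.es.trans hEsc)
  obtain ⟨-, s13'⟩ := hc e' he' (H.es'.trans hEsc)
  obtain ⟨-, hdk, -, -⟩ := s1 (m - n) hd1
  obtain ⟨τ, a, hτ1, hτ2, hG⟩ := H.G
  have hGe := hG e le_rfl H.es
  obtain ⟨τ', a', hτ1', hτ2', hG'⟩ := H.G'
  have hGe' := hG' e' le_rfl H.es'
  -- the base torus
  have hk1 : lg th e' ≤ lg th e + 1 := H415.lg_near hs1.le (by linarith) he H.ee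
  have hq2 : 2 ≤ P.q0 := by
    rw [hP.eq0]
    omega
  have hTT : (P2 P).TT n e (m + P.kE e') := by
    have h2 : (P2 P).kE e = P.kE e := rfl
    have h3 : (P2 P).w e = P.w e := rfl
    have h4 : (P2 P).q0 = 2 := rfl
    unfold Par.TT
    rw [h2, h3, h4, hkE, hkE', hw]
    exact ⟨by omega, by omega⟩
  have hkq : m + P.kE e' - n ≤ lg th e + 2 * (4 * lg thp e) := by
    rw [hkE']
    omega
  have htm : 4 * H972.tn m < H972.tn n := by
    have h4 : (256 : ℝ) ≤ 4 ^ (m - n) := by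
      calc (256 : ℝ) = 4 ^ 4 := by norm_num
        _ ≤ 4 ^ (m - n) := pow_le_pow_right₀ (by norm_num) (by
          have := (s1 (m - n) hd1).1
          omega)
    have h5 : H972.tn m = H972.tn n / 4 ^ (m - n) := by
      rw [← H415.tn_add]
      congr 1
      omega
    have h6 := H415.tn_pos' n
    rw [h5]
    have : H972.tn n / 4 ^ (m - n) ≤ H972.tn n / 256 := div_le_div_of_nonneg_left h6.le (by norm_num) h4
    linarith
  have hty := hT n e τ a he H.es hτ1 hτ2 hGe _ (TT_of_P2 hq2 hTT) (4 * H972.tn m) (by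
    have := H415.tn_pos' m
    linarith) htm
  rw [hP.eth] at hty
  have hvy := H.vy
  rw [hP.ethp] at hvy
  have hyb := H415.y_le H.y0 H.ye
  have hyb' := H415.y_le H.y0' H.ye'
  have hx1P : P.x1 = x1 := hP.ex1
  rw [hx1P] at hZ ⊢
  have hstep := h (P2 P) hP.eb1 hP.eb2 hP.eW (by
      show P.ys ≤ ys0
      rw [hP.eys]; exact hy2) (by
      show X ≤ P.X0
      rw [hP.eX0]; exact hX0)
    hP.eth hP.ethp hP.eC0 le_rfl le_rfl b n m e e' (y ^ (2 - x1 / 50) + y * e ^ g)
    (e ^ (-(thp / 20)) * y)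
    (e' ^ (-(thp / 20)) * y') he (H.es.trans hEsa) H.ee (H.es'.trans hEsa) hw1 hw2 (by
      have := hGe.nE
      rw [hP.eC0] at this
      omega) (hGe.rng _ (Or.inl (TT_of_P2 hq2 hTT))).1
    (fun r hr => (hGe'.rng r (Or.inl (TT_of_P2 hq2 hr))).2) hty hZ hvy
    ((mul_le_mul_of_nonneg_left (mul_le_mul_of_nonneg_left (mul_le_mul_of_nonneg_left hyb
      (Real.rpow_pos_of_pos he _).le) (by positivity)) (by norm_num)).trans (s13 _ hkq))
    (fun r hr => ⟨by
      have := H.vy' r (TT_of_P2 hq2 hr)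
      rwa [hP.ethp] at this, (mul_le_mul_of_nonneg_left (mul_le_mul_of_nonneg_left
        (mul_le_mul_of_nonneg_left hyb' (Real.rpow_pos_of_pos he' _).le) (by positivity))
        (by norm_num)).trans (s13' _ (by
        unfold Par.TT at hr
        have h2 : (P2 P).kE e' = P.kE e' := rfl
        have h3 : (P2 P).w e' = P.w e' := rfl
        have h4 : (P2 P).q0 = 2 := rfl
        rw [h2, h3, h4, hkE', hw'] at hr
        omega))⟩)
  exact H415.CH2.mono hstep c0

end

end Vale.Agent.P159.H197
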