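import Vale.Agent.P159.H197.Ch1

/-!
P159 / START of V (helper197), (e) of helper889's row 8317: bookkeeping of the exponents of the
charges `|q| ≥ 2` along the windows, part 2: one exponent for both families of tori, the chain.
-/

set_option linter.unusedSectionVars false

namespace Vale.Agent.P159.H197

open Finset Matrix Filter Topology
open Vale.Agent.P159.H864 (yt)
open Vale.Agent.P159.H972 (Par lg Good)
open Vale.Agent.P159.H801 (Ev PS)
open Vale.Agent.P159.H415 (CI TypT)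
open Vale.Agent.P159.H43 (CHB P2 gg_of)
open Vale.Agent.P159.H889 (Cx Cw)

noncomputable section

/-- the charges `|q| ≥ 2` relative to the number `y`, one exponent `g` for both families of tori -/
def CHs (P : Par) (b : ℝ) (n : ℕ) (e y g : ℝ) : Prop :=
  H889.CH2 P b n e (y * e ^ min (1 / 2) g) ∧ CHB P b n e (y ^ (2 - P.x1 / 50) + y * e ^ min 2 g)

section gen

variable {P : Par} {b e y y' g g' : ℝ} {n : ℕ}

/-- monotonicity in the exponent and in the reference number -/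
lemma CHs.mono (h : CHs P b n e y g) (he : 0 < e) (he1 : e ≤ 1) (hy : 0 ≤ y) (hyy : y ≤ y')
    (hg : g' ≤ g) (hx : P.x1 ≤ 1) : CHs P b n e y' g' := by
  have hy' : 0 ≤ y' := hy.trans hyy
  have e1 : e ^ min (1 / 2) g ≤ e ^ min (1 / 2) g' :=
    Real.rpow_le_rpow_of_exponent_ge he he1 (min_le_min le_rfl hg)
  have e2 : e ^ min 2 g ≤ e ^ min 2 g' :=
    Real.rpow_le_rpow_of_exponent_ge he he1 (min_le_min le_rfl hg)
  refine ⟨H415.CH2.mono h.1 ?_, h.2.mono ?_⟩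
  · exact mul_le_mul hyy e1 (Real.rpow_nonneg he.le _) hy'
  · refine add_le_add ?_ (mul_le_mul hyy e2 (Real.rpow_nonneg he.le _) hy')
    exact Real.rpow_le_rpow hy hyy (by linarith)

/-- the end of the chain -/
lemma CHs.fin (h : CHs P b n e y g) (hg : 2 ≤ g) :
    H889.CH2 P b n e (y * e ^ (1 / 2 : ℝ)) ∧
      CHB P b n e (y ^ (2 - P.x1 / 50) + y * e ^ (2 : ℝ)) := by
  obtain ⟨h1, h2⟩ := h
  rw [min_eq_left (by linarith)] at h1
  rw [min_eq_left hg] at h2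
  exact ⟨h1, h2⟩

/-- back from the two states of the end -/
lemma CHs.of_fin (h1 : H889.CH2 P b n e (y * e ^ (1 / 2 : ℝ)))
    (h2 : CHB P b n e (y ^ (2 - P.x1 / 50) + y * e ^ (2 : ℝ))) : CHs P b n e y 2 := by
  refine ⟨?_, ?_⟩
  · rwa [min_eq_left (by norm_num)]
  · rwa [min_self]

/-- the part of the tori `TT` alone, exponent at most one half -/
lemma CHs.ch2 (h : CHs P b n e y g) (hg : g ≤ 1 / 2) : H889.CH2 P b n e (y * e ^ g) := by
  have h1 := h.1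
  rwa [min_eq_right hg] at h1

end gen

/-- the step and the start, as properties of the parameters -/
structure ChStep (P : Par) (b : ℝ) : Prop where
  start : ∀ (C1 c : ℝ) (n s : ℕ) (e y : ℝ), Cx P b C1 c n s e y →
    CHs P b n e y (-(P.thp / 10))
  step : ∀ (C1 C2 c c' : ℝ) (n m s s' : ℕ) (e e' y y' g : ℝ), c' ≤ P.th / 256 →
    Cx P b C1 c n s e y → Cx P b C2 c' m s' e' y' → Cw P n m e e' →
    y ≤ (2 : ℝ) ^ (1 / 5 * ((m - n : ℕ) : ℝ)) * y' → -(P.thp / 10) ≤ g →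
    CHs P b n e y g → CHs P b m e' y' (g + P.thp / 400)

/-- **the step and the start of both families, all inputs plugged** -/
theorem chs_ev {b b1 b2 pf : ℝ} (hb1 : 0 < b1) (h1 : b1 ≤ b) (hpf : 0 < pf) (Q : ℕ) :
    Ev b1 b2 pf Q fun P c1 => c1 ≤ P.th / 512 ∧ ChStep P b := by
  have h0 : Ev b1 b2 pf Q fun P _ => ∀ e : ℝ, 0 < e → e ≤ P.es → e ^ (P.thp / 200) ≤ 1 / 4 := by
    refine H801.Ev.of ⟨0, fun W hW => ⟨1, one_pos, fun ys _ _ => ⟨0, fun X0 hX0 =>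
      ⟨1, one_pos, fun x1 hx1 hx1' => ⟨1, one_pos, fun thp ht1 ht2 => ⟨1, one_pos, fun th hs1 hs2 =>
      ⟨1, fun C0 hC0 => ⟨1, one_pos, fun c1 hc1 hc2 => ?_⟩⟩⟩⟩⟩⟩⟩⟩
    obtain ⟨E1, p1, -, k1⟩ := H415.pow_le_const (A := 1 / 4) (c := thp / 200) (by norm_num)
      (by positivity)
    refine ⟨E1, p1, fun P hP e he hes => ?_⟩
    rw [hP.ethp]
    exact k1 e he (hes.trans hP.ees)
  have e1 := H415.ev_ch2V (b2 := b2) hb1 h1 hpf Q
  have e2 := H415.ev_ch2S (b2 := b2) hb1 h1 hpf Q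
  have e3 := ev_chbN hb1 b2 pf Q
  have e4 := H43.ev_chbc hb1 b2 pf Q
  have e5 := H415.ev_base b1 b2 pf Q
  have e6 := H415.ev_typT (b2 := b2) hb1 h1 hpf Q
  refine ((((((e1.and e2).and e3).and e4).and e5).and e6).and h0).mono ?_
  rintro P c1 hA ⟨⟨⟨⟨⟨⟨⟨hc, hV⟩, hS⟩, hN⟩, hC⟩, hB⟩, hT⟩, h0⟩
  have hthp := P.thp0
  refine ⟨hc, ⟨?_, ?_⟩⟩
  · intro C1 c n s e y hx
    refine ⟨?_, ?_⟩
    · rw [min_eq_right (by linarith)]
      exact hS C1 c n s e y hx
    · rw [min_eq_right (by linarith)]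
      exact (hC b hT).2 n e y (hb1.trans_le h1) hx.e0 hx.es hx.y0 hx.y1 hx.vy
  · intro C1 C2 c c' n m s s' e e' y y' g hc' hx hx' hw hyy hg hZ
    obtain ⟨t1, t2, t3⟩ := hB n m e e' hx.e0 hx.es hw.lo hw.w1 hw.w2
    have hyy4 : y ≤ (2 : ℝ) ^ (1 / 4 * ((m - n : ℕ) : ℝ)) * y' := by
      refine hyy.trans (mul_le_mul_of_nonneg_right ?_ hx'.y0.le)
      refine Real.rpow_le_rpow_of_exponent_le one_le_two ?_
      have : (0 : ℝ) ≤ ((m - n : ℕ) : ℝ) := Nat.cast_nonneg _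
      linarith
    refine ⟨?_, ?_⟩
    · refine hV C1 C2 c c' n m s s' e e' y y' (min (1 / 2) g) (min (1 / 2) (g + P.thp / 400)) hc'
        hx hx' hw hyy4 (le_min (by linarith) (by linarith)) (min_le_left _ _) ?_ hZ.1
      rcases le_total g (1 / 2) with h | h
      · rw [min_eq_right h]
        exact min_le_right _ _
      · rw [min_eq_left h]
        exact (min_le_left _ _).trans (by linarith)
    · refine hN b hT c' n m e e' y y' (min 2 g) (min 2 (g + P.thp / 400)) hc'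
        (H415.ci_of_cx hx hx' hw.lo hw.w1 hw.w2 t1 hyy4) hw.hi hyy ?_ hZ.2
      have h4 : P.w e = lg P.thp e := rfl
      have hw1 := hw.w1
      refine gg_of (thp := P.thp) hthp hx.e0 (hx.es.trans (hA.es4.trans (by norm_num))) hw.lo hw.hi
        ?_ (h0 e hx.e0 hx.es) (le_min (by linarith) hg) (min_le_left _ _) ?_
      · rw [← h4]
        omega
      · rcases le_total g 2 with h | h
        · rw [min_eq_right h]
          exact min_le_right _ _
        · rw [min_eq_left h]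
          exact (min_le_left _ _).trans (by linarith)

/-! ### chains -/

/-- **the chain**: any list of windows -/
theorem ChStep.chain {P : Par} {b : ℝ} (H : ChStep P b) {g : ℝ} (hg : -(P.thp / 10) ≤ g) {M : ℕ}
    {N S : ℕ → ℕ} {E Y K C : ℕ → ℝ} (hx : ∀ i ≤ M, Cx P b (K i) (C i) (N i) (S i) (E i) (Y i))
    (hC : ∀ i < M, C (i + 1) ≤ P.th / 256) (hw : ∀ i < M, Cw P (N i) (N (i + 1)) (E i) (E (i + 1)))
    (hy : ∀ i < M, Y i ≤ (2 : ℝ) ^ (1 / 5 * ((N (i + 1) - N i : ℕ) : ℝ)) * Y (i + 1))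
    (h0 : CHs P b (N 0) (E 0) (Y 0) g) :
    CHs P b (N M) (E M) (Y M) (g + M * (P.thp / 400)) := by
  have hthp := P.thp0
  have key : ∀ i ≤ M, CHs P b (N i) (E i) (Y i) (g + i * (P.thp / 400)) := by
    intro i
    induction i with
    | zero =>
      intro _
      simpa using h0
    | succ i ih =>
      intro hi
      have h1 := H.step (K i) (K (i + 1)) (C i) (C (i + 1)) (N i) (N (i + 1)) (S i) (S (i + 1))
        (E i) (E (i + 1)) (Y i) (Y (i + 1)) (g + i * (P.thp / 400)) (hC i (by omega))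
        (hx i (by omega)) (hx (i + 1) hi) (hw i (by omega)) (hy i (by omega)) (by
          have : (0 : ℝ) ≤ i * (P.thp / 400) := by positivity
          linarith) (ih (by omega))
      have e1 : g + (i : ℝ) * (P.thp / 400) + P.thp / 400 =
          g + ((i + 1 : ℕ) : ℝ) * (P.thp / 400) := by
        push_cast
        ring
      rwa [e1] at h1
  exact key M le_rfl

/-- number of windows of the chain -/
def Mch (P : Par) : ℕ := ⌈1000 / P.thp⌉₊

lemma Mch_le {P : Par} (hP : P.thp ≤ 1) {M : ℕ} (hM : Mch P ≤ M) :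
    2 ≤ -(P.thp / 10) + M * (P.thp / 400) := by
  have hthp := P.thp0
  have h1 : 1000 / P.thp ≤ M := (Nat.le_ceil _).trans (by exact_mod_cast hM)
  rw [div_le_iff₀ hthp] at h1
  linarith

/-- **the chain from the crude start to the end** -/
theorem ChStep.full {P : Par} {b : ℝ} (H : ChStep P b) (hP : P.thp ≤ 1) {M : ℕ} (hM : Mch P ≤ M)
    {N S : ℕ → ℕ} {E Y K C : ℕ → ℝ} (hx : ∀ i ≤ M, Cx P b (K i) (C i) (N i) (S i) (E i) (Y i))
    (hC : ∀ i < M, C (i + 1) ≤ P.th / 256) (hw : ∀ i < M, Cw P (N i) (N (i + 1)) (E i) (E (i + 1)))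
    (hy : ∀ i < M, Y i ≤ (2 : ℝ) ^ (1 / 5 * ((N (i + 1) - N i : ℕ) : ℝ)) * Y (i + 1)) :
    H889.CH2 P b (N M) (E M) (Y M * E M ^ (1 / 2 : ℝ)) ∧
      CHB P b (N M) (E M) (Y M ^ (2 - P.x1 / 50) + Y M * E M ^ (2 : ℝ)) :=
  (H.chain le_rfl hx hC hw hy (H.start _ _ _ _ _ _ (hx 0 (Nat.zero_le _)))).fin (Mch_le hP hM)

/-! ### reference numbers `e ^ (-k) |ζ|` -/

/-- the reference `e ^ (-k) z` in a window of length at least `thp log (1 / e) / 20` -/
lemma ref_short {thp k e e' z z' : ℝ} {d : ℕ} (hthp : 0 < thp) (hk : 0 ≤ k) (hk' : k ≤ thp / 50)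
    (he : 0 < e) (he1 : e ≤ 1) (he' : 0 < e') (hhi : e' ≤ e ^ (19 / 20 : ℝ))
    (hd : thp * Real.logb 2 (1 / e) ≤ 20 * (d : ℝ)) (hz' : 0 ≤ z')
    (hz : z ≤ (2 : ℝ) ^ (1 / 10 * (d : ℝ)) * z') :
    e ^ (-k) * z ≤ (2 : ℝ) ^ (1 / 5 * (d : ℝ)) * (e' ^ (-k) * z') := by
  have hL : 0 ≤ Real.logb 2 (1 / e) :=
    Real.logb_nonneg one_lt_two (by rw [le_div_iff₀ he]; linarith)
  have h1 : e ^ (-(k / 20)) ≤ (2 : ℝ) ^ (1 / 50 * (d : ℝ)) := by
    rw [← H415.two_rpow_logb he]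
    refine Real.rpow_le_rpow_of_exponent_le one_le_two ?_
    have h2 : k / 20 * Real.logb 2 (1 / e) ≤ thp / 50 / 20 * Real.logb 2 (1 / e) :=
      mul_le_mul_of_nonneg_right (by linarith) hL
    linarith
  have h3 : e ^ (-(19 / 20 * k)) ≤ e' ^ (-k) := by
    have h4 : (e ^ (19 / 20 : ℝ)) ^ (-k) = e ^ (-(19 / 20 * k)) := by
      rw [← Real.rpow_mul he.le]
      congr 1
      ring
    rw [← h4]
    exact Real.rpow_le_rpow_of_nonpos he' hhi (by linarith)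
  have h5 : e ^ (-k) = e ^ (-(k / 20)) * e ^ (-(19 / 20 * k)) := by
    rw [← Real.rpow_add he]
    congr 1
    ring
  have h6 : e ^ (-k) ≤ (2 : ℝ) ^ (1 / 50 * (d : ℝ)) * e' ^ (-k) := by
    rw [h5]
    exact mul_le_mul h1 h3 (Real.rpow_nonneg he.le _) (by positivity)
  have hd0 : (0 : ℝ) ≤ d := Nat.cast_nonneg d
  calc e ^ (-k) * z ≤ e ^ (-k) * ((2 : ℝ) ^ (1 / 10 * (d : ℝ)) * z') :=
        mul_le_mul_of_nonneg_left hz (Real.rpow_nonneg he.le _)
    _ ≤ ((2 : ℝ) ^ (1 / 50 * (d : ℝ)) * e' ^ (-k)) * ((2 : ℝ) ^ (1 / 10 * (d : ℝ)) * z') :=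
        mul_le_mul_of_nonneg_right h6 (by positivity)
    _ = (2 : ℝ) ^ (1 / 50 * (d : ℝ) + 1 / 10 * (d : ℝ)) * (e' ^ (-k) * z') := by
        rw [Real.rpow_add two_pos]
        ring
    _ ≤ (2 : ℝ) ^ (1 / 5 * (d : ℝ)) * (e' ^ (-k) * z') := by
        refine mul_le_mul_of_nonneg_right ?_ (by positivity)
        exact Real.rpow_le_rpow_of_exponent_le one_le_two (by linarith)

/-- change of the reference from `e ^ (-k) z` to `z'` in a window of length at least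
`thp log (1 / e)` -/
lemma ref_full {thp k e z z' : ℝ} {d : ℕ} (hthp : 0 < thp) (hk : 0 ≤ k) (hk' : k ≤ thp / 50)
    (he : 0 < e) (he1 : e ≤ 1) (hd : thp * Real.logb 2 (1 / e) ≤ (d : ℝ)) (hz' : 0 ≤ z')
    (hz : z ≤ (2 : ℝ) ^ (1 / 10 * (d : ℝ)) * z') :
    e ^ (-k) * z ≤ (2 : ℝ) ^ (1 / 5 * (d : ℝ)) * z' := by
  have hL : 0 ≤ Real.logb 2 (1 / e) :=
    Real.logb_nonneg one_lt_two (by rw [le_div_iff₀ he]; linarith)
  have h1 : e ^ (-k) ≤ (2 : ℝ) ^ (1 / 50 * (d : ℝ)) := by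
    rw [← H415.two_rpow_logb he]
    refine Real.rpow_le_rpow_of_exponent_le one_le_two ?_
    have h2 : k * Real.logb 2 (1 / e) ≤ thp / 50 * Real.logb 2 (1 / e) :=
      mul_le_mul_of_nonneg_right (by linarith) hL
    linarith
  have hd0 : (0 : ℝ) ≤ d := Nat.cast_nonneg d
  calc e ^ (-k) * z ≤ e ^ (-k) * ((2 : ℝ) ^ (1 / 10 * (d : ℝ)) * z') :=
        mul_le_mul_of_nonneg_left hz (Real.rpow_nonneg he.le _)
    _ ≤ (2 : ℝ) ^ (1 / 50 * (d : ℝ)) * ((2 : ℝ) ^ (1 / 10 * (d : ℝ)) * z') :=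
        mul_le_mul_of_nonneg_right h1 (by positivity)
    _ = (2 : ℝ) ^ (1 / 50 * (d : ℝ) + 1 / 10 * (d : ℝ)) * z' := by
        rw [Real.rpow_add two_pos]
        ring
    _ ≤ (2 : ℝ) ^ (1 / 5 * (d : ℝ)) * z' := by
        refine mul_le_mul_of_nonneg_right ?_ hz'
        exact Real.rpow_le_rpow_of_exponent_le one_le_two (by linarith)

end

end Vale.Agent.P159.H197
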