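import Vale.Agent.P159.H358.Loc9q
import Vale.Agent.P159.H612.Local5

/-!
P159 / second order flow, module NKT (helper197), part 1: covariances in an arbitrary background.
* `ker_le`: `log Z(J+a) + log Z(J-a) - 2 log Z(J) ≤ T(J)/2 + (log Z(2a) - log Z(0))/2` for every `J`;
* `cv_of`, `k3_of`: crude cumulants of `X_a` in every background from this;
* `cv_far`: a far change `w` of the source changes `Cov_J(X_a, X_a)` by at most
  `δ (4 + 4 e^τ + 8 e^τ)` if all mixed differences of `log Z` are at most `δ³`.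
-/

open Finset MeasureTheory

set_option linter.unusedSectionVars false

namespace Vale.Agent.P159.H197

open Vale.Agent.P159.TM.H104
open Vale.Agent.P159.H37 (Zs Ev qf bf PK Ker Tq Rs)

variable {V : Type*} [Fintype V] {μ : (V → ℤ) → ℝ}

/-- second difference of `log Z` at `J` in the direction `a` -/
theorem ker_le (hμ : EM μ) (he : Ev μ) (hK : PK μ) (J a : V → ℝ) :
    Lg μ (J + a) + Lg μ (J - a) - 2 * Lg μ J ≤
      Tq μ J / 2 + (Lg μ ((2 : ℝ) • a) - Lg μ 0) / 2 := by
  have key : ∀ s : ℝ, 0 ≤ Ker μ J J * (s * s) + 2 * Ker μ J a * s + Ker μ a a := by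
    intro s
    have h := hK 2 ![J, a] ![s, 1]
    simp only [Fin.sum_univ_two, Matrix.cons_val_zero, Matrix.cons_val_one] at h
    rw [H612.Ker_comm he a J] at h
    linarith
  have h1 := discrim_le_zero key
  unfold discrim at h1
  have h2 : Ker μ J a ^ 2 ≤ Ker μ J J * Ker μ a a := by nlinarith [h1]
  have p : ∀ x : V → ℝ, 0 < Zs μ x := fun x => H612.Zs_pos hμ x
  have e : ∀ x : V → ℝ, Real.log (Zs μ x) = Lg μ x := fun x => rfl
  have h3 : Real.log (Ker μ J a ^ 2) ≤ Real.log (Ker μ J J * Ker μ a a) := by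
    refine Real.log_le_log ?_ h2
    have := p (J + a)
    have := p (J - a)
    unfold Ker
    positivity
  unfold Ker at h3
  rw [sub_self, sub_self, Real.log_pow, Real.log_mul (p _).ne' (p _).ne',
    Real.log_mul (mul_ne_zero (p _).ne' (p _).ne') (mul_ne_zero (p _).ne' (p _).ne'),
    Real.log_mul (p _).ne' (p _).ne', Real.log_mul (p _).ne' (p _).ne', e, e, e, e, e,
    ← two_smul ℝ J, ← two_smul ℝ a] at h3
  unfold Tq
  push_cast at h3
  linarith

/-- `E_K e^{X_a - m} ≤ e^e` -/
theorem exp_of (hμ : EM μ) {K a : V → ℝ} {e : ℝ}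
    (h : Lg μ (K + a) + Lg μ (K - a) - 2 * Lg μ K ≤ e) :
    Ex μ K (fun h => Real.exp (li a h - Ex μ K (li a))) ≤ Real.exp e ∧
      Ex μ K (fun h => Real.exp (-(li a h - Ex μ K (li a)))) ≤ Real.exp e := by
  have t1 := H358.Lg_tangent hμ K (-a)
  have t2 := H358.Lg_tangent hμ K a
  have e4 : Ex μ K (li (-a)) = -Ex μ K (li a) := by
    have : (li (-a) : (V → ℤ) → ℝ) = fun h => -1 * li a h := by
      funext h
      rw [li_neg]; ring
    rw [this, Ex_cmul]
    ring
  rw [e4] at t1
  have es : K - a = K + -a := sub_eq_add_neg _ _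
  rw [es] at h
  constructor
  · have e3 : (fun h => Real.exp (li a h - Ex μ K (li a))) =
        fun h => Real.exp (-Ex μ K (li a)) * Real.exp (li a h) := by
      funext h
      rw [← Real.exp_add]
      congr 1
      ring
    rw [e3, Ex_cmul, H358.Ex_exp hμ, ← Real.exp_add]
    exact Real.exp_le_exp.2 (by linarith)
  · have e3 : (fun h => Real.exp (-(li a h - Ex μ K (li a)))) =
        fun h => Real.exp (Ex μ K (li a)) * Real.exp (li (-a) h) := by
      funext h
      rw [← Real.exp_add, li_neg]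
      congr 1
      ring
    rw [e3, Ex_cmul, H358.Ex_exp hμ, ← Real.exp_add]
    exact Real.exp_le_exp.2 (by linarith)

/-- crude variance in every background -/
theorem cv_of (hμ : EM μ) {K a : V → ℝ} {e : ℝ}
    (h : Lg μ (K + a) + Lg μ (K - a) - 2 * Lg μ K ≤ e) :
    |Cv μ K (li a) (li a)| ≤ 4 * Real.exp e := by
  obtain ⟨d1, d2⟩ := exp_of hμ h
  set m := Ex μ K (li a) with hm
  have e1 : Cv μ K (li a) (li a) = Ex μ K fun h => (li a h - m) * (li a h - m) := by
    have e2 : (fun h => (li a h - m) * (li a h - m)) =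
        fun h => (li a h * li a h - (2 * m) * li a h) + m * m := by
      funext h; ring
    rw [e2, Ex_add hμ (((Gr.li a).mul (Gr.li a)).sub ((Gr.const _).mul (Gr.li a)))
      (Gr.const _), Ex_sub hμ ((Gr.li a).mul (Gr.li a)) ((Gr.const _).mul (Gr.li a)), Ex_cmul,
      Ex_const hμ]
    unfold Cv
    rw [← hm]
    ring
  have g1 : Gr fun h : V → ℤ => (li a h - m) * (li a h - m) :=
    ((Gr.li a).sub (Gr.const _)).mul ((Gr.li a).sub (Gr.const _))
  have h0 : 0 ≤ Cv μ K (li a) (li a) := by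
    rw [e1]
    exact Ex_nonneg hμ (fun h => mul_self_nonneg _) K
  rw [abs_of_nonneg h0, e1]
  have h2 : Ex μ K (fun h => (li a h - m) * (li a h - m)) ≤
      Ex μ K fun h => 2 * (Real.exp (li a h - m) + Real.exp (-(li a h - m))) := by
    refine Ex_mono hμ g1 ((Gr.const 2).mul ((H358.gr_dev a m).add (H358.gr_dev' a m)))
      (fun h => ?_) K
    have key : ∀ x : ℝ, x * x ≤ 2 * (Real.exp x + Real.exp (-x)) := by
      intro x
      have a1 : ∀ z : ℝ, 0 ≤ z → z * z ≤ 2 * Real.exp z := by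
        intro z hz
        have := Real.quadratic_le_exp_of_nonneg hz
        nlinarith
      rcases le_total 0 x with hx | hx
      · have := a1 x hx
        have := Real.exp_pos (-x)
        linarith
      · have := a1 (-x) (by linarith)
        have := Real.exp_pos x
        nlinarith
    exact key _
  refine h2.trans ?_
  rw [Ex_cmul, Ex_add hμ (H358.gr_dev a m) (H358.gr_dev' a m)]
  linarith

/-- crude third cumulant in every background -/
theorem k3_of (hμ : EM μ) {K u : V → ℝ} {e : ℝ}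
    (h : Lg μ (K + u) + Lg μ (K - u) - 2 * Lg μ K ≤ e) :
    |K3 μ K (li u) (li u) (li u)| ≤ 12 * Real.exp e := by
  obtain ⟨d1, d2⟩ := exp_of hμ h
  set m := Ex μ K (li u) with hm
  have gl := Gr.li u
  have gc : Gr fun h : V → ℤ => li u h - m := gl.sub (Gr.const _)
  have e1 : K3 μ K (li u) (li u) (li u) =
      Ex μ K fun h => (li u h - m) * (li u h - m) * (li u h - m) := by
    have e2 : (fun h => (li u h - m) * (li u h - m) * (li u h - m)) =
        fun h => ((li u h * li u h * li u h - (3 * m) * (li u h * li u h)) +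
          (3 * m * m) * li u h) - m * m * m := by
      funext h; ring
    rw [e2, Ex_sub hμ ((((gl.mul gl).mul gl).sub ((Gr.const _).mul (gl.mul gl))).add
        ((Gr.const _).mul gl)) (Gr.const _),
      Ex_add hμ (((gl.mul gl).mul gl).sub ((Gr.const _).mul (gl.mul gl)))
        ((Gr.const _).mul gl),
      Ex_sub hμ ((gl.mul gl).mul gl) ((Gr.const _).mul (gl.mul gl)), Ex_cmul, Ex_cmul,
      Ex_const hμ]
    unfold K3
    rw [← hm]
    ring
  have g3 : Gr fun h : V → ℤ => (li u h - m) * (li u h - m) * (li u h - m) :=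
    (gc.mul gc).mul gc
  have gE : Gr fun h : V → ℤ => 6 * (Real.exp (li u h - m) + Real.exp (-(li u h - m))) :=
    (Gr.const 6).mul ((H358.gr_dev u m).add (H358.gr_dev' u m))
  have key : ∀ x : ℝ, |x * x * x| ≤ 6 * (Real.exp x + Real.exp (-x)) := by
    intro x
    have a1 : ∀ z : ℝ, 0 ≤ z → z * z * z ≤ 6 * Real.exp z := by
      intro z hz
      have h5 := Real.pow_div_factorial_le_exp z hz 3
      have h6 : ((Nat.factorial 3 : ℕ) : ℝ) = 6 := by norm_num [Nat.factorial]
      rw [h6, div_le_iff₀ (by norm_num)] at h5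
      nlinarith
    rcases le_total 0 x with hx | hx
    · rw [abs_of_nonneg (by positivity)]
      have := a1 x hx
      have := Real.exp_pos (-x)
      linarith
    · have e : x * x * x = -((-x) * (-x) * (-x)) := by ring
      have hx' : 0 ≤ -x := by linarith
      rw [e, abs_neg, abs_of_nonneg (by positivity)]
      have := a1 (-x) hx'
      have := Real.exp_pos x
      linarith
  have hE : Ex μ K (fun h => 6 * (Real.exp (li u h - m) + Real.exp (-(li u h - m)))) ≤
      12 * Real.exp e := by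
    rw [Ex_cmul, Ex_add hμ (H358.gr_dev u m) (H358.gr_dev' u m)]
    linarith
  rw [e1, abs_le]
  constructor
  · have h2 := Ex_mono hμ (gE.neg) g3 (fun h => by
      have := (abs_le.1 (key (li u h - m))).1
      linarith) K
    have h3 : Ex μ K (fun h => -(6 * (Real.exp (li u h - m) + Real.exp (-(li u h - m))))) =
        -Ex μ K (fun h => 6 * (Real.exp (li u h - m) + Real.exp (-(li u h - m)))) := by
      have : (fun h : V → ℤ => -(6 * (Real.exp (li u h - m) + Real.exp (-(li u h - m))))) =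
          fun h => -1 * (6 * (Real.exp (li u h - m) + Real.exp (-(li u h - m)))) := by
        funext h; ring
      rw [this, Ex_cmul]; ring
    rw [h3] at h2
    linarith
  · have h2 := Ex_mono hμ g3 gE (fun h => (abs_le.1 (key (li u h - m))).2) K
    linarith

/-- **a far change of the source changes the variance of `X_a` by little** (Landau-Kolmogorov):
`δ³` bounds the mixed differences of `log Z` -/
theorem cv_far (hμ : EM μ) (he : Ev μ) (hK : PK μ) {J w a : V → ℝ} {δ τ κ : ℝ} (hδ : 0 < δ)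
    (hφ : ∀ s : ℝ, |s| ≤ 1 → |Lg μ (J + w + s • a) - Lg μ (J + w) - Lg μ (J + s • a) + Lg μ J| ≤
      δ ^ 3)
    (hT : ∀ s : ℝ, |s| ≤ 1 → Tq μ (J + s • a) ≤ τ ∧ Tq μ (J + w + s • a) ≤ τ)
    (hκ : Lg μ ((2 : ℝ) • a) - Lg μ 0 ≤ κ) :
    |Cv μ (J + w) (li a) (li a) - Cv μ J (li a) (li a)| ≤
      20 * δ * Real.exp ((τ + κ) / 2) := by
  set X := Real.exp ((τ + κ) / 2) with hX
  have hX0 : 0 < X := Real.exp_pos _
  have dev : ∀ K : V → ℝ, Tq μ K ≤ τ → Lg μ (K + a) + Lg μ (K - a) - 2 * Lg μ K ≤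
      (τ + κ) / 2 := by
    intro K hKt
    have := ker_le hμ he hK K a
    linarith
  set φ : ℝ → ℝ := fun s => (Lg μ (J + w + s • a) - Lg μ (J + w)) -
    (Lg μ (J + s • a) - Lg μ J) with hφd
  set φ1 : ℝ → ℝ := fun s => Ex μ (J + w + s • a) (li a) - Ex μ (J + s • a) (li a) with hφ1
  set φ2 : ℝ → ℝ := fun s => Cv μ (J + w + s • a) (li a) (li a) -
    Cv μ (J + s • a) (li a) (li a) with hφ2
  set φ3 : ℝ → ℝ := fun s => K3 μ (J + w + s • a) (li a) (li a) (li a) -
    K3 μ (J + s • a) (li a) (li a) (li a) with hφ3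
  have d1 : ∀ s, HasDerivAt φ (φ1 s) s := fun s =>
    ((hasDerivAt_Lg hμ _ _ s).sub_const _).sub ((hasDerivAt_Lg hμ _ _ s).sub_const _)
  have d2 : ∀ s, HasDerivAt φ1 (φ2 s) s := fun s =>
    (hasDerivAt_Ex hμ (Gr.li _) _ _ s).sub (hasDerivAt_Ex hμ (Gr.li _) _ _ s)
  have d3 : ∀ s, HasDerivAt φ2 (φ3 s) s := fun s =>
    (hasDerivAt_Cv hμ (Gr.li _) (Gr.li _) _ _ s).sub
      (hasDerivAt_Cv hμ (Gr.li _) (Gr.li _) _ _ s)
  have hφb : ∀ s, |s| ≤ 1 → |φ s| ≤ δ ^ 3 := by
    intro s hs
    have e : φ s = Lg μ (J + w + s • a) - Lg μ (J + w) - Lg μ (J + s • a) + Lg μ J := by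
      simp only [hφd]; ring
    rw [e]
    exact hφ s hs
  have hB2 : ∀ s, |s| ≤ 1 → |φ2 s| ≤ 8 * X := by
    intro s hs
    obtain ⟨t1, t2⟩ := hT s hs
    have h1 := cv_of hμ (dev _ t2)
    have h2 := cv_of hμ (dev _ t1)
    refine (abs_sub _ _).trans ?_
    linarith
  have hB3 : ∀ s, |s| ≤ 1 → |φ3 s| ≤ 24 * X := by
    intro s hs
    obtain ⟨t1, t2⟩ := hT s hs
    have h1 := k3_of hμ (dev _ t2)
    have h2 := k3_of hμ (dev _ t1)
    refine (abs_sub _ _).trans ?_
    linarith
  have hlk := (H358.lk3 d1 d2 d3 hδ hφb le_rfl hB2 hB3).2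
  simp only [hφ2, zero_smul, add_zero] at hlk
  refine hlk.trans ?_
  have hT0 : 0 ≤ τ := (H789.Tq_nonneg hμ he hK _).trans (hT 0 (by simp)).1
  have hκ0 : 0 ≤ κ := by
    have h1 := H789.Lg_par hμ he hK a a
    have h2 := H612.Zs_neg he a
    have h3 := H789.Lg_par hμ he hK a (-a)
    rw [sub_self, ← two_smul ℝ a] at h1
    have h4 : Lg μ 0 ≤ Lg μ a := by
      have h5 := ker_le hμ he hK 0 a
      have h6 : Lg μ (0 - a) = Lg μ a := by
        rw [zero_sub]
        exact congrArg Real.log h2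
      have h7 := H358.Lg_tangent hμ (0 : V → ℝ) a
      have h8 := H358.Lg_tangent hμ (0 : V → ℝ) (-a)
      have e4 : Ex μ (0 : V → ℝ) (li (-a)) = -Ex μ (0 : V → ℝ) (li a) := by
        have : (li (-a) : (V → ℤ) → ℝ) = fun h => -1 * li a h := by
          funext h
          rw [li_neg]; ring
        rw [this, Ex_cmul]
        ring
      rw [e4] at h8
      rw [zero_add] at h7 h8
      rw [zero_sub] at h6
      rw [h6] at h8
      linarith
    linarith
  have hX1 : 1 ≤ X := Real.one_le_exp (by linarith)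
  have : δ * (4 + 24 * X / 3 + 8 * X) ≤ δ * (20 * X) := by
    refine mul_le_mul_of_nonneg_left ?_ hδ.le
    linarith
  linarith

end Vale.Agent.P159.H197
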