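import Vale.Agent.P159.H316.St1

/-!
P159 (helper197), START of V, item (F) of the contract: `COR`, `YBB`, `DX0`, `AX` of `St1` in the
order of constants, from the zero background theorems `good_core`, `ybn_base`, `Ght_crit`.
-/

set_option linter.unusedSectionVars false

namespace Vale.Agent.P159.H197

open Filter Topology
open Vale.Agent.P159.H864 (yt yt_nonneg)
open Vale.Agent.P159.H972 (Par lg Good YBn TT_base)
open Vale.Agent.P159.H37 (small_rpow)
open Vale.Agent.P159.H801 (FLC Ev PS)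
open Vale.Agent.P159.H316 (y0 COR YBB DX0 AX)

noncomputable section

/-- lower bound of the zero background number, every `d > 0` -/
theorem y0_low' {b : ℝ} (hb : 0 < b) (hel : helicity b = 2 / Real.pi) {d : ℝ} (hd : 0 < d) :
    ∃ (D : ℝ) (N0 : ℕ), 0 ≤ D ∧ ∀ (P : Par) (n : ℕ) (ε : ℝ), N0 ≤ n →
      0 < ε → ε ≤ 1 → 0 < y0 P b n ε ∧
        Real.log (1 / y0 P b n ε) ≤ d * n + 3 * P.th * Real.log (1 / ε) + D := by
  obtain ⟨c, N1, hc, h⟩ := H879.Ght_crit hb hel (δ := min d 1) (κ := 1) (by positivity) one_pos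
  set δ : ℝ := min d 1 with hδ
  have hδ0 : 0 < δ := by positivity
  have hδ1 : δ ≤ 1 := min_le_right _ _
  have hδd : δ ≤ d := min_le_left _ _
  have hl2 := Real.log_two_lt_d9
  have hl2' := Real.log_two_gt_d9
  refine ⟨|Real.log c| + 10, N1, by positivity, fun P n ε hn hε hε1 => ?_⟩
  have hth := P.th0
  set k := P.kE ε with hk
  have hNr : N1 ≤ 2 ^ (n + k) := by
    have h1 : n + k < 2 ^ (n + k) := Nat.lt_two_pow_self
    omega
  have hX : 4 * H972.tn n * ((2 ^ (n + k) : ℕ) : ℝ) ^ 2 = 4 ^ (k + 1) := by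
    rw [mul_assoc, H972.tn_mul, pow_succ]
    ring
  have h1 := h (2 ^ (n + k)) hNr (4 * H972.tn n) (by
    rw [hX]
    exact one_le_pow₀ (by norm_num))
  rw [hX] at h1
  have e1 : 1 - 4 * H972.tn n * H37.Ght (2 ^ (n + k)) b (4 * H972.tn n) 0 = y0 P b n ε := rfl
  rw [e1] at h1
  have hN0 : (0 : ℝ) < ((2 ^ (n + k) : ℕ) : ℝ) := by positivity
  have hlow : 0 < c * ((2 ^ (n + k) : ℕ) : ℝ) ^ (-δ) := by positivity
  have h4 : (0 : ℝ) < 4 ^ (k + 1) := by positivity
  have hy : 0 < y0 P b n ε := by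
    by_contra hcon
    rw [not_lt] at hcon
    have := mul_nonpos_of_nonneg_of_nonpos h4.le hcon
    linarith
  refine ⟨hy, ?_⟩
  have hlog := Real.log_le_log hlow h1
  rw [Real.log_mul hc.ne' (by positivity), Real.log_mul h4.ne' hy.ne',
    Real.log_rpow hN0, Real.log_pow] at hlog
  have e2 : Real.log ((2 ^ (n + k) : ℕ) : ℝ) = (n + k) * Real.log 2 := by
    push_cast
    rw [Real.log_pow]
    push_cast
    ring
  have e3 : Real.log (4 : ℝ) = 2 * Real.log 2 := by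
    rw [show (4 : ℝ) = 2 ^ 2 by norm_num, Real.log_pow]
    push_cast
    ring
  rw [e2, e3] at hlog
  push_cast at hlog
  have hkb : (k : ℝ) * Real.log 2 ≤ P.th * Real.log (1 / ε) + 1 := by
    have h5 : (k : ℝ) ≤ P.th * Real.logb 2 (1 / ε) + 1 := by
      rw [hk]
      unfold Par.kE lg
      exact (Nat.ceil_lt_add_one (mul_nonneg hth.le (Real.logb_nonneg one_lt_two (by
        rw [le_div_iff₀ hε]; linarith)))).le
    have h6 : Real.logb 2 (1 / ε) * Real.log 2 = Real.log (1 / ε) := by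
      unfold Real.logb
      field_simp
    have h7 := mul_le_mul_of_nonneg_right h5 (show (0 : ℝ) ≤ Real.log 2 by linarith)
    calc (k : ℝ) * Real.log 2 ≤ (P.th * Real.logb 2 (1 / ε) + 1) * Real.log 2 := h7
      _ = P.th * (Real.logb 2 (1 / ε) * Real.log 2) + Real.log 2 := by ring
      _ ≤ _ := by rw [h6]; linarith
  have hn0 : (0 : ℝ) ≤ n := Nat.cast_nonneg n
  have hk0 : (0 : ℝ) ≤ k := Nat.cast_nonneg k
  rw [one_div, Real.log_inv]
  have h9 : δ * (n * Real.log 2) ≤ d * n := by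
    have : δ * (n * Real.log 2) ≤ d * (n * 1) := by gcongr; linarith
    linarith
  have h10 : δ * (k * Real.log 2) ≤ 1 * (k * Real.log 2) := by gcongr
  have h11 := neg_abs_le (Real.log c)
  nlinarith

/-- **(DX0)** -/
theorem dx0_of {b : ℝ} (hb : 0 < b) (hel : helicity b = 2 / Real.pi) {C1 : ℝ} (hC1 : 0 < C1) :
    ∀ᶠ N0 in atTop, ∀ P : Par, P.th ≤ 1 / 32 → DX0 P b C1 N0 := by
  obtain ⟨D, M0, hD, hlow⟩ := y0_low' hb hel (d := 1 / (768 * C1)) (by positivity)
  obtain ⟨M1, hM1⟩ := exists_nat_ge (768 * C1 * D)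
  filter_upwards [eventually_ge_atTop M0, eventually_ge_atTop M1] with N0 hN hN1 P hth n e hn he
    hes hye
  have he1 : e ≤ 1 := hes.trans (P.es1.trans (by norm_num))
  obtain ⟨h1, h2⟩ := hlow P n e (hN.trans hn) he he1
  refine ⟨h1, ?_⟩
  have h3 := Real.log_le_log (Real.rpow_pos_of_pos h1 _) hye
  rw [Real.log_rpow h1] at h3
  rw [one_div (y0 P b n e), one_div e, Real.log_inv, Real.log_inv] at h2
  rw [Real.log_mul he.ne' h1.ne']
  have hle : Real.log e ≤ 0 := Real.log_nonpos he.le he1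
  have hth0 := P.th0
  set L := Real.log (y0 P b n e)
  set l := Real.log e
  have h4 : 3 * P.th * -l ≤ 3 / 32 * -l := mul_le_mul_of_nonneg_right (by linarith) (by linarith)
  have h5 : 768 * C1 * D ≤ n := hM1.trans (by exact_mod_cast hN1.trans hn)
  have h6 : D ≤ 1 / (768 * C1) * n := by
    rw [one_div, ← div_eq_inv_mul, le_div_iff₀ (by positivity)]
    linarith
  have h7 : 1 / (64 * C1) * (n : ℝ) = 12 * (1 / (768 * C1) * n) := by
    field_simp
    ring
  rw [h7]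
  linarith

/-- **(AX)** -/
theorem ax_of {a : ℕ → ℝ} (ha : Tendsto a atTop (𝓝 (Real.pi / 2))) {C1 : ℝ} (hC1 : 0 < C1) :
    ∀ᶠ N0 in atTop, AX a C1 N0 := by
  have hpi := Real.pi_pos
  have h1 : Tendsto (fun n => |2 - Real.pi / a n|) atTop (𝓝 |2 - Real.pi / (Real.pi / 2)|) :=
    (tendsto_const_nhds.sub (tendsto_const_nhds.div ha (by positivity))).abs
  have h2 : |2 - Real.pi / (Real.pi / 2)| = 0 := by
    rw [show Real.pi / (Real.pi / 2) = 2 by field_simp, sub_self, abs_zero]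
  rw [h2] at h1
  obtain ⟨M, hM⟩ := eventually_atTop.1 ((h1.eventually (ge_mem_nhds (show (0 : ℝ) < 1 / 10 ^ 7 by
    norm_num))).and (h1.eventually (ge_mem_nhds (show (0 : ℝ) < 1 / (64 * C1) by positivity))))
  filter_upwards [eventually_ge_atTop M] with N0 hN n hn
  exact hM n (hN.trans hn)

/-- **(COR) and (YBB)** in the order of constants -/
theorem ev_core {b1 : ℝ} (hb1 : 0 < b1) (b2 : ℝ) {pf : ℝ} (hpf : 1 / 4 ≤ pf) (Q : ℕ) :
    Ev b1 b2 pf Q fun P c1 => P.th ≤ 1 / 32 ∧ ∀ b : ℝ, b1 ≤ b → b ≤ b2 → ∀ a : ℕ → ℝ, FLC P b a →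
      Tendsto a atTop (𝓝 (Real.pi / 2)) → ∀ᶠ N0 in atTop, COR P b c1 N0 ∧ YBB P b N0 := by
  obtain ⟨Wa, hWa⟩ := H316.ybn_base hb1 b2
  obtain ⟨Ca, hCa, hya⟩ := hWa Wa le_rfl
  obtain ⟨Wb, hWb⟩ := H316.good_core hb1 b2
  obtain ⟨c, C, hc, hC, hyb⟩ := hWb Wb le_rfl
  apply Ev.of
  refine ⟨0, fun W _ => ⟨1, one_pos, fun ys _ _ => ⟨0, fun X0 _ => ⟨1, one_pos,
    fun x1 hx1 _ => ⟨1, one_pos, fun thp hthp _ => ⟨1 / 32, by norm_num, fun th hth hth1 =>
    ⟨0, fun C0 _ => ⟨th / 2, by positivity, fun c1 hc1 hc1th => ?_⟩⟩⟩⟩⟩⟩⟩⟩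
  obtain ⟨e1, he1, hy1⟩ := hya th hth hth1
  obtain ⟨e2, he2, -, hy2⟩ := hyb th hth hth1
  obtain ⟨e3, he3, hy3⟩ := small_rpow (s := thp / 200) (A := Ca) (by positivity) one_pos
  obtain ⟨e4, he4, hy4⟩ := small_rpow (s := th) (A := 2 * C) hth one_pos
  obtain ⟨e5, he5, hy5⟩ := small_rpow (s := th / 2) (A := 2) (by positivity) hc
  refine ⟨min (min e1 e2) (min (min e3 e4) (min e5 1)), by positivity, fun P hP => ?_⟩
  have hE1 : P.es ≤ e1 := hP.ees.trans ((min_le_left _ _).trans (min_le_left _ _))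
  have hE2 : P.es ≤ e2 := hP.ees.trans ((min_le_left _ _).trans (min_le_right _ _))
  have hE34 : P.es ≤ min e3 e4 := hP.ees.trans ((min_le_right _ _).trans (min_le_left _ _))
  have hE3 : P.es ≤ e3 := hE34.trans (min_le_left _ _)
  have hE4 : P.es ≤ e4 := hE34.trans (min_le_right _ _)
  have hE5 : P.es ≤ e5 := hP.ees.trans ((min_le_right _ _).trans ((min_le_right _ _).trans
    (min_le_left _ _)))
  have hpfP : 1 / 4 ≤ P.pf := by rw [hP.epf]; exact hpf
  have hPth := hP.eth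
  have hPthp := hP.ethp
  refine ⟨hPth.le.trans hth1, fun b hbb1 hbb2 a hfl ha => ?_⟩
  obtain ⟨n1, hn1⟩ := eventually_atTop.1 (hy1 P b a hP.adm hPth hE1 hpfP hbb1 hbb2 hfl ha)
  obtain ⟨n2, hn2⟩ := eventually_atTop.1 (hy2 P b a hP.adm hPth hE2 hpfP hbb1 hbb2 hfl ha)
  filter_upwards [eventually_ge_atTop n1, eventually_ge_atTop n2] with N0 hN1 hN2
  constructor
  · intro n e y hn he hes hG hy hye hyl hyy r hr
    have he1 : e ≤ 1 := hes.trans (P.es1.trans (by norm_num))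
    have h1 := (hn2 n (hN2.trans hn) e he hes hG y hy hye hyy e le_rfl hes r hr).2
    have h2 := hy4 e he (hes.trans hE4)
    have h3 := hy5 e he (hes.trans hE5)
    rw [hPth]
    have hp : 0 < e ^ (-th) := Real.rpow_pos_of_pos he _
    -- the exponential is at most `y`
    have h4 : e ^ (-c1) ≤ e ^ (-(th / 2)) :=
      Real.rpow_le_rpow_of_exponent_ge he he1 (by linarith)
    have h5 : 2 * e ^ (-(th / 2)) ≤ c * e ^ (-th) := by
      have e6 : e ^ (th / 2) * e ^ (-th) = e ^ (-(th / 2)) := by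
        rw [← Real.rpow_add he]
        congr 1
        ring
      have h6 := mul_le_mul_of_nonneg_right h3 hp.le
      rw [mul_assoc, e6] at h6
      exact h6
    have h6 : Real.exp (-(c * e ^ (-th))) ≤ y := by
      rw [← Real.le_log_iff_exp_le hy]
      rw [one_div, Real.log_inv] at hyl
      linarith
    have h7 : 2 * C ≤ e ^ (-th) := by
      have e8 : e ^ th * e ^ (-th) = 1 := by
        rw [← Real.rpow_add he, add_neg_cancel, Real.rpow_zero]
      have h8 := mul_le_mul_of_nonneg_right h2 hp.le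
      rw [mul_assoc, e8] at h8
      linarith
    calc yt (2 ^ r) b (4 * H972.tn n) ≤ C * (y + Real.exp (-(c * e ^ (-th)))) := h1
      _ ≤ C * (y + y) := by gcongr
      _ = 2 * C * y := by ring
      _ ≤ e ^ (-th) * y := by gcongr
  · intro n e y hn he hes hG hy hye hyy
    have h2 := hy3 e he (hes.trans hE3)
    rw [hPthp]
    have hp : 0 < e ^ (-(thp / 200)) := Real.rpow_pos_of_pos he _
    refine hn1 n (hN1.trans hn) e he hes hG y hy hye hyy _ (mul_pos hp hy)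
      ((le_max_left _ _).trans' ?_)
    have e8 : e ^ (thp / 200) * e ^ (-(thp / 200)) = 1 := by
      rw [← Real.rpow_add he, add_neg_cancel, Real.rpow_zero]
    have h8 := mul_le_mul_of_nonneg_right h2 hp.le
    rw [mul_assoc, e8] at h8
    exact mul_le_mul_of_nonneg_right (by linarith) hy.le

/-- **item (F): `COR`, `YBB`, `DX0`, `AX` in the order of constants** -/
theorem ev_fi {b b1 b2 pf : ℝ} (hb1 : 0 < b1) (hbb1 : b1 ≤ b) (hbb2 : b ≤ b2)
    (hel : helicity b = 2 / Real.pi) (hpf : 1 / 4 ≤ pf) (Q : ℕ) :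
    Ev b1 b2 pf Q fun P c1 => ∀ C1 : ℝ, 0 < C1 → ∀ a : ℕ → ℝ, FLC P b a →
      Tendsto a atTop (𝓝 (Real.pi / 2)) →
      ∀ᶠ N0 in atTop, COR P b c1 N0 ∧ YBB P b N0 ∧ DX0 P b C1 N0 ∧ AX a C1 N0 := by
  refine (ev_core hb1 b2 hpf Q).mono fun P c1 _ h C1 hC1 a hfl ha => ?_
  filter_upwards [h.2 b hbb1 hbb2 a hfl ha, dx0_of (hb1.trans_le hbb1) hel hC1, ax_of ha hC1]
    with N0 h1 h2 h3
  exact ⟨h1.1, h1.2, h2 P h.1, h3⟩

end

end Vale.Agent.P159.H197
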