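import Vale.Agent.P159.H197.Form8
import Vale.Agent.P159.H513.Cor2

/-!
P159, START (flat profile): on the torus of side `2^i₁ ξ`, `ξ = 2^m` large, mass `t = ξ⁻²`, at every
`b` with `2 / π ≤ helicity b`, the self energy satisfies `Π_t(k) = EE k / helicity b + error`,
`|error| ≤ e (t + EE k) (1 + EE k / t)`, `e = C e^{-c 2^i₁} + δ`, for all `k` with
`e (1 + EE k / t) ≤ 1`; the lower bound holds for every `k`.
-/

open Finset Filter Topology

namespace Vale.Agent.P159.H197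

open Vale.Agent.P159 Vale.Agent.P159.TM Vale.Agent.P159.H37
open Vale.Agent.P159.TM.H764 (Gh EE)
open Vale.Agent.P159.TM.H41 (G)
open Vale.Agent.P159.TM.Spec (V)

noncomputable section

lemma inv_Y_le {Y : ℝ} (hY : 2 / Real.pi ≤ Y) : 0 < Y ∧ 1 / Y ≤ 2 := by
  have hπ := Real.pi_pos
  have hπ4 := Real.pi_lt_four
  have hY0 : 0 < Y := (by positivity : (0 : ℝ) < 2 / Real.pi).trans_le hY
  refine ⟨hY0, ?_⟩
  rw [div_le_iff₀ hY0]
  rw [div_le_iff₀ hπ] at hY
  nlinarith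

/-- upper bound of the self energy from the lower bound of the covariance -/
lemma up_pik {t E Y e g : ℝ} (ht : 0 < t) (hE : 0 ≤ E) (hY : 2 / Real.pi ≤ Y) (he : 0 ≤ e)
    (hs : 8 * e * (1 + E / t) ≤ 1) (h : 1 / (t + E / Y) - e / t ≤ g) :
    g⁻¹ - t ≤ E / Y + 8 * e * (t + E) * (1 + E / t) := by
  obtain ⟨hY0, hY2⟩ := inv_Y_le hY
  obtain ⟨a, ha⟩ : ∃ a : ℝ, a = t + E / Y := ⟨_, rfl⟩
  have ha0 : 0 < a := by rw [ha]; positivity
  have ha2 : a ≤ 2 * (t + E) := by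
    rw [ha]
    have : E / Y ≤ E * 2 := by
      rw [div_eq_mul_one_div]
      exact mul_le_mul_of_nonneg_left hY2 hE
    linarith
  have hx0 : 0 ≤ e * a / t := by positivity
  have hx1 : e * a / t ≤ 1 / 4 := by
    calc e * a / t ≤ e * (2 * (t + E)) / t := by gcongr
      _ = 2 * e * (1 + E / t) := by field_simp
      _ ≤ 1 / 4 := by linarith
  rw [← ha] at h
  have h1 : (1 - e * a / t) / a ≤ g := by
    refine le_trans (le_of_eq ?_) h
    field_simp
  have h2 : 0 < (1 - e * a / t) / a := div_pos (by linarith) ha0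
  have h3 : g⁻¹ ≤ ((1 - e * a / t) / a)⁻¹ := inv_anti₀ h2 h1
  have h4 : ((1 - e * a / t) / a)⁻¹ ≤ a * (1 + 2 * (e * a / t)) := by
    rw [inv_div, div_le_iff₀ (by linarith)]
    have : a ≤ a * ((1 + 2 * (e * a / t)) * (1 - e * a / t)) := by
      refine le_mul_of_one_le_right ha0.le ?_
      nlinarith
    linarith
  have h5 : a * (2 * (e * a / t)) ≤ 8 * e * (t + E) * (1 + E / t) := by
    calc a * (2 * (e * a / t)) = 2 * e / t * (a * a) := by ring
      _ ≤ 2 * e / t * ((2 * (t + E)) * (2 * (t + E))) := by gcongr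
      _ = 8 * e * (t + E) * (1 + E / t) := by field_simp; ring
  have h6 : a * (1 + 2 * (e * a / t)) = a + a * (2 * (e * a / t)) := by ring
  linarith

/-- lower bound of `E / D` -/
lemma low_pik {t E Y δ D : ℝ} (ht : 0 < t) (hE : 0 ≤ E) (hY : 2 / Real.pi ≤ Y) (hδ : 0 ≤ δ)
    (hD : Y ≤ D) (h : D - Y ≤ δ / 4 * (1 + E / t)) :
    E / Y - δ * (t + E) * (1 + E / t) ≤ E / D := by
  obtain ⟨hY0, hY2⟩ := inv_Y_le hY
  have hD0 : 0 < D := hY0.trans_le hD
  have h1 : E / Y - E / D = E * (D - Y) * (1 / Y) * (1 / D) := by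
    field_simp
  have h2 : 1 / D ≤ 2 := (one_div_le_one_div_of_le hY0 hD).trans hY2
  have h3 : E * (D - Y) * (1 / Y) * (1 / D) ≤ E * (δ / 4 * (1 + E / t)) * 2 * 2 := by
    have h0 : 0 ≤ D - Y := by linarith
    gcongr
  have h4 : E * (δ / 4 * (1 + E / t)) * 2 * 2 ≤ δ * (t + E) * (1 + E / t) := by
    have : 0 ≤ δ * t * (1 + E / t) := by positivity
    nlinarith
  linarith

/-- **flat profile at the start**, scalar mass -/
theorem start_flat {b : ℝ} (hb : 0 < b) (hY : 2 / Real.pi ≤ helicity b) :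
    ∃ c C : ℝ, 0 < c ∧ 0 < C ∧ ∀ i₁ : ℕ, 3 ≤ i₁ → ∀ δ : ℝ, 0 < δ → ∃ m₀ : ℕ, ∀ m : ℕ, m₀ ≤ m →
      ∀ k : V (2 ^ (i₁ + m)), ∀ t : ℝ, t = 1 / ((2 ^ m : ℕ) : ℝ) ^ 2 →
        EE k / helicity b - δ * (t + EE k) * (1 + EE k / t) ≤ Pik (2 ^ (i₁ + m)) b t k ∧
        ((C * Real.exp (-(c * 2 ^ i₁)) + δ) * (1 + EE k / t) ≤ 1 →
          Pik (2 ^ (i₁ + m)) b t k ≤ EE k / helicity b +
            (C * Real.exp (-(c * 2 ^ i₁)) + δ) * (t + EE k) * (1 + EE k / t)) := by
  obtain ⟨hY0, hY2⟩ := inv_Y_le hY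
  obtain ⟨c, C, hc, hC, h⟩ := start_win hb hY
  refine ⟨c, 8 * C, hc, by positivity, fun i₁ hi₁ δ hδ => ?_⟩
  obtain ⟨m₁, hm₁⟩ := h i₁ hi₁ (δ / 8) (by positivity)
  -- block stiffness close to its limit
  obtain ⟨η, hη, hη1⟩ : ∃ η : ℝ, 0 < η ∧ η * (helicity b + 1) ≤ δ / 16 := by
    refine ⟨δ / 16 / (helicity b + 1), by positivity, ?_⟩
    rw [div_mul_cancel₀ _ (by positivity)]
  obtain ⟨s, hs⟩ : ∃ s : ℕ, (1 + 1 / η) * (16 * b) * 64 ≤ δ * 4 ^ s := by
    obtain ⟨s, hs⟩ := pow_unbounded_of_one_lt ((1 + 1 / η) * (16 * b) * 64 / δ)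
      (show (1 : ℝ) < 4 by norm_num)
    refine ⟨s, ?_⟩
    rw [div_lt_iff₀ hδ] at hs
    linarith
  have hlim := H177.tendsto_stiff hb
  obtain ⟨X, hX⟩ := eventually_atTop.1 (hlim.eventually
    (ge_mem_nhds (show helicity b < helicity b + min 1 (δ / 16) from by
      have : 0 < min 1 (δ / 16) := lt_min one_pos (by positivity)
      linarith)))
  refine ⟨max m₁ (X + s), fun m hm k t htt => ?_⟩
  have h1 : m₁ ≤ m := (le_max_left _ _).trans hm
  have h2 : X + s ≤ m := (le_max_right _ _).trans hm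
  have hsm : s ≤ m := by omega
  have hξ : (0 : ℝ) < ((2 ^ m : ℕ) : ℝ) := by positivity
  have ht : 0 < t := by rw [htt]; positivity
  have hE := H764.EE_nonneg k
  refine ⟨?_, fun hsmall => ?_⟩
  · have hl : X ≤ 2 ^ (m - s) := by
      have : m - s < 2 ^ (m - s) := Nat.lt_two_pow_self
      omega
    have hN : 2 ^ (i₁ + m) = 2 ^ (i₁ + s) * 2 ^ (m - s) := by
      rw [← pow_add]
      congr 1
      omega
    have h3 := H513.pik_ge (N := 2 ^ (i₁ + m)) hN hb Nat.one_le_two_pow ht hη k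
    have h4 := hX _ hl
    have h5 := H177.helicity_le hb.le (l := 2 ^ (m - s)) Nat.one_le_two_pow
    have hlt : (((2 ^ (m - s) : ℕ) : ℝ)) ^ 2 = 1 / t / 4 ^ s := by
      rw [htt]
      have e1 : ((2 ^ m : ℕ) : ℝ) = 2 ^ s * 2 ^ (m - s) := by
        push_cast
        rw [← pow_add]
        congr 1
        omega
      rw [e1]
      push_cast
      have e2 : (4 : ℝ) ^ s = (2 ^ s) ^ 2 := by
        rw [← pow_mul, mul_comm, pow_mul]
        norm_num
      rw [e2]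
      field_simp
    refine le_trans ?_ h3
    have hS1 : stiff (2 ^ (m - s)) b ≤ helicity b + δ / 16 :=
      h4.trans (by linarith [min_le_right (1 : ℝ) (δ / 16)])
    have hS2 : stiff (2 ^ (m - s)) b ≤ helicity b + 1 :=
      h4.trans (by linarith [min_le_left (1 : ℝ) (δ / 16)])
    refine low_pik ht hE hY hδ.le ?_ ?_
    · have : 0 ≤ (1 + 1 / η) * (16 * b * (((2 ^ (m - s) : ℕ) : ℝ)) ^ 2 * EE k) := by positivity
      nlinarith
    · have e1 : (1 + 1 / η) * (16 * b * (((2 ^ (m - s) : ℕ) : ℝ)) ^ 2 * EE k) ≤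
          δ / 64 * (EE k / t) := by
        rw [hlt]
        have e3 : (1 + 1 / η) * (16 * b * (1 / t / 4 ^ s) * EE k) =
            ((1 + 1 / η) * (16 * b) * 64 / 4 ^ s) / 64 * (EE k / t) := by
          field_simp
        rw [e3]
        have e4 : (1 + 1 / η) * (16 * b) * 64 / 4 ^ s ≤ δ := by
          rw [div_le_iff₀ (by positivity)]
          exact hs
        gcongr
      have e2 : (1 + η) * stiff (2 ^ (m - s)) b - helicity b ≤ δ / 8 := by
        have : η * stiff (2 ^ (m - s)) b ≤ η * (helicity b + 1) := by gcongr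
        linarith
      have e5 : 0 ≤ EE k / t := by positivity
      nlinarith
  · have h3 := hm₁ m h1 k
    have hG : Gh (G b (2 ^ (i₁ + m)) ((2 ^ m : ℕ) : ℝ)) k = Ght (2 ^ (i₁ + m)) b t k := by
      rw [htt]
      exact (H864.Ght_eq_Gh hξ k).symm
    rw [hG] at h3
    obtain ⟨e, he⟩ : ∃ e : ℝ, e = C * Real.exp (-(c * 2 ^ i₁)) + δ / 8 := ⟨_, rfl⟩
    have he0 : 0 ≤ e := by rw [he]; positivity
    have h8 : 8 * C * Real.exp (-(c * 2 ^ i₁)) + δ = 8 * e := by
      rw [he]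
      ring
    rw [h8] at hsmall ⊢
    have h4 : 1 / (t + EE k / helicity b) - e / t ≤ Ght (2 ^ (i₁ + m)) b t k := by
      refine le_trans (le_of_eq ?_) h3
      rw [htt, he]
      field_simp
      ring
    have h5 := up_pik ht hE hY he0 hsmall h4
    unfold Pik
    linarith

end

end Vale.Agent.P159.H197
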