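import Vale.Agent.P159.H197.Start5

/-!
P159, START (ST7): the window on a fixed torus as an inequality between quadratic forms, for ALL
real `u`, `v` (rough ones included):
`ddU(0)[u,u] ≤ η ξ⁻² |u|² + ξ⁻² |u - v|² + Y⁻¹ dirE v`.
-/

open Finset

namespace Vale.Agent.P159.H197

open Vale.Agent.P159 Vale.Agent.P159.TM
open Vale.Agent.P159.TM.H764 (Gh cN sN QK Hyp EE pw frm grd hatu)
open Vale.Agent.P159.TM.H41 (G)

noncomputable section

section fourier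

variable {N : ℕ} [NeZero N]

/-- the one-scale window as a form inequality:
`<u, G u> ≥ <u, (ξ⁻² + Y⁻¹ (-Δ))⁻¹ u> - η ξ² |u|²` in Legendre form -/
def QS (ξ Y η : ℝ) (K : ZMod N × ZMod N → ℝ) : Prop :=
  ∀ u v : ZMod N × ZMod N → ℝ, 2 * ∑ x, u x * v x - 1 / ξ ^ 2 * ∑ x, v x ^ 2 - 1 / Y * grd v -
    η * ξ ^ 2 * ∑ x, u x ^ 2 ≤ frm K u

lemma hatu_add (u v : ZMod N × ZMod N → ℝ) (k : ZMod N × ZMod N) :
    hatu (fun x => u x + v x) k = hatu u k + hatu v k := by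
  unfold hatu
  rw [← sum_add_distrib]
  refine sum_congr rfl fun x _ => ?_
  push_cast
  ring

lemma hatu_sub (u v : ZMod N × ZMod N → ℝ) (k : ZMod N × ZMod N) :
    hatu (fun x => u x - v x) k = hatu u k - hatu v k := by
  unfold hatu
  rw [← sum_sub_distrib]
  refine sum_congr rfl fun x _ => ?_
  push_cast
  ring

lemma frm_del0 (u : ZMod N × ZMod N → ℝ) : frm (H764.del 0) u = ∑ x, u x ^ 2 := by
  rw [H764.frm_del 0 u]
  exact sum_congr rfl fun x _ => by rw [add_zero]; ring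

lemma par_inner (u v : ZMod N × ZMod N → ℝ) :
    (N : ℝ) ^ 2 * (4 * ∑ x, u x * v x) =
      ∑ k, (Complex.normSq (hatu u k + hatu v k) - Complex.normSq (hatu u k - hatu v k)) := by
  have h1 := H764.parseval (H764.del 0) (fun x => u x + v x)
  have h2 := H764.parseval (H764.del 0) (fun x => u x - v x)
  rw [frm_del0] at h1 h2
  have e0 : ∀ k : ZMod N × ZMod N, Gh (H764.del 0) k = 1 := by
    intro k
    rw [H764.Gh_del]
    have : H764.dt k 0 = 0 := by simp [H764.dt]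
    rw [this, H764.cN_zero]
  simp only [e0, one_mul, hatu_add, hatu_sub] at h1 h2
  rw [sum_sub_distrib, ← h1, ← h2, ← mul_sub, ← sum_sub_distrib]
  congr 1
  rw [mul_sum]
  exact sum_congr rfl fun x _ => by ring

lemma mode_ineq {α β : ℝ} (hα : 0 ≤ α) (_hβ : 0 ≤ β) (h : 1 ≤ α * β) (z w : ℂ) :
    0 ≤ α * Complex.normSq z - (Complex.normSq (z + w) - Complex.normSq (z - w)) / 2 +
      β * Complex.normSq w := by
  have h1 : (Complex.normSq (z + w) - Complex.normSq (z - w)) / 2 = 2 * (z.re * w.re + z.im * w.im) := by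
    simp only [Complex.normSq_apply, Complex.add_re, Complex.add_im, Complex.sub_re, Complex.sub_im]
    ring
  rw [h1]
  simp only [Complex.normSq_apply]
  have hα0 : 0 < α := by
    rcases hα.lt_or_eq with h2 | h2
    · exact h2
    · rw [← h2, zero_mul] at h
      linarith
  have key : ∀ a c : ℝ, 0 ≤ α * (a * a) - 2 * (a * c) + β * (c * c) := by
    intro a c
    have h3 : 0 ≤ α * (α * (a * a) - 2 * (a * c) + β * (c * c)) := by
      have : α * (α * (a * a) - 2 * (a * c) + β * (c * c)) =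
          (α * a - c) ^ 2 + (α * β - 1) * (c * c) := by ring
      rw [this]
      have h4 : 0 ≤ (α * β - 1) * (c * c) := mul_nonneg (by linarith) (mul_self_nonneg c)
      positivity
    exact nonneg_of_mul_nonneg_right h3 hα0
  have k1 := key z.re w.re
  have k2 := key z.im w.im
  linarith

/-- a lower bound of all plane waves gives the form inequality -/
theorem qs_of_modes {ξ Y η : ℝ} (hξ : 0 < ξ) (hY : 0 < Y) {K : ZMod N × ZMod N → ℝ}
    (hK : ∀ k, 0 ≤ Gh K k + η * ξ ^ 2)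
    (h : ∀ k, (1 / (1 + ξ ^ 2 * EE k / Y) - η) * ξ ^ 2 ≤ Gh K k) : QS ξ Y η K := by
  intro u v
  have hN : (0 : ℝ) < (N : ℝ) ^ 2 := by
    have : (0 : ℝ) < N := by exact_mod_cast NeZero.pos N
    positivity
  have p1 := H764.parseval K u
  have p2 := H764.parseval (H764.del 0) u
  have p3 := H764.parseval (H764.shK (fun _ => 0) (-(1 / ξ ^ 2)) (1 / Y)) v
  have p4 := par_inner u v
  rw [frm_del0] at p2
  rw [H764.frm_shK] at p3
  have e0 : ∀ k : ZMod N × ZMod N, Gh (H764.del 0) k = 1 := by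
    intro k
    rw [H764.Gh_del]
    have : H764.dt k 0 = 0 := by simp [H764.dt]
    rw [this, H764.cN_zero]
  have e1 : frm (fun _ : ZMod N × ZMod N => (0 : ℝ)) v = 0 := by
    unfold frm
    simp
  have e2 : ∀ k : ZMod N × ZMod N, Gh (fun _ : ZMod N × ZMod N => (0 : ℝ)) k = 0 := by
    intro k
    unfold Gh
    simp
  simp only [e0, one_mul] at p2
  simp only [H764.Gh_shK, e2] at p3
  rw [e1] at p3
  have key : 0 ≤ ∑ k : ZMod N × ZMod N, ((Gh K k + η * ξ ^ 2) * Complex.normSq (hatu u k) -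
      (Complex.normSq (hatu u k + hatu v k) - Complex.normSq (hatu u k - hatu v k)) / 2 +
      (1 / ξ ^ 2 + 1 / Y * EE k) * Complex.normSq (hatu v k)) := by
    refine sum_nonneg fun k _ => mode_ineq (hK k) ?_ ?_ _ _
    · have := H764.EE_nonneg k
      positivity
    · have hE := H764.EE_nonneg k
      have h1 := h k
      have h2 : 0 < 1 + ξ ^ 2 * EE k / Y := by positivity
      have h3 : 1 / (1 + ξ ^ 2 * EE k / Y) * ξ ^ 2 ≤ Gh K k + η * ξ ^ 2 := by linarith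
      have h4 : (1 / (1 + ξ ^ 2 * EE k / Y) * ξ ^ 2) * (1 / ξ ^ 2 + 1 / Y * EE k) = 1 := by
        field_simp
      exact h4.symm.le.trans (mul_le_mul_of_nonneg_right h3 (by positivity))
  rw [sum_add_distrib, sum_sub_distrib, ← sum_div, ← p4] at key
  have q1 : ∑ k : ZMod N × ZMod N, (Gh K k + η * ξ ^ 2) * Complex.normSq (hatu u k) =
      (N : ℝ) ^ 2 * (frm K u + η * ξ ^ 2 * ∑ x, u x ^ 2) := by
    rw [mul_add, p1]
    have : (N : ℝ) ^ 2 * (η * ξ ^ 2 * ∑ x, u x ^ 2) = η * ξ ^ 2 * ((N : ℝ) ^ 2 * ∑ x, u x ^ 2) := by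
      ring
    rw [this, p2, mul_sum, ← sum_add_distrib]
    exact sum_congr rfl fun k _ => by ring
  have q2 : ∑ k : ZMod N × ZMod N, (1 / ξ ^ 2 + 1 / Y * EE k) * Complex.normSq (hatu v k) =
      (N : ℝ) ^ 2 * (1 / ξ ^ 2 * ∑ x, v x ^ 2 + 1 / Y * grd v) := by
    have : (N : ℝ) ^ 2 * (1 / ξ ^ 2 * ∑ x, v x ^ 2 + 1 / Y * grd v) =
        (N : ℝ) ^ 2 * (0 - -(1 / ξ ^ 2) * ∑ x, v x ^ 2 + 1 / Y * grd v) := by ring
    rw [this, p3]
    exact sum_congr rfl fun k _ => by ring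
  rw [q1, q2] at key
  have h5 : 0 ≤ (N : ℝ) ^ 2 * (frm K u + η * ξ ^ 2 * ∑ x, u x ^ 2 - 2 * ∑ x, u x * v x +
      (1 / ξ ^ 2 * ∑ x, v x ^ 2 + 1 / Y * grd v)) := by
    refine key.trans (le_of_eq ?_)
    ring
  have h6 := nonneg_of_mul_nonneg_right h5 hN
  linarith

/-- the same for the second derivative of the free energy -/
theorem QS.ddU {b ξ Y η : ℝ} (hb : 0 ≤ b) (hξ : 0 < ξ) (h : QS ξ Y η (G b N ξ))
    (u v : ZMod N × ZMod N → ℝ) :
    H104.ddU (SpecC.wT b N) (SpecC.ms ξ) 0 u u ≤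
      η / ξ ^ 2 * ∑ x, u x ^ 2 + 1 / ξ ^ 2 * ∑ x, (u x - v x) ^ 2 + 1 / Y * H859.dirE v := by
  have h1 := h u fun x => ξ ^ 2 * v x
  have h2 : grd (fun x => ξ ^ 2 * v x) = ξ ^ 4 * grd v := by
    unfold grd H764.Q
    rw [mul_add, mul_sum, mul_sum]
    congr 1
    · exact sum_congr rfl fun x _ => by ring
    · exact sum_congr rfl fun x _ => by ring
  have h3 : ∑ x, u x * (ξ ^ 2 * v x) = ξ ^ 2 * ∑ x, u x * v x := by
    rw [mul_sum]
    exact sum_congr rfl fun x _ => by ring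
  have h4 : ∑ x, (ξ ^ 2 * v x) ^ 2 = ξ ^ 4 * ∑ x, v x ^ 2 := by
    rw [mul_sum]
    exact sum_congr rfl fun x _ => by ring
  have h5 : ∑ x, (u x - v x) ^ 2 = ∑ x, u x ^ 2 - 2 * ∑ x, u x * v x + ∑ x, v x ^ 2 := by
    rw [mul_sum, ← sum_sub_distrib, ← sum_add_distrib]
    exact sum_congr rfl fun x _ => by ring
  rw [h2, h3, h4] at h1
  rw [H41.ddU_frm hb hξ, H41.dirE_eq, h5]
  have h6 : (0 : ℝ) < 1 / ξ ^ 4 := by positivity
  have h7 := mul_le_mul_of_nonneg_left h1 h6.le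
  have h8 : 1 / ξ ^ 4 * (2 * (ξ ^ 2 * ∑ x, u x * v x) - 1 / ξ ^ 2 * (ξ ^ 4 * ∑ x, v x ^ 2) -
      1 / Y * (ξ ^ 4 * grd v) - η * ξ ^ 2 * ∑ x, u x ^ 2) =
      2 / ξ ^ 2 * ∑ x, u x * v x - 1 / ξ ^ 2 * ∑ x, v x ^ 2 - 1 / Y * grd v -
        η / ξ ^ 2 * ∑ x, u x ^ 2 := by
    field_simp
  rw [h8] at h7
  have h9 : 1 / ξ ^ 2 * (∑ x, u x ^ 2 - 2 * ∑ x, u x * v x + ∑ x, v x ^ 2) =
      1 / ξ ^ 2 * ∑ x, u x ^ 2 - 2 / ξ ^ 2 * ∑ x, u x * v x + 1 / ξ ^ 2 * ∑ x, v x ^ 2 := by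
    ring
  rw [h9]
  linarith

end fourier

/-- **(ST7)**: on the torus of side `2^i₁ ξ`, `ξ = 2^m` large, `b ≥ b_c` -/
theorem start_form {b : ℝ} (hb : 0 < b) (hY : 2 / Real.pi ≤ helicity b) :
    ∃ c C : ℝ, 0 < c ∧ 0 < C ∧ ∀ i₁ : ℕ, 3 ≤ i₁ → ∀ δ : ℝ, 0 < δ → ∃ m₀ : ℕ, ∀ m : ℕ, m₀ ≤ m →
      QS ((2 ^ m : ℕ) : ℝ) (helicity b) (C * Real.exp (-(c * 2 ^ i₁)) + δ)
        (G b (2 ^ (i₁ + m)) ((2 ^ m : ℕ) : ℝ)) := by
  have hπ := Real.pi_pos
  have hY0 : 0 < helicity b := (by positivity : (0 : ℝ) < 2 / Real.pi).trans_le hY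
  obtain ⟨c, C, hc, hC, h⟩ := start_win hb hY
  refine ⟨c, C, hc, hC, fun i₁ hi₁ δ hδ => ?_⟩
  obtain ⟨m₀, hm₀⟩ := h i₁ hi₁ δ hδ
  refine ⟨m₀, fun m hm => ?_⟩
  have hξ : (0 : ℝ) < ((2 ^ m : ℕ) : ℝ) := by positivity
  refine qs_of_modes hξ hY0 (fun k => ?_) fun k => ?_
  · have := H41.Gh_nonneg hb.le hξ k (N := 2 ^ (i₁ + m))
    positivity
  · have := hm₀ m hm k
    refine le_trans (le_of_eq ?_) this
    ring

end

end Vale.Agent.P159.H197
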