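import Vale.Agent.P159.H197.Form7
import Vale.Agent.P159.H864.Fou2

/-!
P159, START (ST7) in the letters of `H37/Spec0` (`wt N b t`, `Gm`, `qf`, `t = ξ⁻²`): the
hypothesis of the sandwich `sand_R` of helper30.
-/

open Finset

namespace Vale.Agent.P159.H197

open Vale.Agent.P159 Vale.Agent.P159.TM Vale.Agent.P159.H37
open Vale.Agent.P159.TM.H764 (Gh EE frm grd)
open Vale.Agent.P159.TM.H41 (G)
open Vale.Agent.P159.TM.Spec (V)
open Vale.Agent.P159.TM.SpecC (wT ms)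

noncomputable section

variable {N : ℕ} [NeZero N] {b : ℝ}

/-- the form window in the letters of `Spec0`:
`t |u|² - t² <u, G_t u> ≤ e t |u|² + t |u - v|² + Y⁻¹ dirE v` -/
def QSt (N : ℕ) [NeZero N] (b t Y e : ℝ) : Prop :=
  ∀ u v : V N → ℝ, t * ∑ x, u x ^ 2 - t ^ 2 * qf (Gm (wt N b t)) u ≤
    e * t * ∑ x, u x ^ 2 + t * ∑ x, (u x - v x) ^ 2 + 1 / Y * H859.dirE v

lemma frm_G_eq {ξ : ℝ} (hξ : 0 < ξ) (u : V N → ℝ) :
    frm (G b N ξ) u = qf (Gm (wt N b (1 / ξ ^ 2))) u := by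
  refine Eq.symm ((H864.qf_eq_frm (H864.ti_Gm_wt (b := b) (1 / ξ ^ 2)) u).trans ?_)
  congr 1
  funext z
  exact H864.Gt_eq_G hξ z

theorem QS.spec {ξ Y η : ℝ} (hb : 0 ≤ b) (hξ : 0 < ξ) (h : QS ξ Y η (G b N ξ)) :
    QSt N b (1 / ξ ^ 2) Y η := by
  intro u v
  have h1 := h.ddU hb hξ u v
  rw [H41.ddU_frm hb hξ, frm_G_eq hξ] at h1
  have h2 : (1 / ξ ^ 2) ^ 2 = 1 / ξ ^ 4 := by
    field_simp
  rw [h2]
  refine le_trans (le_of_eq ?_) (h1.trans (le_of_eq ?_))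
  · ring
  · ring

/-- every torus: the form window from the plane waves -/
theorem qst_of_modes {t Y e : ℝ} (hb : 0 ≤ b) (ht : 0 < t) (hY : 0 < Y) (he : 0 ≤ e)
    (h : ∀ k : V N, 1 / (t + EE k / Y) - e / t ≤ Ght N b t k) : QSt N b t Y e := by
  have hs : 0 < √t := Real.sqrt_pos.2 ht
  have hξ : 0 < 1 / √t := by positivity
  have hsq : √t ^ 2 = t := Real.sq_sqrt ht.le
  have e1 : (1 / √t) ^ 2 = 1 / t := by
    rw [one_div_pow, hsq]
  have e2 : 1 / (1 / √t) ^ 2 = t := by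
    rw [e1, one_div_one_div]
  have hq : QS (1 / √t) Y e (G b N (1 / √t)) := by
    refine qs_of_modes hξ hY (fun k => ?_) fun k => ?_
    · have := H41.Gh_nonneg hb hξ k (N := N)
      positivity
    · rw [← H864.Ght_eq_Gh' ht k]
      refine le_trans (le_of_eq ?_) (h k)
      rw [e1]
      have hE := H764.EE_nonneg k
      field_simp
  have h2 := hq.spec hb hξ
  rwa [e2] at h2

/-- monotone in the error -/
theorem QSt.mono {t Y e e' : ℝ} (ht : 0 ≤ t) (h : QSt N b t Y e) (he : e ≤ e') :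
    QSt N b t Y e' := by
  intro u v
  refine (h u v).trans ?_
  have h1 : e * t * ∑ x, u x ^ 2 ≤ e' * t * ∑ x, u x ^ 2 := by
    have : 0 ≤ ∑ x, u x ^ 2 := sum_nonneg fun x _ => sq_nonneg _
    gcongr
  linarith

end

/-- **(ST7) in the letters of the source calculus**: on the torus of side `2^i₁ ξ`,
`ξ = 2^m` large, `helicity b ≥ 2/π` -/
theorem start_formt {b : ℝ} (hb : 0 < b) (hY : 2 / Real.pi ≤ helicity b) :
    ∃ c C : ℝ, 0 < c ∧ 0 < C ∧ ∀ i₁ : ℕ, 3 ≤ i₁ → ∀ δ : ℝ, 0 < δ → ∃ m₀ : ℕ, ∀ m : ℕ, m₀ ≤ m →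
      QSt (2 ^ (i₁ + m)) b (1 / ((2 ^ m : ℕ) : ℝ) ^ 2) (helicity b)
        (C * Real.exp (-(c * 2 ^ i₁)) + δ) := by
  obtain ⟨c, C, hc, hC, h⟩ := start_form hb hY
  refine ⟨c, C, hc, hC, fun i₁ hi₁ δ hδ => ?_⟩
  obtain ⟨m₀, hm₀⟩ := h i₁ hi₁ δ hδ
  exact ⟨m₀, fun m hm => (hm₀ m hm).spec hb.le (by positivity)⟩

end Vale.Agent.P159.H197
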