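import Vale.Agent.P159.H197.Ov4
import Vale.Agent.P159.H692.Hsb
import Vale.Agent.P159.H375.AclD
import Vale.Agent.P159.H889.VstepN

/-!
P159 / (P6) of the V glue (helper197): the logarithm of the natural growth factor of one window for a
cell form `B` which is close to `acl` in relative Hilbert-Schmidt distance.
-/

set_option linter.unusedSectionVars false

namespace Vale.Agent.P159.H197

open Finset Real Matrix Filter Topology
open Vale.Agent.P159.TM.H764 (EE EE_nonneg)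
open Vale.Agent.P159.TM.Spec (V)
open Vale.Agent.P159.H363 (acl sn rel)
open Vale.Agent.P159.H462 (Dom)
open Vale.Agent.P159.H972 (FL Par lg tn_pos)
open Vale.Agent.P159.H37 (small_rpow lg_lo lg_hi)
open Vale.Agent.P159.H889 (GF)

noncomputable section

/-- the logarithm of the natural growth factor -/
lemma log_GF {N : ℕ} [NeZero N] {n m : ℕ} {s ν : ℝ} (B : Matrix (V N) (V N) ℝ) :
    Real.log (GF ((2 : ℝ) ^ m / 2 ^ n) s ν B) =
      2 * (((m : ℝ) - n) * Real.log 2) - 2 * π ^ 2 * H363.vv s ν B := by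
  unfold GF
  have hM : (0 : ℝ) < 2 ^ m / 2 ^ n := by positivity
  rw [Real.log_mul (by positivity) (Real.exp_pos _).ne', Real.log_exp, Real.log_pow,
    Real.log_div (by positivity) (by positivity), Real.log_pow, Real.log_pow]
  push_cast
  ring

/-- **the growth factor of one window, numbers in the letters of P_up** -/
theorem gf_num {b2 pf q qh κ th thp C1 A c0 : ℝ} (q0 : ℕ) (hb2 : 0 < b2) (hpf : 0 < pf)
    (hpf1 : pf ≤ 1) (hA : 1 ≤ A) (hth : 0 < th) (hthp : 0 < thp) (hκ : 0 ≤ κ) (hq0 : 0 ≤ q)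
    (hq : q + κ < pf) (hqh : q < qh) (hC1 : pf + th + 4 * q0 * thp < C1) (hc0 : 0 < c0) :
    ∃ E, 0 < E ∧ E ≤ 1 ∧ ∀ P : Par, P.th = th → P.thp = thp → P.q0 = q0 →
      ∀ (b a e : ℝ) (n m r s : ℕ) [NeZero (2 ^ r / 2 ^ s)]
        (B : Matrix (V (2 ^ r / 2 ^ s)) (V (2 ^ r / 2 ^ s)) ℝ), 0 < b → b ≤ b2 → 1 ≤ a → a ≤ 2 →
        0 < e → e ≤ E → P.TT n e r → n < m → s ≤ n → (2 : ℝ) ^ s / 2 ^ n ≤ e ^ C1 →
        (m : ℝ) - s ≤ e ^ (-κ) → ((2 : ℝ) ^ n)⁻¹ ≤ e →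
        e ^ (-(P.th / 2)) ≤ (2 : ℝ) ^ r / 2 ^ m → FL b (H972.tn n) a (A * e ^ pf) (2 ^ r) →
        Dom B (H972.tn n * (((2 ^ s : ℕ) : ℝ)) ^ 2) c0 →
        ∑ k, rel (acl (2 ^ r) (2 ^ s) b (H972.tn n) (H972.tn n)) B k ^ 2 ≤ (e ^ qh) ^ 2 →
        |Real.log (GF ((2 : ℝ) ^ m / 2 ^ n) (sn (2 ^ s) (H972.tn n) (H972.tn m))
            (H972.tn n * (((2 ^ s : ℕ) : ℝ)) ^ 2) B) -
              (2 - π / a) * ((m : ℝ) - n) * Real.log 2| ≤ e ^ q := by
  obtain ⟨q1, hq1, hq1'⟩ : ∃ q1, q < q1 ∧ q1 + κ < pf := by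
    obtain ⟨x, hx1, hx2⟩ := exists_between (show q < pf - κ by linarith)
    exact ⟨x, hx1, by linarith⟩
  obtain ⟨E1, hE1, hE1', K1⟩ := o1_num (A := A) (pf := pf) (q := q1) (κ := κ) (th := th)
    (thp := thp) (C1 := C1) q0 hb2 hpf hpf1 hA hth hthp hκ hq1' hC1
  obtain ⟨c, hcd⟩ : ∃ c : ℝ, c = min c0 (1 / b2) := ⟨_, rfl⟩
  have hc : 0 < c := by rw [hcd]; positivity
  obtain ⟨E2, hE2, K2⟩ := small_rpow (s := qh - q) (A := 2 * π ^ 2 * (7 / c)) (B := 1 / 2)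
    (by linarith) (by norm_num)
  obtain ⟨E3, hE3, K3⟩ := small_rpow (s := q1 - q) (A := 1) (B := 1 / 2) (by linarith)
    (by norm_num)
  obtain ⟨E4, hE4, K4⟩ := small_rpow (s := qh) (A := 1) (B := 1 / 2) (by linarith)
    (by norm_num)
  refine ⟨min E1 (min E2 (min E3 E4)), by positivity, (min_le_left _ _).trans hE1', ?_⟩
  intro P p1 p2 p3 b a e n m r s hnz B hb hbb ha ha2 he hee hTT hnm hsn hs hms hn hr hF hB hrel
  have m1 := hee.trans (min_le_left _ _)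
  have m2 := hee.trans ((min_le_right _ _).trans (min_le_left _ _))
  have m3 := hee.trans ((min_le_right _ _).trans ((min_le_right _ _).trans (min_le_left _ _)))
  have m4 := hee.trans ((min_le_right _ _).trans ((min_le_right _ _).trans (min_le_right _ _)))
  have h1 := K1 P p1 p2 p3 b a e n m r s hb hbb ha ha2 he m1 hTT hnm hsn hs hms hn hr hF
  have k2 := K2 e he m2
  have k3 := K3 e he m3
  have k4 := K4 e he m4
  rw [one_mul] at k3 k4
  have hl : 2 ^ s ∣ 2 ^ r := pow_dvd_pow 2 (by have := hTT.1; omega)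
  have htm : H972.tn m < H972.tn n := by
    unfold H972.tn
    exact inv_strictAnti₀ (by positivity) (pow_lt_pow_right₀ (by norm_num) hnm)
  have hA1 : Dom (acl (2 ^ r) (2 ^ s) b (H972.tn n) (H972.tn n))
      (H972.tn n * (((2 ^ s : ℕ) : ℝ)) ^ 2) (1 / b) :=
    H375.dom_acl hb hl (tn_pos n) le_rfl
  have hc1 : c ≤ 1 / b := by
    rw [hcd]
    exact (min_le_right _ _).trans (one_div_le_one_div_of_le hb hbb)
  have hc2 : c ≤ c0 := by
    rw [hcd]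
    exact min_le_left _ _
  have h2 := H692.vvp (H692.Dom.weak hA1 hc hc1) (H692.Dom.weak hB hc hc2)
    (H363.sn_pos (N := 2 ^ r) (l := 2 ^ s) hl (tn_pos m) htm) (by positivity) k4 hrel
  rw [log_GF]
  obtain ⟨v, hv⟩ : ∃ v, v = H363.vv (sn (2 ^ s) (H972.tn n) (H972.tn m))
    (H972.tn n * (((2 ^ s : ℕ) : ℝ)) ^ 2) (acl (2 ^ r) (2 ^ s) b (H972.tn n) (H972.tn n)) :=
    ⟨_, rfl⟩
  obtain ⟨v', hv'⟩ : ∃ v', v' = H363.vv (sn (2 ^ s) (H972.tn n) (H972.tn m))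
    (H972.tn n * (((2 ^ s : ℕ) : ℝ)) ^ 2) B := ⟨_, rfl⟩
  rw [← hv] at h1 h2
  rw [← hv'] at h2 ⊢
  have e1 : e ^ q1 = e ^ q * e ^ (q1 - q) := by
    rw [← Real.rpow_add he]
    congr 1
    ring
  have e2 : e ^ qh = e ^ q * e ^ (qh - q) := by
    rw [← Real.rpow_add he]
    congr 1
    ring
  have hp : 0 < e ^ q := Real.rpow_pos_of_pos he q
  have h3 : e ^ q1 ≤ e ^ q * (1 / 2) := by
    rw [e1]
    exact mul_le_mul_of_nonneg_left k3 hp.le
  have h4 : 2 * π ^ 2 * (7 / c * e ^ qh) ≤ e ^ q * (1 / 2) := by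
    rw [e2]
    calc 2 * π ^ 2 * (7 / c * (e ^ q * e ^ (qh - q)))
        = e ^ q * (2 * π ^ 2 * (7 / c) * e ^ (qh - q)) := by ring
      _ ≤ _ := mul_le_mul_of_nonneg_left k2 hp.le
  have h5 : |2 * π ^ 2 * v - 2 * π ^ 2 * v'| ≤ 2 * π ^ 2 * (7 / c * e ^ qh) := by
    rw [← mul_sub, abs_mul, abs_of_pos (by positivity)]
    exact mul_le_mul_of_nonneg_left h2 (by positivity)
  have h6 : 2 * (((m : ℝ) - n) * Real.log 2) - 2 * π ^ 2 * v' -
      (2 - π / a) * ((m : ℝ) - n) * Real.log 2 =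
      (2 * π ^ 2 * v - 2 * π ^ 2 * v') -
        (2 * π ^ 2 * v - π / a * ((m : ℝ) - n) * Real.log 2) := by ring
  rw [h6]
  refine (abs_sub _ _).trans ?_
  linarith

end

end Vale.Agent.P159.H197
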