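import Vale.Agent.P159.H197.Gf1
import Vale.Agent.P159.H801.ParEv

/-!
P159 / (P6) of the V glue (helper197), part 2: the growth factor of one window in the order of
constants `Ev` (raw letters).
-/

set_option linter.unusedSectionVars false

namespace Vale.Agent.P159.H197

open Finset Real Matrix Filter Topology
open Vale.Agent.P159.TM.H764 (EE EE_nonneg)
open Vale.Agent.P159.TM.Spec (V)
open Vale.Agent.P159.H363 (acl sn rel)
open Vale.Agent.P159.H462 (Dom)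
open Vale.Agent.P159.H972 (FL Par lg tn_pos)
open Vale.Agent.P159.H37 (small_rpow lg_lo lg_hi)
open Vale.Agent.P159.H889 (GF)
open Vale.Agent.P159.H801 (Ev PS)

noncomputable section

/-- length of the window plus depth of the cells -/
lemma win_len {P : Par} {c1 e : ℝ} {n m s : ℕ} (hc1 : 0 < c1) (hthp1 : P.thp ≤ 1) (he : 0 < e)
    (he1 : e ≤ 1 / 4) (hlog : 21 * Real.log (1 / e) ≤ e ^ (-(3 * c1)) / 2)
    (hsm : 2 * e ^ c1 ≤ 1) (hw : m ≤ n + 4 * P.w e) (hns : (n : ℝ) - s ≤ e ^ (-(2 * c1))) :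
    (m : ℝ) - s ≤ e ^ (-(3 * c1)) := by
  have hl2 : (0.69 : ℝ) < Real.log 2 := by
    have := Real.log_two_gt_d9
    linarith
  have hL : 1 ≤ Real.log (1 / e) := by
    have h1 : (4 : ℝ) ≤ 1 / e := by
      rw [le_div_iff₀ he]
      linarith
    have h2 : Real.log 4 ≤ Real.log (1 / e) := Real.log_le_log (by norm_num) h1
    have h3 : Real.log 4 = 2 * Real.log 2 := by
      rw [show (4 : ℝ) = 2 ^ 2 by norm_num, Real.log_pow]
      push_cast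
      ring
    linarith
  have hLb : Real.logb 2 (1 / e) ≤ 2 * Real.log (1 / e) := by
    unfold Real.logb
    rw [div_le_iff₀ (by linarith)]
    nlinarith
  have hLb0 : 0 ≤ Real.logb 2 (1 / e) := H972.logb_nonneg' he (by linarith)
  have hwle : (P.w e : ℝ) ≤ 2 * Real.log (1 / e) + 1 := by
    have h1 : (P.w e : ℝ) ≤ P.thp * Real.logb 2 (1 / e) + 1 :=
      (Nat.ceil_lt_add_one (mul_nonneg P.thp0.le hLb0)).le
    have h2 : P.thp * Real.logb 2 (1 / e) ≤ 1 * Real.logb 2 (1 / e) :=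
      mul_le_mul_of_nonneg_right hthp1 hLb0
    linarith
  have hm : (m : ℝ) ≤ n + 4 * (P.w e : ℝ) := by exact_mod_cast hw
  have h4 : e ^ (-(2 * c1)) ≤ e ^ (-(3 * c1)) / 2 := by
    have h5 : e ^ (-(2 * c1)) = e ^ (-(3 * c1)) * e ^ c1 := by
      rw [← Real.rpow_add he]
      congr 1
      ring
    rw [h5]
    have h6 : 0 < e ^ (-(3 * c1)) := Real.rpow_pos_of_pos he _
    nlinarith
  linarith

/-- `log (1/e)` is small against powers -/
lemma ev_log {c : ℝ} (hc : 0 < c) :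
    ∃ E0 : ℝ, 0 < E0 ∧ ∀ e : ℝ, 0 < e → e ≤ E0 → 21 * Real.log (1 / e) ≤ e ^ (-c) / 2 := by
  obtain ⟨E0, hE0, h⟩ := small_rpow (s := c / 2) (A := 84 / c) (B := 1) (by linarith) one_pos
  refine ⟨E0, hE0, fun e he hee => ?_⟩
  have h1 := h e he hee
  have h2 : Real.log (1 / e) ≤ (1 / e) ^ (c / 2) / (c / 2) :=
    Real.log_le_rpow_div (by positivity) (by linarith)
  have h3 : (1 / e) ^ (c / 2) = e ^ (-(c / 2)) := by
    rw [one_div, Real.inv_rpow he.le, Real.rpow_neg he.le]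
  rw [h3] at h2
  have hp : 0 < e ^ (-c) := Real.rpow_pos_of_pos he _
  have h4 : e ^ (-(c / 2)) = e ^ (-c) * e ^ (c / 2) := by
    rw [← Real.rpow_add he]
    congr 1
    ring
  rw [h4] at h2
  have h5 : 21 * (e ^ (-c) * e ^ (c / 2) / (c / 2)) = e ^ (-c) * (84 / c * e ^ (c / 2)) / 2 := by
    field_simp
    ring
  calc 21 * Real.log (1 / e) ≤ 21 * (e ^ (-c) * e ^ (c / 2) / (c / 2)) := by linarith
    _ = e ^ (-c) * (84 / c * e ^ (c / 2)) / 2 := h5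
    _ ≤ e ^ (-c) * 1 / 2 := by
        have := mul_le_mul_of_nonneg_left h1 hp.le
        linarith
    _ = _ := by ring

/-- **the growth factor of one window, order of constants, raw letters** -/
theorem gf_ev {b1 b2 C1 A c0 : ℝ} (Q : ℕ) (hb1 : 0 < b1) (hb12 : b1 ≤ b2) (hC1 : 1 ≤ C1)
    (hA : 1 ≤ A) (hc0 : 0 < c0) :
    Ev b1 b2 (9 / 10) Q fun P c1 => ∀ (b a e e' : ℝ) (n m r s : ℕ) [NeZero (2 ^ r / 2 ^ s)]
      (B : Matrix (V (2 ^ r / 2 ^ s)) (V (2 ^ r / 2 ^ s)) ℝ), P.b1 ≤ b → b ≤ P.b2 → 1 ≤ a → a ≤ 2 →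
      0 < e → e ≤ P.es → 0 < e' → e' ≤ e ^ (1 / 2 : ℝ) → P.TT n e r → n < m →
      m ≤ n + 4 * P.w e → m + P.kE e' ≤ r → s ≤ n → n ≤ 2 * s → (2 : ℝ) ^ s / 2 ^ n ≤ e ^ C1 →
      (n : ℝ) - s ≤ e ^ (-(2 * c1)) →
      FL b (H972.tn n) a (A * e ^ P.pf) (2 ^ r) →
      Dom B (H972.tn n * (((2 ^ s : ℕ) : ℝ)) ^ 2) c0 →
      ∑ k, rel (acl (2 ^ r) (2 ^ s) b (H972.tn n) (H972.tn n)) B k ^ 2 ≤
        (e ^ (22 / 25 : ℝ)) ^ 2 →
      |Real.log (GF ((2 : ℝ) ^ m / 2 ^ n) (sn (2 ^ s) (H972.tn n) (H972.tn m))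
          (H972.tn n * (((2 ^ s : ℕ) : ℝ)) ^ 2) B) -
            (2 - π / a) * ((m : ℝ) - n) * Real.log 2| ≤ e ^ (87 / 100 : ℝ) := by
  have hb2 : 0 < b2 := by linarith
  refine Ev.of ⟨0, fun W _ => ⟨1, one_pos, fun ys _ _ => ⟨0, fun X0 _ => ⟨1 / 400, by norm_num,
    fun x1 hx1 hx1' => ⟨1 / (400 * (Q + 3)), by positivity, fun thp hthp hthp' =>
    ⟨1 / 400, by norm_num, fun th hth hth' => ⟨0, fun C0 _ => ⟨1 / 400, by norm_num,
    fun c1 hc1 hc1' => ?_⟩⟩⟩⟩⟩⟩⟩⟩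
  obtain ⟨q0, hq0⟩ : ∃ q0 : ℕ, q0 = Q + ⌈x1 / thp⌉₊ + 2 := ⟨_, rfl⟩
  have hq0t : (q0 : ℝ) * thp ≤ 1 / 200 := by
    have h2 : (⌈x1 / thp⌉₊ : ℝ) ≤ x1 / thp + 1 := (Nat.ceil_lt_add_one (by positivity)).le
    have h3 : (⌈x1 / thp⌉₊ : ℝ) * thp ≤ x1 + thp := by
      calc (⌈x1 / thp⌉₊ : ℝ) * thp ≤ (x1 / thp + 1) * thp := by gcongr
        _ = x1 + thp := by field_simp
    have h4 : (Q + 3 : ℝ) * thp ≤ 1 / 400 := by
      calc (Q + 3 : ℝ) * thp ≤ (Q + 3) * (1 / (400 * (Q + 3))) := by gcongr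
        _ = 1 / 400 := by field_simp
    rw [hq0]
    push_cast
    linarith
  obtain ⟨E1, hE1, hE1', K⟩ := gf_num (b2 := b2) (pf := 9 / 10) (q := 87 / 100) (qh := 22 / 25)
    (κ := 3 * c1) (th := th) (thp := thp) (C1 := C1) (A := A) (c0 := c0) q0 hb2 (by norm_num)
    (by norm_num) hA hth hthp (by positivity) (by norm_num) (by linarith) (by norm_num)
    (by linarith) hc0
  obtain ⟨E2, hE2, K2⟩ := ev_log (c := 3 * c1) (by positivity)
  obtain ⟨E3, hE3, K3⟩ := small_rpow (s := c1) (A := 2) (B := 1) hc1 one_pos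
  refine ⟨min E1 (min E2 (min E3 (1 / 4))), by positivity, ?_⟩
  intro P hP b a e e' n m r s hnz B hb hbb ha ha2 he hes he' hee' hTT hnm hm hr hsn hns hs hns'
    hF hB hrel
  have hE : e ≤ min E1 (min E2 (min E3 (1 / 4))) := hes.trans hP.ees
  have m1 := hE.trans (min_le_left _ _)
  have m2 := hE.trans ((min_le_right _ _).trans (min_le_left _ _))
  have m3 := hE.trans ((min_le_right _ _).trans ((min_le_right _ _).trans (min_le_left _ _)))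
  have m4 := hE.trans ((min_le_right _ _).trans ((min_le_right _ _).trans (min_le_right _ _)))
  rw [hP.eb1] at hb
  rw [hP.eb2] at hbb
  rw [hP.epf] at hF
  have hlen := win_len (P := P) hc1 hP.adm.thp1 he m4 (K2 e he m2) (K3 e he m3) hm hns'
  have hn2 := two_n_le (n := n) (s := s) he (by linarith) (by linarith) hns hs
  have hrat := ratio_of (P := P) (m := m) (r := r) he he' hee' hr
  exact K P hP.eth hP.ethp (hP.eq0.trans hq0.symm) b a e n m r s B (hb1.trans_le hb) hbb ha ha2 he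
    m1 hTT hnm hsn hs hlen hn2 hrat hF hB hrel

/-- the same with the condition `2 ^ s / 2 ^ n <= e` on the cells only -/
theorem gf_ev1 {b1 b2 A c0 : ℝ} (Q : ℕ) (hb1 : 0 < b1) (hb12 : b1 ≤ b2) (hA : 1 ≤ A)
    (hc0 : 0 < c0) :
    Ev b1 b2 (9 / 10) Q fun P c1 => ∀ (b a e e' : ℝ) (n m r s : ℕ) [NeZero (2 ^ r / 2 ^ s)]
      (B : Matrix (V (2 ^ r / 2 ^ s)) (V (2 ^ r / 2 ^ s)) ℝ), P.b1 ≤ b → b ≤ P.b2 → 1 ≤ a → a ≤ 2 →
      0 < e → e ≤ P.es → 0 < e' → e' ≤ e ^ (1 / 2 : ℝ) → P.TT n e r → n < m →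
      m ≤ n + 4 * P.w e → m + P.kE e' ≤ r → s ≤ n → n ≤ 2 * s → (2 : ℝ) ^ s / 2 ^ n ≤ e →
      (n : ℝ) - s ≤ e ^ (-(2 * c1)) →
      FL b (H972.tn n) a (A * e ^ P.pf) (2 ^ r) →
      Dom B (H972.tn n * (((2 ^ s : ℕ) : ℝ)) ^ 2) c0 →
      ∑ k, rel (acl (2 ^ r) (2 ^ s) b (H972.tn n) (H972.tn n)) B k ^ 2 ≤
        (e ^ (22 / 25 : ℝ)) ^ 2 →
      |Real.log (GF ((2 : ℝ) ^ m / 2 ^ n) (sn (2 ^ s) (H972.tn n) (H972.tn m))
          (H972.tn n * (((2 ^ s : ℕ) : ℝ)) ^ 2) B) -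
            (2 - π / a) * ((m : ℝ) - n) * Real.log 2| ≤ e ^ (87 / 100 : ℝ) := by
  refine (gf_ev (C1 := 1) Q hb1 hb12 le_rfl hA hc0).mono fun P c1 _ h => ?_
  intro b a e e' n m r s hnz B hb hbb ha ha2 he hes he' hee' hTT hnm hm hr hsn hns hs
  exact h b a e e' n m r s B hb hbb ha ha2 he hes he' hee' hTT hnm hm hr hsn hns
    (by rw [Real.rpow_one]; exact hs)

end

end Vale.Agent.P159.H197
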