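import Vale.Agent.P159.H197.Gf2
import Vale.Agent.P159.H889.Vpc

/-!
P159 / (P6) of the V glue (helper197), part 3: `PcG`, the letters of helper889.
-/

set_option linter.unusedSectionVars false

namespace Vale.Agent.P159.H197

open Finset Real Matrix Filter Topology
open Vale.Agent.P159.TM.Spec (V)
open Vale.Agent.P159.H363 (acl sn rel)
open Vale.Agent.P159.H462 (Dom)
open Vale.Agent.P159.H972 (FL Par lg tn_pos)
open Vale.Agent.P159.H37 (small_rpow lg_lo lg_hi)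
open Vale.Agent.P159.H889 (GF Cx CxF Cw BR PcG Bq Mw nu lam Lg top)
open Vale.Agent.P159.H801 (Ev PS)

noncomputable section

/-- depth of the cells, all exponents up to `K C0` -/
theorem lo_ev {b1 b2 pf : ℝ} (K : ℝ) (Q : ℕ) :
    Ev b1 b2 pf Q fun P c1 => ∀ C1, 1 ≤ C1 → C1 ≤ K * P.C0 → ∀ (b : ℝ) (n s : ℕ) (e y : ℝ),
      Cx P b C1 c1 n s e y → (n : ℝ) - s ≤ e ^ (-(2 * c1)) := by
  have hl2 := Real.log_pos one_lt_two
  refine Ev.of ⟨0, fun W _ => ⟨1, one_pos, fun ys _ _ => ⟨0, fun X0 _ => ⟨1, one_pos,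
    fun x1 _ _ => ⟨1, one_pos, fun thp _ _ => ⟨1, one_pos, fun th _ _ => ⟨0,
    fun C0 _ => ⟨1, one_pos, fun c1 hc1 _ => ?_⟩⟩⟩⟩⟩⟩⟩⟩
  obtain ⟨Cm, hCm⟩ : ∃ Cm : ℝ, Cm = max 1 (K * C0) := ⟨_, rfl⟩
  have hCm1 : 1 ≤ Cm := hCm ▸ le_max_left _ _
  obtain ⟨E0, hE0, hE⟩ := small_rpow (s := c1)
    (A := 9 / 8 * Cm * (1 / c1 + 1) / Real.log 2) hc1 one_pos
  refine ⟨E0, hE0, fun P hP C1 hC1 hC1K b n s e y h => ?_⟩
  have hC1m : C1 ≤ Cm := by
    rw [hP.eC0] at hC1K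
    rw [hCm]
    exact hC1K.trans (le_max_right _ _)
  have f1 := hE e h.e0 (h.es.trans hP.ees)
  have h1 := h.Lg_hi
  have hneg : 0 ≤ -Real.log (e * y) := by
    have h2 : e * y ≤ 1 := h.xle.trans (by linarith [h.e1])
    have := Real.log_nonpos h.x0.le h2
    linarith
  have h1' : Lg n s ≤ 9 / 8 * Cm * (-Real.log (e * y)) :=
    h1.trans (mul_le_mul_of_nonneg_right (by linarith) hneg)
  rw [h.logx] at h1'
  have h2 := H889.log_le_rpow hc1 h.e0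
  have h3 := h.yL
  have h4 : Real.log (1 / e) + Real.log (1 / y) ≤ (1 / c1 + 1) * e ^ (-c1) := by
    have : (1 / c1 + 1) * e ^ (-c1) = e ^ (-c1) / c1 + e ^ (-c1) := by ring
    rw [this]
    exact add_le_add h2 h3
  have h5 : ((n : ℝ) - s) * Real.log 2 ≤ e ^ (-(2 * c1)) * Real.log 2 := by
    calc ((n : ℝ) - s) * Real.log 2 ≤ 9 / 8 * Cm * ((1 / c1 + 1) * e ^ (-c1)) :=
          h1'.trans (mul_le_mul_of_nonneg_left h4 (by positivity))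
      _ = (9 / 8 * Cm * (1 / c1 + 1) / Real.log 2 * e ^ c1) * e ^ (-(2 * c1)) * Real.log 2 := by
          have e2 : e ^ (-c1) = e ^ c1 * e ^ (-(2 * c1)) := by
            rw [← Real.rpow_add h.e0]
            congr 1
            ring
          rw [e2]
          field_simp
      _ ≤ 1 * e ^ (-(2 * c1)) * Real.log 2 := by
          refine mul_le_mul_of_nonneg_right ?_ hl2.le
          exact mul_le_mul_of_nonneg_right f1 (Real.rpow_nonneg h.e0.le _)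
      _ = _ := by ring
  exact le_of_mul_le_mul_right h5 hl2

/-- **(P6), exponent of the cells inside the order of constants** -/
theorem pcGC {b1 b2 k0 c0 Cm : ℝ} (K : ℝ) (Q : ℕ) (hb1 : 0 < b1) (hb12 : b1 ≤ b2)
    (hc0 : 0 < c0) :
    Ev b1 b2 (9 / 10) Q fun P c1 => ∀ C1, 1 ≤ C1 → C1 ≤ K * P.C0 →
    ∀ (b a : ℝ) (n m s : ℕ) (e e' y : ℝ), CxF P b a C1 c1 n s e y →
    Cw P n m e e' → ∀ r, P.TT n e r → m + P.kE e' ≤ r →
    ∀ [NeZero (2 ^ r / 2 ^ s)] [NeZero (2 ^ (top P n e) / 2 ^ s)]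
      (h : 2 ^ r / 2 ^ s ∣ 2 ^ (top P n e) / 2 ^ s), BR b n s r (top P n e) e a k0 c0 Cm h →
      |Real.log (GF (Mw n m) (sn (2 ^ s) (H972.tn n) (H972.tn m)) (nu n s)
        (Bq b n s r (top P n e) h)) -
        (2 - π / a) * ((m : ℝ) - n) * Real.log 2| ≤ e ^ (87 / 100 : ℝ) := by
  refine ((gf_ev1 (A := 17) (c0 := c0) Q hb1 hb12 (by norm_num) hc0).and
    (lo_ev K Q)).mono fun P c1 _ hH => ?_
  obtain ⟨h, hlo⟩ := hH
  intro C1 hC1 hC1K b a n m s e e' y hx hw r hTT hr hnz hnz' hd hB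
  have he := hx.cx.e0
  have he1 := hx.cx.e1
  have hC0 : 0 < C1 := by linarith
  have hsn := hx.cx.sn hC0
  have hlam : (2 : ℝ) ^ s / 2 ^ n ≤ e := by
    have h1 := hx.cx.up hC0.le
    have h2 : e ^ C1 ≤ e ^ (1 : ℝ) := Real.rpow_le_rpow_of_exponent_ge he (by linarith) hC1
    rw [Real.rpow_one] at h2
    exact h1.trans h2
  have he'0 : 0 < e' := lt_of_lt_of_le (by linarith) hw.lo
  have he'2 : e' ≤ e ^ (1 / 2 : ℝ) :=
    hw.hi.trans (Real.rpow_le_rpow_of_exponent_ge he (by linarith) (by norm_num))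
  have hw1 : 1 ≤ P.w e := H972.w1 he hx.cx.es
  have hnm : n < m := by
    have := hw.w1
    omega
  exact h b a e e' n m r s (Bq b n s r (top P n e) hd) hx.cx.b1 hx.cx.b2 hx.a1
    (hx.a2.trans (by norm_num)) he hx.cx.es he'0 he'2 hTT hnm hw.w2 hr hsn.le hx.cx.ns hlam
    (hlo C1 hC1 hC1K b n s e y hx.cx) (hx.fl r hTT) hB.two.dom hB.hs

/-- **(P6) = `PcG`** -/
theorem pcG {b1 b2 k0 c0 Cm C1 : ℝ} (Q : ℕ) (hb1 : 0 < b1) (hb12 : b1 ≤ b2) (hC1 : 1 ≤ C1)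
    (hc0 : 0 < c0) : PcG b1 b2 (9 / 10) Q C1 k0 c0 Cm := by
  have hC0 : Ev b1 b2 (9 / 10) Q fun P _ => 1 ≤ P.C0 := by
    refine Ev.of ⟨0, fun W _ => ⟨1, one_pos, fun ys _ _ => ⟨0, fun X0 _ => ⟨1, one_pos,
      fun x1 _ _ => ⟨1, one_pos, fun thp _ _ => ⟨1, one_pos, fun th _ _ => ⟨1,
      fun C0 hC0 => ⟨1, one_pos, fun c1 _ _ => ⟨1, one_pos, fun P hP => ?_⟩⟩⟩⟩⟩⟩⟩⟩⟩
    rw [hP.eC0]
    exact hC0
  refine ((pcGC (k0 := k0) (c0 := c0) (Cm := Cm) C1 Q hb1 hb12 hc0).and hC0).mono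
    fun P c1 _ hH => ?_
  obtain ⟨h, hc⟩ := hH
  exact h C1 hC1 (le_mul_of_one_le_right (by linarith) hc)

end

end Vale.Agent.P159.H197
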