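import Vale.Agent.P159.TM.H968.Final
import Vale.Agent.P159.TM.H943.Win

/-!
P159, START (ST4), part 1: the modes `cos (m π x) cos (n π y)` of the free box and of the torus.
-/

open Finset Filter Topology

namespace Vale.Agent.P159.H197

open Vale.Agent.P159 Vale.Agent.P159.R2.H254 Vale.Agent.P159.TM Vale.Agent.P159.TM.SpecI
open Vale.Agent.P159.TM.H968 (nr c1 c2 c2_zero orth2 ix four_pow dct sit siE siE_apply nr_pos)

noncomputable section

/-! ### the free box -/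

/-- the mode `(m, n)` of the box -/
def fm2 (k m n : ℕ) (h : V (2 ^ k) → ℤ) : ℝ :=
  (∑ x : V (2 ^ k), (h x : ℝ) * (Real.cos (m * Real.pi * (((x.1.val : ℝ) + 1 / 2) / 2 ^ k)) *
    Real.cos (n * Real.pi * (((x.2.val : ℝ) + 1 / 2) / 2 ^ k)))) / 4 ^ k

/-- the mode as a face function -/
def cosf2 (m n k : ℕ) : Fa (2 ^ k - 1) → ℝ := fun x => c2 (2 ^ k - 1) (m, n) x

lemma cosf2_orth {m n k : ℕ} (hm : m < 2 ^ k) (hn : n < 2 ^ k) {p : ℕ × ℕ} (h1 : p.1 < 2 ^ k)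
    (h2 : p.2 < 2 ^ k) :
    ∑ x, cosf2 m n k x * c2 (2 ^ k - 1) p x = if p = (m, n) then nr (m, n) * 4 ^ k else 0 := by
  have hk : 2 ^ k - 1 + 1 = 2 ^ k := Nat.sub_add_cancel Nat.one_le_two_pow
  have h := orth2 (2 ^ k - 1) (⟨m, by omega⟩, ⟨n, by omega⟩) (⟨p.1, by omega⟩, ⟨p.2, by omega⟩)
  have e1 : ix (((⟨m, by omega⟩ : Fin (2 ^ k - 1 + 1)), (⟨n, by omega⟩ : Fin (2 ^ k - 1 + 1))) :
    Fa (2 ^ k - 1)) = (m, n) := rfl
  have e2 : ix (((⟨p.1, by omega⟩ : Fin (2 ^ k - 1 + 1)),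
    (⟨p.2, by omega⟩ : Fin (2 ^ k - 1 + 1))) : Fa (2 ^ k - 1)) = p := rfl
  rw [e1, e2, four_pow] at h
  unfold cosf2
  rw [h]
  by_cases hp : p = (m, n)
  · have h5 : p.1 = m := by rw [hp]
    have h6 : p.2 = n := by rw [hp]
    rw [if_pos hp, if_pos]
    exact Prod.ext (Fin.ext h5.symm) (Fin.ext h6.symm)
  · rw [if_neg hp, if_neg]
    intro hcon
    apply hp
    have h3 := congrArg (fun q : Fa (2 ^ k - 1) => ((q.1 : ℕ), (q.2 : ℕ))) hcon
    exact h3.symm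

lemma cosf2_sum {m n k : ℕ} (h1 : (m, n) ≠ (0, 0)) (hm : m < 2 ^ k) (hn : n < 2 ^ k) :
    ∑ x, cosf2 m n k x = 0 := by
  have h0 : 0 < 2 ^ k := by positivity
  have h := cosf2_orth hm hn (p := (0, 0)) h0 h0
  simp only [c2_zero, mul_one] at h
  rw [h, if_neg]
  intro hcon
  exact h1 hcon.symm

lemma cosf2_sq {m n k : ℕ} (hm : m < 2 ^ k) (hn : n < 2 ^ k) :
    ∑ x, cosf2 m n k x ^ 2 ≤ 1 * 4 ^ k := by
  have h := cosf2_orth hm hn (p := (m, n)) hm hn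
  rw [if_pos rfl] at h
  have e : ∑ x, cosf2 m n k x ^ 2 = ∑ x, cosf2 m n k x * c2 (2 ^ k - 1) (m, n) x :=
    sum_congr rfl fun x _ => by unfold cosf2; ring
  rw [e, h]
  refine mul_le_mul_of_nonneg_right ?_ (by positivity)
  unfold nr
  exact mul_le_one₀ (H968.cnrm_le _) (H968.cnrm_pos _).le (H968.cnrm_le _)

lemma cosf2_dct (m n : ℕ) (p : ℕ × ℕ) :
    Tendsto (fun k => dct (2 ^ k - 1) (cosf2 m n k) p) atTop
      (𝓝 (if p = (m, n) then nr (m, n) else 0)) := by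
  refine tendsto_const_nhds.congr' ?_
  filter_upwards [eventually_ge_atTop (m + n + p.1 + p.2)] with k hk
  have : k < 2 ^ k := Nat.lt_two_pow_self
  unfold dct
  rw [cosf2_orth (by omega) (by omega) (by omega) (by omega), four_pow]
  split_ifs
  · field_simp
  · simp

lemma fm2_eq (k m n : ℕ) (h : V (2 ^ k) → ℤ) :
    fm2 k m n h = H968.pr (cosf2 m n k) fun y => h (sit y) := by
  have hn : 2 ^ k = (2 ^ k - 1) + 1 := (Nat.sub_add_cancel Nat.one_le_two_pow).symm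
  have hk : (((2 ^ k - 1 : ℕ) : ℝ) + 1) = 2 ^ k := by
    rw [Nat.cast_sub Nat.one_le_two_pow]
    push_cast
    ring
  unfold fm2 H968.pr
  rw [four_pow, ← (siE hn).sum_comp]
  congr 1
  refine sum_congr rfl fun y _ => ?_
  rw [siE_apply]
  unfold cosf2 c2 c1 ctr
  have e1 : ((sit y : SpecI.V (2 ^ k)).1).val = (y.1 : ℕ) := by
    unfold sit
    exact ZMod.val_natCast_of_lt (by have := y.1.2; omega)
  have e2 : ((sit y : SpecI.V (2 ^ k)).2).val = (y.2 : ℕ) := by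
    unfold sit
    exact ZMod.val_natCast_of_lt (by have := y.2.2; omega)
  rw [e1, e2, hk]
  ring

/-- lower bound for the mode `(m, n)` of the free box, mass on the cell averages -/
theorem igm2 {b : ℝ} (hb : 0 < b) (hY : 0 < helicity b) {κ : ℝ} (hκ : 0 < κ) (a m n : ℕ)
    (hmn : (m, n) ≠ (0, 0)) {δ : ℝ} (hδ : 0 < δ) : ∃ k₀ : ℕ, ∀ k : ℕ, k₀ ≤ k →
      nr (m, n) / (κ ^ 2 + Real.pi ^ 2 * ((m : ℝ) ^ 2 + (n : ℝ) ^ 2) / helicity b) - δ ≤
        exA b κ k a (fun h => fm2 k m n h ^ 2) := by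
  have hlt : ∀ k, m + n ≤ k → m < 2 ^ k ∧ n < 2 ^ k := fun k hk => by
    have : k < 2 ^ k := Nat.lt_two_pow_self
    omega
  obtain ⟨k₀, hk₀⟩ := H968.inst (fun s i j => H968.dcc s i j) hb hY hκ a (uf := cosf2 m n)
    (ū := 0) (B := 1)
    (φ := fun p => if p = (m, n) then nr (m, n) else 0) (m + n)
    (fun k hk => by rw [cosf2_sum hmn (hlt k hk).1 (hlt k hk).2, zero_mul])
    (fun k hk => cosf2_sq (hlt k hk).1 (hlt k hk).2) (cosf2_dct m n)
    (X := fun k h => fm2 k m n h)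
    (fun k _ h => fm2_eq k m n h) {(m, n)} hδ
  refine ⟨k₀, fun k hk => le_trans (le_of_eq ?_) (hk₀ k hk)⟩
  rw [sum_singleton, if_pos rfl]
  have hnr : nr (m, n) ≠ 0 := (nr_pos _).ne'
  congr 1
  simp only
  rw [pow_two (nr (m, n)), mul_div_mul_left _ _ hnr]

end

end Vale.Agent.P159.H197
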