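import Vale.Agent.P159.H197.Nk9

/-!
P159 / second order flow, module NKT (helper197), part 10: the forms used by the consumers
(natural indices of momenta, powers of two, the constant mode).
-/

open Finset MeasureTheory

set_option linter.unusedSectionVars false

namespace Vale.Agent.P159.H197

open Vale.Agent.P159.TM.H104
open Vale.Agent.P159.H37 (bf Cm wt)
open Vale.Agent.P159.TM.SpecC (wT)
open Vale.Agent.P159.TM.Spec (V Rng)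
open Vale.Agent.P159.TM.H764 (Gh)
open Vale.Agent.P159.H864 (TI sym)
open Vale.Agent.P159.H612 (GA)
open Vale.Agent.P159.H145 (OscZ)
open Vale.Agent.P159.H43 (Gcc)
open Vale.Agent.P159.H733.Torg (em)

noncomputable section

variable {N : ℕ} [NeZero N] {b t : ℝ}

/-- the variance of the total height in a constant background -/
theorem cv_one (hb : 0 ≤ b) (ht : 0 < t) (c : ℝ) :
    Cv (wt N b t) (fun _ => t * c) (li fun _ => 1) (li fun _ => 1) / (N : ℝ) ^ 2 =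
      sym (Gcc N b t c) 0 := by
  have hE := H789.em_wt (N := N) hb ht
  have hN : (0 : ℝ) < (N : ℝ) ^ 2 := H864.N_pos (N := N)
  have hT := H43.ti_Gcc (N := N) (b := b) (t := t) c
  rw [← H789.bf_Cm hE, div_eq_iff hN.ne']
  unfold bf
  have hrow : ∀ x : V N, ∑ z, 1 * Cm (wt N b t) (fun _ => t * c) x z * 1 =
      sym (Gcc N b t c) 0 := by
    intro x
    rw [H864.sym_def]
    refine Fintype.sum_equiv (Equiv.subRight x) _ _ fun z => ?_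
    rw [Equiv.subRight_apply, H864.dt_zero_left, TM.H764.cN_zero, mul_one, one_mul, mul_one]
    exact hT.eq x z
  rw [Finset.sum_congr rfl fun x _ => hrow x, Finset.sum_const, Finset.card_univ, nsmul_eq_mul]
  have : (Fintype.card (V N) : ℝ) = (N : ℝ) ^ 2 := TM.H764.card_V
  rw [this]
  ring

/-- **NKT0, constant mode** (415's hypothesis): the variance per site of the total height, in every
constant background, on two tori `N ∣ M` -/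
theorem nkt_row {b1 : ℝ} (hb1 : 0 < b1) (b2 : ℝ) {a : ℝ} (ha : 0 ≤ a) :
    ∃ W₀ : ℝ, ∀ W : ℝ, W₀ ≤ W → ∃ c C ys : ℝ, ∃ X : ℕ, 0 < c ∧ 0 < C ∧ 0 < ys ∧ 1 ≤ X ∧
    ∀ (N M : ℕ) [NeZero N] [NeZero M] (b : ℝ) (ξ : ℕ) (y : ℝ), N ∣ M →
      Rng b1 b2 a W ys X N b ξ y → Rng b1 b2 a W ys X M b ξ y →
      y * (M : ℝ) ^ 2 ≤ (ξ : ℝ) ^ 2 → ∀ s : ℝ,
      |Cv (wt N b (1 / (ξ : ℝ) ^ 2)) (fun _ => 1 / (ξ : ℝ) ^ 2 * s) (li fun _ => 1)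
          (li fun _ => 1) / (N : ℝ) ^ 2 -
        Cv (wt M b (1 / (ξ : ℝ) ^ 2)) (fun _ => 1 / (ξ : ℝ) ^ 2 * s) (li fun _ => 1)
          (li fun _ => 1) / (M : ℝ) ^ 2| ≤
        C * ((M : ℝ) / ξ) ^ 2 * Real.exp (-(c * √((N : ℝ) / ξ))) * (ξ : ℝ) ^ 2 := by
  obtain ⟨W0, h0⟩ := nkt0 hb1 b2 ha
  refine ⟨W0, fun W hW => ?_⟩
  obtain ⟨c, C, ys, X, hc, hC, hys, hX, h⟩ := h0 W hW
  refine ⟨c, C, ys, X, hc, hC, hys, hX, ?_⟩
  intro N M _ _ b ξ y hNM hRN hRM hyM s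
  have hb : 0 ≤ b := hb1.le.trans hRN.hb1
  have hξ : 0 < ξ := by
    have := hRN.hX
    omega
  have hξR : (0 : ℝ) < ξ := by exact_mod_cast hξ
  have ht : (0 : ℝ) < 1 / (ξ : ℝ) ^ 2 := by positivity
  rw [cv_one hb ht, cv_one hb ht]
  have h1 := h N M b ξ y hNM hRN hRM hyM 0 s
  have e0 : em M (0 : V N) = 0 := by
    unfold H733.Torg.em H733.Torg.ip
    simp
  rw [e0, ← mul_sub, abs_mul, abs_of_pos ht] at h1
  have h2 := mul_le_mul_of_nonneg_right h1 (by positivity : (0 : ℝ) ≤ (ξ : ℝ) ^ 2)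
  have e : 1 / (ξ : ℝ) ^ 2 * |sym (Gcc N b (1 / (ξ : ℝ) ^ 2) s) 0 -
      sym (Gcc M b (1 / (ξ : ℝ) ^ 2) s) 0| * (ξ : ℝ) ^ 2 =
      |sym (Gcc N b (1 / (ξ : ℝ) ^ 2) s) 0 - sym (Gcc M b (1 / (ξ : ℝ) ^ 2) s) 0| := by
    field_simp
  rw [e] at h2
  exact h2

/-- **NKT in natural indices** (846's hypothesis): `M = N R`, momenta `(p, q)` and `(p R, q R)` -/
theorem nkt_nat {b1 : ℝ} (hb1 : 0 < b1) (b2 : ℝ) {a : ℝ} (ha : 0 ≤ a) :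
    ∃ W₀ : ℝ, ∀ W : ℝ, W₀ ≤ W → ∃ c C ys : ℝ, ∃ X : ℕ, 0 < c ∧ 0 < C ∧ 0 < ys ∧ 1 ≤ X ∧
    ∀ (N M R : ℕ) [NeZero N] [NeZero M] (b : ℝ) (ξ : ℕ) (y ω : ℝ), M = N * R →
      Rng b1 b2 a W ys X N b ξ y → Rng b1 b2 a W ys X M b ξ y →
      y * (M : ℝ) ^ 2 ≤ (ξ : ℝ) ^ 2 → 0 ≤ ω → ω ≤ 1 / 4 →
      OscZ (wT b N) ((2 * (1 / (ξ : ℝ) ^ 2)) • (1 : Matrix (V N) (V N) ℝ)) ω →
      OscZ (wT b N) ((1 / (ξ : ℝ) ^ 2) • (1 : Matrix (V N) (V N) ℝ)) ω →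
      OscZ (wT b M) ((2 * (1 / (ξ : ℝ) ^ 2)) • (1 : Matrix (V M) (V M) ℝ)) ω →
      OscZ (wT b M) ((1 / (ξ : ℝ) ^ 2) • (1 : Matrix (V M) (V M) ℝ)) ω →
      ∀ p q : ℕ, (((p : ZMod N), (q : ZMod N)) : V N) ≠ 0 →
        |Gh (GA N b (1 / (ξ : ℝ) ^ 2) 0) ((p : ZMod N), (q : ZMod N)) -
          Gh (GA M b (1 / (ξ : ℝ) ^ 2) 0) (((p * R : ℕ) : ZMod M), ((q * R : ℕ) : ZMod M))| ≤
          (C * ((M : ℝ) / ξ) ^ 2 * Real.exp (-(c * √((N : ℝ) / ξ))) + 112 * ω ^ 2) *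
            (ξ : ℝ) ^ 2 := by
  obtain ⟨W0, h0⟩ := nkt hb1 b2 ha
  refine ⟨W0, fun W hW => ?_⟩
  obtain ⟨c, C, ys, X, hc, hC, hys, hX, h⟩ := h0 W hW
  refine ⟨c, C, ys, X, hc, hC, hys, hX, ?_⟩
  intro N M R _ _ b ξ y ω hM hRN hRM hyM hω0 hω hO hO' hO2 hO2' p q hk
  have hξ : 0 < ξ := by
    have := hRN.hX
    omega
  have hξR : (0 : ℝ) < ξ := by exact_mod_cast hξ
  have ht : (0 : ℝ) < 1 / (ξ : ℝ) ^ 2 := by positivity
  have h1 := (h N M b ξ y ω (Dvd.intro R hM.symm) hRN hRM hyM hω0 hω hO hO' hO2 hO2' _ hk).1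
  rw [em_nat hM, ← mul_sub, abs_mul, abs_of_pos ht] at h1
  have h2 := mul_le_mul_of_nonneg_right h1 (by positivity : (0 : ℝ) ≤ (ξ : ℝ) ^ 2)
  have e : ∀ z : ℝ, 1 / (ξ : ℝ) ^ 2 * z * (ξ : ℝ) ^ 2 = z := by
    intro z
    field_simp
  rw [e] at h2
  exact h2

end

end Vale.Agent.P159.H197
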