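import Vale.Agent.P159.H197.Nk10
import Vale.Agent.P159.H846.Prof3

/-!
P159 / second order flow, FLATSTEP (helper197, claim of row 4805 (C)): the zero mode of the averaged
kernel: `1 - 29 ω² t N² ≤ t ∑ GA ≤ 1`, so `0 ≤ SE(0) ≤ 58 ω² (t N²) t`.
-/

open Finset MeasureTheory Matrix

set_option linter.unusedSectionVars false

namespace Vale.Agent.P159.H197

open Vale.Agent.P159.TM.H104
open Vale.Agent.P159.H37 (qf bf Gm Cm wt ZM Zn)
open Vale.Agent.P159.TM.SpecC (wT)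
open Vale.Agent.P159.TM.Spec (V)
open Vale.Agent.P159.TM.H764 (Gh cN dt)
open Vale.Agent.P159.H963 (GW MF Zc gw_wT mf_smul)
open Vale.Agent.P159.H612 (ZC GA pav pv ph1 ph2)
open Vale.Agent.P159.H145 (OscZ cs)
open Vale.Agent.P159.H846 (SE)

noncomputable section

section av

variable {V' : Type} [Fintype V'] [DecidableEq V'] [Nonempty V'] {w : (V' → ℤ) → ℝ}
  {M' : Matrix V' V' ℝ} {m : ℝ}

/-- the weighted average only sees `[0,1]` -/
theorem pav_le_on (hw : GW w) (hM : MF M' m) {f : ℝ → ℝ} (hf : Continuous f) {B : ℝ}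
    (h : ∀ c ∈ Set.Icc (0 : ℝ) 1, f c ≤ B) : pav w M' m f ≤ B := by
  have hI := H612.int_Zc_pos hw hM
  have hc := H612.Zc_cont hw hM
  unfold pav
  rw [div_le_iff₀ hI, ← intervalIntegral.integral_const_mul]
  refine intervalIntegral.integral_mono_on zero_le_one ((hc.mul hf).intervalIntegrable 0 1)
    ((continuous_const.mul hc).intervalIntegrable 0 1) fun c hc' => ?_
  rw [mul_comm B]
  exact mul_le_mul_of_nonneg_left (h c hc') (H612.Zc_pos hw hM c).le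

end av

variable {N : ℕ} [NeZero N] {b t : ℝ}

/-- the two letters for `Z` in a constant background -/
theorem ZC_eq_ZM (hb : 0 ≤ b) (ht : 0 < t) (c : ℝ) :
    ZC N b t c = ZM (wT b N) (t • (1 : Matrix (V N) (V N) ℝ)) (cs 0 c) := by
  have hE := H789.em_wt (N := N) hb ht
  have hW := H896.wm_t (N := N) hb ht
  have h1 := H612.log_ZC (N := N) hb ht c
  have h2 := H145.LM_eq hW.sym hW.em (cs (0 : V N → ℝ) c)
  rw [H43.cs_zero_const] at h2
  have e2 : qf (t • (1 : Matrix (V N) (V N) ℝ)) (cs (0 : V N → ℝ) c) = t * (N : ℝ) ^ 2 * c ^ 2 := by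
    rw [H37.qf_smul_one]
    have e3 : ∀ x : V N, cs (0 : V N → ℝ) c x ^ 2 = c ^ 2 := fun x => by simp [cs]
    simp only [e3]
    rw [Finset.sum_const, Finset.card_univ, nsmul_eq_mul, TM.H764.card_V]
    ring
  rw [e2] at h2
  have h3 : Real.log (ZC N b t c) =
      Real.log (ZM (wT b N) (t • (1 : Matrix (V N) (V N) ℝ)) (cs 0 c)) := by
    have h4 : H145.LM (wT b N) (t • (1 : Matrix (V N) (V N) ℝ)) (cs 0 c) =
      Real.log (ZM (wT b N) (t • (1 : Matrix (V N) (V N) ℝ)) (cs 0 c)) := rfl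
    rw [← h4, h2, h1]
    have e4 : Lg (wt N b t) (fun _ => t * c) =
        Lg (H37.wM (wT b N) (t • (1 : Matrix (V N) (V N) ℝ))) (fun _ => t * c) := rfl
    rw [e4]
    ring
  exact Real.log_injOn_pos (H612.ZC_pos (N := N) hb ht c) (H37.ZM_pos hW.sym hW.em _) h3

/-- second differences of `Z(c)` -/
theorem ZC_d2 (hb : 0 ≤ b) (ht : 0 < t) {ω : ℝ} (hω : 0 ≤ ω)
    (hO : OscZ (wT b N) ((2 * t) • (1 : Matrix (V N) (V N) ℝ)) ω) {c : ℝ}
    (hc : c ∈ Set.Icc (0 : ℝ) 1) (s : ℝ) :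
    |ZC N b t (c + s) + ZC N b t (c - s) - 2 * ZC N b t c| ≤
      4 * ω * (t * (N : ℝ) ^ 2) * Zn (wT b N) (t • (1 : Matrix (V N) (V N) ℝ)) 0 * s ^ 2 := by
  have hW := H896.wm_t (N := N) hb ht
  have hW2 := H896.wm_t (N := N) hb (by linarith : 0 < 2 * t)
  set σ := √(1 / (2 * t)) with hσ
  have hσp : 0 < σ := Real.sqrt_pos.2 (by positivity)
  have hσ2 : σ ^ 2 = 1 / (2 * t) := Real.sq_sqrt (by positivity)
  have hBv : (σ • (1 : Matrix (V N) (V N) ℝ)) *ᵥ (fun _ => σ⁻¹ * s) = fun _ => s := by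
    rw [smul_mulVec, one_mulVec]
    funext x
    simp only [Pi.smul_apply, smul_eq_mul]
    rw [← mul_assoc, mul_inv_cancel₀ hσp.ne', one_mul]
  have h := H43.d2_le hW (H43.chn_half (N := N) ht) hO hω ((gw_wT (N := N) hb).Zn_le (mf_smul (N := N) ht)) hc
    (fun _ => σ⁻¹ * s)
  rw [← hσ, hBv] at h
  have e1 : (cs (fun _ : V N => s) c) = cs 0 (c + s) := by
    funext x
    simp only [cs, Pi.zero_apply]
    ring
  have e2 : (cs (-fun _ : V N => s) c) = cs 0 (c - s) := by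
    funext x
    simp only [cs, Pi.zero_apply, Pi.neg_apply]
    ring
  have n1 : Zn (wT b N) (t • (1 : Matrix (V N) (V N) ℝ)) (fun _ => s) =
      Zn (wT b N) (t • (1 : Matrix (V N) (V N) ℝ)) 0 := by
    have h1 := H145.Zn_cs (M := t • (1 : Matrix (V N) (V N) ℝ)) hW.per (0 : V N → ℝ) s
    have e5 : cs (0 : V N → ℝ) s = fun _ => s := by
      funext x
      simp [cs]
    rw [e5] at h1
    exact h1
  have n2 : Zn (wT b N) (t • (1 : Matrix (V N) (V N) ℝ)) (-fun _ => s) =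
      Zn (wT b N) (t • (1 : Matrix (V N) (V N) ℝ)) 0 := by
    have h1 := H145.Zn_cs (M := t • (1 : Matrix (V N) (V N) ℝ)) hW.per (0 : V N → ℝ) (-s)
    have e5 : cs (0 : V N → ℝ) (-s) = -fun _ => s := by
      funext x
      simp [cs]
    rw [e5] at h1
    exact h1
  rw [e1, e2, n1, n2, ← ZC_eq_ZM hb ht, ← ZC_eq_ZM hb ht, ← ZC_eq_ZM hb ht] at h
  have e3 : ∑ _i : V N, (σ⁻¹ * s) ^ 2 = 2 * (t * (N : ℝ) ^ 2) * s ^ 2 := by
    rw [Finset.sum_const, Finset.card_univ, nsmul_eq_mul, TM.H764.card_V, mul_pow, inv_pow, hσ2]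
    field_simp
  rw [e3] at h
  have e4 : ∀ A Z : ℝ, A - (Z + Z - 2 * Z) = A := fun A Z => by ring
  rw [e4] at h
  refine h.trans (le_of_eq ?_)
  ring

/-- the derivative of `log Z(c)` -/
theorem ph1_le (hb : 0 ≤ b) (ht : 0 < t) {ω : ℝ} (hω : 0 ≤ ω) (hω1 : ω ≤ 1 / 4)
    (hO : OscZ (wT b N) ((2 * t) • (1 : Matrix (V N) (V N) ℝ)) ω)
    (hO' : OscZ (wT b N) (t • (1 : Matrix (V N) (V N) ℝ)) ω) {c : ℝ}
    (hc : c ∈ Set.Icc (0 : ℝ) 1) : |ph1 N b t c| ≤ 16 / 3 * ω * (t * (N : ℝ) ^ 2) := by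
  have hW := H896.wm_t (N := N) hb ht
  have hE := H789.em_wt (N := N) hb ht
  set Z0 := Zn (wT b N) (t • (1 : Matrix (V N) (V N) ℝ)) 0 with hZ0
  have hZ0p : 0 < Z0 := H145.Zn_pos hW.sym hW.em 0
  set C0 := 4 * ω * (t * (N : ℝ) ^ 2) * Z0 with hC0
  have hC00 : 0 ≤ C0 := by positivity
  -- second derivative
  have hd1 : ∀ x : ℝ, HasDerivAt (fun s => ZC N b t s * ph1 N b t s)
      (ZC N b t x * ph1 N b t x * ph1 N b t x + ZC N b t x * ph2 N b t x) x := fun x =>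
    (H612.hasDerivAt_ZC (N := N) hb ht x).mul (H612.hasDerivAt_ph1 (N := N) hb ht x)
  have h2 : ∀ x ∈ Set.Icc (0 : ℝ) 1,
      |ZC N b t x * ph1 N b t x * ph1 N b t x + ZC N b t x * ph2 N b t x| ≤ C0 := by
    intro x hx
    have a1 : ∀ s : ℝ, HasDerivAt (fun s => ZC N b t (x + s))
        (ZC N b t (x + s) * ph1 N b t (x + s)) s := by
      intro s
      exact (H612.hasDerivAt_ZC (N := N) hb ht (x + s)).comp_const_add x s
    have a2 : HasDerivAt (fun s => ZC N b t (x + s) * ph1 N b t (x + s))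
        (ZC N b t x * ph1 N b t x * ph1 N b t x + ZC N b t x * ph2 N b t x) 0 := by
      have := hd1 (x + 0)
      rw [add_zero] at this
      have h3 : HasDerivAt (fun s => ZC N b t s * ph1 N b t s)
        (ZC N b t x * ph1 N b t x * ph1 N b t x + ZC N b t x * ph2 N b t x) (x + 0) := by
        rw [add_zero]
        exact this
      exact h3.comp_const_add x 0
    refine H43.lim2 a1 a2 fun s => ?_
    have h3 := ZC_d2 hb ht hω hO hx s
    rw [add_zero, ← sub_eq_add_neg]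
    exact h3
  -- at `0`
  have h0 : ph1 N b t 0 = 0 := by
    unfold ph1
    have e : (fun _ : V N => t * (0 : ℝ)) = 0 := by
      funext x
      simp
    rw [e]
    have := H789.Ex_zero_li (μ := wt N b t) H789.ev_wt (fun _ => t)
    rw [this]
    ring
  have h3 : |ZC N b t c * ph1 N b t c| ≤ C0 := by
    have h4 := Convex.norm_image_sub_le_of_norm_hasDerivWithin_le
      (f := fun s => ZC N b t s * ph1 N b t s)
      (f' := fun x => ZC N b t x * ph1 N b t x * ph1 N b t x + ZC N b t x * ph2 N b t x)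
      (C := C0) (s := Set.Icc (0 : ℝ) 1) (x := 0) (y := c)
      (fun x _ => (hd1 x).hasDerivWithinAt)
      (fun x hx => by rw [Real.norm_eq_abs]; exact h2 x hx) (convex_Icc 0 1)
      ⟨le_rfl, zero_le_one⟩ hc
    rw [h0, mul_zero, sub_zero, sub_zero, Real.norm_eq_abs, Real.norm_eq_abs] at h4
    refine h4.trans ?_
    rw [abs_of_nonneg hc.1]
    calc C0 * c ≤ C0 * 1 := mul_le_mul_of_nonneg_left hc.2 hC00
      _ = C0 := mul_one _
  have hZc := H612.ZC_pos (N := N) hb ht c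
  have h5 : 3 / 4 * Z0 ≤ ZC N b t c := by
    have h6 := (abs_le.1 (hO' 0 c hc)).1
    rw [← ZC_eq_ZM hb ht, ← hZ0] at h6
    have h7 : ω * Z0 ≤ 1 / 4 * Z0 := mul_le_mul_of_nonneg_right hω1 hZ0p.le
    linarith
  rw [abs_mul, abs_of_pos hZc] at h3
  have h8 : 3 / 4 * Z0 * |ph1 N b t c| ≤ C0 :=
    (mul_le_mul_of_nonneg_right h5 (abs_nonneg _)).trans h3
  have h9 : 3 / 4 * Z0 * |ph1 N b t c| ≤ 3 / 4 * Z0 * (16 / 3 * ω * (t * (N : ℝ) ^ 2)) := by
    refine h8.trans (le_of_eq ?_)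
    rw [hC0]
    ring
  exact le_of_mul_le_mul_left h9 (by positivity)

/-- **the zero mode of the averaged kernel** -/
theorem gh_zero (hb : 0 ≤ b) (ht : 0 < t) {ω : ℝ} (hω : 0 ≤ ω) (hω1 : ω ≤ 1 / 4)
    (hO : OscZ (wT b N) ((2 * t) • (1 : Matrix (V N) (V N) ℝ)) ω)
    (hO' : OscZ (wT b N) (t • (1 : Matrix (V N) (V N) ℝ)) ω) :
    1 - 29 * ω ^ 2 * (t * (N : ℝ) ^ 2) ≤ t * Gh (fun z => GA N b t 0 z) 0 ∧
      t * Gh (fun z => GA N b t 0 z) 0 ≤ 1 := by
  have hw := gw_wT (N := N) hb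
  have hM := mf_smul (N := N) ht
  have hN : (0 : ℝ) < (N : ℝ) ^ 2 := H864.N_pos (N := N)
  have hA : 0 < t * (N : ℝ) ^ 2 := by positivity
  have e : Gh (fun z => GA N b t 0 z) 0 = ∑ z, GA N b t 0 z := by
    have h1 := H864.sym_def (GA N b t) (0 : V N)
    have h2 : H864.sym (GA N b t) 0 = Gh (fun z => GA N b t 0 z) 0 := rfl
    rw [← h2, h1]
    refine Finset.sum_congr rfl fun z _ => ?_
    rw [H864.dt_zero_left, TM.H764.cN_zero, mul_one]
  rw [e, H612.row_GA hb ht]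
  have h1c := H612.cont_ph1 (N := N) hb ht
  have h1 : (pv N b t fun c => ph1 N b t c ^ 2) ≤ (16 / 3 * ω * (t * (N : ℝ) ^ 2)) ^ 2 := by
    refine pav_le_on hw hM (f := fun c => ph1 N b t c ^ 2) (h1c.pow 2) fun c hc => ?_
    have h5 := pow_le_pow_left₀ (abs_nonneg _) (ph1_le hb ht hω hω1 hO hO' hc) 2
    rw [sq_abs] at h5
    exact h5
  have h2 : 0 ≤ pv N b t fun c => ph1 N b t c ^ 2 := by
    have := H612.pav_mono hw hM (f := fun _ => 0) (g := fun c => ph1 N b t c ^ 2) continuous_const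
      (h1c.pow 2) fun c => sq_nonneg _
    rw [H612.pav_const hw hM] at this
    exact this
  have h3 : (pv N b t fun c => ph1 N b t c ^ 2) / (t * (N : ℝ) ^ 2) ≤
      29 * ω ^ 2 * (t * (N : ℝ) ^ 2) := by
    rw [div_le_iff₀ hA]
    refine h1.trans ?_
    have h4 : (16 / 3 * ω * (t * (N : ℝ) ^ 2)) ^ 2 =
        256 / 9 * (ω ^ 2 * (t * (N : ℝ) ^ 2) * (t * (N : ℝ) ^ 2)) := by ring
    have h5 : 0 ≤ ω ^ 2 * (t * (N : ℝ) ^ 2) * (t * (N : ℝ) ^ 2) := by positivity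
    rw [h4]
    linarith
  have h4 : 0 ≤ (pv N b t fun c => ph1 N b t c ^ 2) / (t * (N : ℝ) ^ 2) := div_nonneg h2 hA.le
  constructor <;> linarith

/-- **zero mode of the self energy** -/
theorem se_zero (hb : 0 ≤ b) (ht : 0 < t) {ω : ℝ} (hω : 0 ≤ ω) (hω1 : ω ≤ 1 / 4)
    (hωN : 58 * ω ^ 2 * (t * (N : ℝ) ^ 2) ≤ 1)
    (hO : OscZ (wT b N) ((2 * t) • (1 : Matrix (V N) (V N) ℝ)) ω)
    (hO' : OscZ (wT b N) (t • (1 : Matrix (V N) (V N) ℝ)) ω) :
    0 ≤ SE t (fun z => GA N b t 0 z) 0 ∧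
      SE t (fun z => GA N b t 0 z) 0 ≤ 58 * ω ^ 2 * (t * (N : ℝ) ^ 2) * t := by
  obtain ⟨h1, h2⟩ := gh_zero hb ht hω hω1 hO hO'
  set g := Gh (fun z => GA N b t 0 z) 0 with hg
  set δ := 29 * ω ^ 2 * (t * (N : ℝ) ^ 2) with hδ
  have hδ1 : δ ≤ 1 / 2 := by
    rw [hδ]
    linarith
  have hδ0 : 0 ≤ δ := by positivity
  have hg0 : 0 < g := by
    have h3 : 0 < t * g := by linarith
    exact (mul_pos_iff_of_pos_left ht).1 h3
  unfold SE
  rw [← hg]
  constructor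
  · rw [sub_nonneg, ← one_div, le_div_iff₀ hg0]
    exact h2
  · have h3 : 58 * ω ^ 2 * (t * (N : ℝ) ^ 2) = 2 * δ := by
      rw [hδ]
      ring
    rw [h3, sub_le_iff_le_add, ← one_div, div_le_iff₀ hg0]
    have h4 : (2 * δ * t + t) * g = (2 * δ + 1) * (t * g) := by ring
    rw [h4]
    have h5 : (2 * δ + 1) * (1 - δ) ≤ (2 * δ + 1) * (t * g) :=
      mul_le_mul_of_nonneg_left h1 (by positivity)
    nlinarith

end

end Vale.Agent.P159.H197
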