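import Vale.Agent.P159.H197.Nk11
import Vale.Agent.P159.H37.Rxc
import Vale.Agent.P159.H972.StepG

/-!
P159 / second order flow, FLATSTEP (helper197, claim of row 4805 (A)): NKT and the zero mode in the
letters of LIST P_up (powers of two, masses `tn j`).
-/

open Finset MeasureTheory Matrix

set_option linter.unusedSectionVars false

namespace Vale.Agent.P159.H197

open Vale.Agent.P159.TM.H104 (EM)
open Vale.Agent.P159.TM.SpecC (wT)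
open Vale.Agent.P159.TM.Spec (V Rng)
open Vale.Agent.P159.TM.H764 (Gh)
open Vale.Agent.P159.H612 (GA)
open Vale.Agent.P159.H145 (OscZ)
open Vale.Agent.P159.H864 (yt)
open Vale.Agent.P159.H846 (SE)
open Vale.Agent.P159.H972 (tn_pos)

noncomputable section

theorem tn_nat (j : ℕ) : H972.tn j = 1 / (((2 ^ j : ℕ) : ℝ)) ^ 2 := by
  unfold H972.tn
  push_cast
  rw [one_div, ← pow_mul, mul_comm j 2, pow_mul]
  norm_num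

theorem sq_nat (r : ℕ) : (((2 ^ r : ℕ) : ℝ)) ^ 2 = (4 : ℝ) ^ r := by
  push_cast
  rw [← pow_mul, mul_comm r 2, pow_mul]
  norm_num

/-- oscillation from `yt` -/
theorem osc_of_yt {N : ℕ} [NeZero N] {b τ ω : ℝ} (hb : 0 < b) (hτ : 0 < τ)
    (h : τ * (N : ℝ) ^ 2 * yt N b τ ≤ 2 * ω) (hω : 2 * ω ≤ 1) :
    OscZ (wT b N) (τ • (1 : Matrix (V N) (V N) ℝ)) ω := by
  have h1 : H43.Lc (wT b N) (H145.mt N τ) ≤ 2 * ω := by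
    have e : H43.Lc (wT b N) (H145.mt N τ) = τ * (N : ℝ) ^ 2 * yt N b τ := H37.Lc_tor b τ
    rw [e]
    exact h
  have h2 := H43.oscZ_of_Lc_le H145.per_wT H145.mt_symm (H145.em_mt hb.le hτ) H789.ev_wt
    (H789.pk_wt hb.le hτ) h1 hω
  have e : 2 * ω / 2 = ω := by ring
  rw [e] at h2
  exact h2

/-- oscillations at the masses `tn j` and `2 H972.tn j` on a torus `2 ^ r` -/
theorem osc_pow {b : ℝ} (hb : 0 < b) {j r r' : ℕ} (hr : r ≤ r') {Y : ℝ} (hY0 : 0 ≤ Y)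
    (hY : ∀ τ, H972.tn j ≤ τ → τ ≤ 2 * H972.tn j → yt (2 ^ r) b τ ≤ Y)
    (hω : 4 * ((4 : ℝ) ^ r' / 4 ^ j * Y) ≤ 1) :
    OscZ (wT b (2 ^ r)) ((2 * H972.tn j) • (1 : Matrix (V (2 ^ r)) (V (2 ^ r)) ℝ))
        ((4 : ℝ) ^ r' / 4 ^ j * Y) ∧
      OscZ (wT b (2 ^ r)) (H972.tn j • (1 : Matrix (V (2 ^ r)) (V (2 ^ r)) ℝ))
        ((4 : ℝ) ^ r' / 4 ^ j * Y) := by
  have ht := tn_pos j
  have key : ∀ τ, H972.tn j ≤ τ → τ ≤ 2 * H972.tn j →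
      OscZ (wT b (2 ^ r)) (τ • (1 : Matrix (V (2 ^ r)) (V (2 ^ r)) ℝ))
        ((4 : ℝ) ^ r' / 4 ^ j * Y) := by
    intro τ h1 h2
    have hτ : 0 < τ := ht.trans_le h1
    refine osc_of_yt hb hτ ?_ (by linarith)
    have h3 := hY τ h1 h2
    have h4 := H864.yt_nonneg (N := 2 ^ r) hb.le hτ
    rw [sq_nat]
    have h5 : (4 : ℝ) ^ r ≤ 4 ^ r' := pow_le_pow_right₀ (by norm_num) hr
    calc τ * (4 : ℝ) ^ r * yt (2 ^ r) b τ ≤ 2 * H972.tn j * (4 : ℝ) ^ r' * Y := by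
          refine mul_le_mul (mul_le_mul h2 h5 (by positivity) (by positivity)) h3 h4
            (by positivity)
      _ = 2 * ((4 : ℝ) ^ r' / 4 ^ j * Y) := by
          unfold H972.tn
          ring
  exact ⟨key _ (by linarith) le_rfl, key _ le_rfl (by linarith)⟩

/-- **NKT in the letters of LIST P_up** -/
theorem nkt_pow {b1 : ℝ} (hb1 : 0 < b1) (b2 : ℝ) {a : ℝ} (ha : 0 ≤ a) :
    ∃ W₀ : ℝ, ∀ W : ℝ, W₀ ≤ W → ∃ c C ys : ℝ, ∃ X : ℕ, 0 < c ∧ 0 < C ∧ 0 < ys ∧ 1 ≤ X ∧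
    ∀ (j r r' : ℕ) (b y Y : ℝ), r ≤ r' →
      Rng b1 b2 a W ys X (2 ^ r) b (2 ^ j) y → Rng b1 b2 a W ys X (2 ^ r') b (2 ^ j) y →
      y * (4 : ℝ) ^ r' ≤ 4 ^ j → 0 ≤ Y →
      (∀ τ, H972.tn j ≤ τ → τ ≤ 2 * H972.tn j → yt (2 ^ r) b τ ≤ Y ∧ yt (2 ^ r') b τ ≤ Y) →
      4 * ((4 : ℝ) ^ r' / 4 ^ j * Y) ≤ 1 →
      ∀ p q : ℕ, (((p : ZMod (2 ^ r)), (q : ZMod (2 ^ r))) : V (2 ^ r)) ≠ 0 →
        |Gh (fun z => GA (2 ^ r) b (H972.tn j) 0 z) ((p : ZMod (2 ^ r)), (q : ZMod (2 ^ r))) -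
          Gh (fun z => GA (2 ^ r') b (H972.tn j) 0 z)
            (((p * 2 ^ (r' - r) : ℕ) : ZMod (2 ^ r')), ((q * 2 ^ (r' - r) : ℕ) : ZMod (2 ^ r')))| ≤
          (C * ((4 : ℝ) ^ r' / 4 ^ j) * Real.exp (-(c * √((2 : ℝ) ^ r / 2 ^ j))) +
            112 * ((4 : ℝ) ^ r' / 4 ^ j * Y) ^ 2) / H972.tn j := by
  obtain ⟨W0, h0⟩ := nkt_nat hb1 b2 ha
  refine ⟨W0, fun W hW => ?_⟩
  obtain ⟨c, C, ys, X, hc, hC, hys, hX, h⟩ := h0 W hW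
  refine ⟨c, C, ys, X, hc, hC, hys, hX, ?_⟩
  intro j r r' b y Y hrr hRN hRM hyM hY0 hY hω p q hk
  have hb : 0 < b := hb1.trans_le hRN.hb1
  have hM : (2 ^ r' : ℕ) = 2 ^ r * 2 ^ (r' - r) := by
    rw [← pow_add, Nat.add_sub_cancel' hrr]
  obtain ⟨o1, o2⟩ := osc_pow hb hrr hY0 (fun τ h1 h2 => (hY τ h1 h2).1) hω
  obtain ⟨o3, o4⟩ := osc_pow hb le_rfl hY0 (fun τ h1 h2 => (hY τ h1 h2).2) hω
  rw [tn_nat] at o1 o2 o3 o4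
  have h1 := h (2 ^ r) (2 ^ r') (2 ^ (r' - r)) b (2 ^ j) y ((4 : ℝ) ^ r' / 4 ^ j * Y) hM hRN hRM
    (by rw [sq_nat, sq_nat]; exact hyM) (by positivity) (by linarith) o1 o2 o3 o4 p q hk
  rw [← tn_nat] at h1
  have e1 : (((2 ^ r' : ℕ) : ℝ) / ((2 ^ j : ℕ) : ℝ)) ^ 2 = (4 : ℝ) ^ r' / 4 ^ j := by
    rw [div_pow, sq_nat, sq_nat]
  have e2 : ((2 ^ r : ℕ) : ℝ) / ((2 ^ j : ℕ) : ℝ) = (2 : ℝ) ^ r / 2 ^ j := by
    push_cast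
    rfl
  have e3 : (((2 ^ j : ℕ) : ℝ)) ^ 2 = (H972.tn j)⁻¹ := by
    rw [tn_nat, one_div, inv_inv]
  rw [e1, e2, e3] at h1
  rw [div_eq_mul_inv]
  exact h1

/-- **zero mode in the letters of LIST P_up** -/
theorem se_pow {b : ℝ} (hb : 0 < b) {j r r' : ℕ} (hr : r ≤ r') {Y : ℝ} (hY0 : 0 ≤ Y)
    (hY : ∀ τ, H972.tn j ≤ τ → τ ≤ 2 * H972.tn j → yt (2 ^ r) b τ ≤ Y)
    (hω : 4 * ((4 : ℝ) ^ r' / 4 ^ j * Y) ≤ 1)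
    (hω2 : 58 * ((4 : ℝ) ^ r' / 4 ^ j * Y) ^ 2 * ((4 : ℝ) ^ r' / 4 ^ j) ≤ 1) :
    0 ≤ SE (H972.tn j) (fun z => GA (2 ^ r) b (H972.tn j) 0 z) 0 ∧
      SE (H972.tn j) (fun z => GA (2 ^ r) b (H972.tn j) 0 z) 0 ≤
        58 * ((4 : ℝ) ^ r' / 4 ^ j * Y) ^ 2 * ((4 : ℝ) ^ r' / 4 ^ j) * H972.tn j := by
  obtain ⟨o1, o2⟩ := osc_pow hb hr hY0 hY hω
  have ht := tn_pos j
  have h5 : (4 : ℝ) ^ r ≤ 4 ^ r' := pow_le_pow_right₀ (by norm_num) hr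
  have h6 : H972.tn j * (((2 ^ r : ℕ) : ℝ)) ^ 2 ≤ (4 : ℝ) ^ r' / 4 ^ j := by
    rw [sq_nat]
    unfold H972.tn
    rw [div_eq_inv_mul]
    exact mul_le_mul_of_nonneg_left h5 (by positivity)
  have h7 : 58 * ((4 : ℝ) ^ r' / 4 ^ j * Y) ^ 2 * (H972.tn j * (((2 ^ r : ℕ) : ℝ)) ^ 2) ≤
      58 * ((4 : ℝ) ^ r' / 4 ^ j * Y) ^ 2 * ((4 : ℝ) ^ r' / 4 ^ j) :=
    mul_le_mul_of_nonneg_left h6 (by positivity)
  obtain ⟨s1, s2⟩ := se_zero (N := 2 ^ r) hb.le ht (by positivity) (by linarith)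
    (h7.trans hω2) o1 o2
  exact ⟨s1, s2.trans (mul_le_mul_of_nonneg_right h7 ht.le)⟩

end

end Vale.Agent.P159.H197
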