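import Vale.Agent.P159.H197.FarCv
import Vale.Agent.P159.H612.Nker3

/-!
P159 / second order flow, module NKT (helper197), part 2: `T` is bounded by the quadratic form
`A(J) = |J|²/t - <J, G J>`; `A (t F) ≤ y t |F|² + a |∇F|²` from (QU).
-/

open Finset MeasureTheory

set_option linter.unusedSectionVars false

namespace Vale.Agent.P159.H197

open Vale.Agent.P159.TM.H104
open Vale.Agent.P159.H37 (Zs Ev qf bf PK Ker Tq Rs Gm Cm wt)
open Vale.Agent.P159.TM.SpecC (Tor wT)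
open Vale.Agent.P159.TM.Spec (GT)
open Vale.Agent.P159.TM.H764 (QU grd frm)

noncomputable section

variable {N : ℕ} [NeZero N] {b t : ℝ}

/-- `|J|²/t - <J, G J>` -/
def frA (N : ℕ) [NeZero N] (b t : ℝ) (J : Tor N → ℝ) : ℝ :=
  (∑ x, J x ^ 2) / t - qf (Gm (wt N b t)) J

theorem lg_sub (hb : 0 ≤ b) (ht : 0 < t) (J : Tor N → ℝ) :
    Lg (wt N b t) J - Lg (wt N b t) 0 ≤ (∑ x, J x ^ 2) / (2 * t) := by
  have h1 := H612.subG_wt (N := N) hb ht J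
  have hE := H789.em_wt (N := N) hb ht
  have h2 := H358.Ex_exp hE 0 J
  rw [zero_add] at h2
  rw [h2] at h1
  exact Real.exp_le_exp.1 h1

theorem frA_nonneg (hb : 0 ≤ b) (ht : 0 < t) (J : Tor N → ℝ) : 0 ≤ frA N b t J := by
  have h1 := lg_sub (N := N) hb ht J
  have h2 := H789.Rs_nonneg (H789.em_wt (N := N) hb ht) H789.ev_wt (H789.pk_wt hb ht) J
  unfold Rs at h2
  unfold frA
  have e : (∑ x, J x ^ 2) / (2 * t) = (∑ x, J x ^ 2) / t / 2 := by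
    field_simp
  rw [e] at h1
  linarith

theorem tq_frA (hb : 0 ≤ b) (ht : 0 < t) (J : Tor N → ℝ) :
    Tq (wt N b t) J ≤ 2 * frA N b t J := by
  have h1 := lg_sub (N := N) hb ht ((2 : ℝ) • J)
  have h2 := H789.Rs_nonneg (H789.em_wt (N := N) hb ht) H789.ev_wt (H789.pk_wt hb ht) J
  unfold Rs at h2
  unfold frA Tq
  have e : (∑ x, ((2 : ℝ) • J) x ^ 2) / (2 * t) = 2 * ((∑ x, J x ^ 2) / t) := by
    simp only [Pi.smul_apply, smul_eq_mul, mul_pow, ← Finset.mul_sum]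
    field_simp
  rw [e] at h1
  linarith

theorem frA_par (J K : Tor N → ℝ) :
    frA N b t (J + K) + frA N b t (J - K) = 2 * frA N b t J + 2 * frA N b t K := by
  have h1 := H789.qf_par (Gm (wt N b t)) J K
  have h2 : (∑ x, (J + K) x ^ 2) + ∑ x, (J - K) x ^ 2 = 2 * ∑ x, J x ^ 2 + 2 * ∑ x, K x ^ 2 := by
    rw [← Finset.sum_add_distrib, Finset.mul_sum, Finset.mul_sum, ← Finset.sum_add_distrib]
    refine Finset.sum_congr rfl fun x _ => ?_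
    simp only [Pi.add_apply, Pi.sub_apply]
    ring
  unfold frA
  have h3 : (∑ x, (J + K) x ^ 2) / t + (∑ x, (J - K) x ^ 2) / t =
      2 * ((∑ x, J x ^ 2) / t) + 2 * ((∑ x, K x ^ 2) / t) := by
    rw [← add_div, h2, add_div, mul_div_assoc, mul_div_assoc]
  linarith

theorem frA_add (hb : 0 ≤ b) (ht : 0 < t) (J K : Tor N → ℝ) :
    frA N b t (J + K) ≤ 2 * frA N b t J + 2 * frA N b t K := by
  have h1 := frA_par (b := b) (t := t) J K
  have h2 := frA_nonneg (N := N) hb ht (J - K)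
  linarith

theorem frA_le (hb : 0 ≤ b) (ht : 0 < t) (J : Tor N → ℝ) : frA N b t J ≤ (∑ x, J x ^ 2) / t := by
  have h := H789.qf_Gm (H789.em_wt (N := N) hb ht) J
  have h0 : 0 ≤ qf (Gm (wt N b t)) J := by
    rw [h]
    unfold Cv
    have h1 := H789.Ex_zero_li (μ := wt N b t) H789.ev_wt J
    rw [h1, mul_zero, sub_zero]
    exact Ex_nonneg (H789.em_wt (N := N) hb ht) (fun h => mul_self_nonneg _) 0
  unfold frA
  linarith

/-- (QU) in these letters -/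
theorem frA_qu {ξ : ℕ} (hξ : 0 < ξ) {y a : ℝ} (hQ : QU (ξ : ℝ) (GT N b ξ) y a)
    (F : Tor N → ℝ) :
    frA N b (1 / (ξ : ℝ) ^ 2) ((1 / (ξ : ℝ) ^ 2) • F) ≤
      y / (ξ : ℝ) ^ 2 * ∑ x, F x ^ 2 + a * grd F := by
  have hξR : (0 : ℝ) < ξ := by exact_mod_cast hξ
  have h1 := hQ F
  have h2 : qf (Gm (wt N b (1 / (ξ : ℝ) ^ 2))) ((1 / (ξ : ℝ) ^ 2) • F) =
      (1 / (ξ : ℝ) ^ 2) ^ 2 * frm (GT N b ξ) F := by
    unfold qf frm
    rw [Finset.mul_sum]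
    refine Finset.sum_congr rfl fun x _ => ?_
    rw [Finset.mul_sum]
    refine Finset.sum_congr rfl fun z _ => ?_
    rw [H612.Gm_wt]
    simp only [Pi.smul_apply, smul_eq_mul]
    ring
  have h3 : (∑ x, ((1 / (ξ : ℝ) ^ 2) • F) x ^ 2) / (1 / (ξ : ℝ) ^ 2) =
      1 / (ξ : ℝ) ^ 2 * ∑ x, F x ^ 2 := by
    simp only [Pi.smul_apply, smul_eq_mul, mul_pow, ← Finset.mul_sum]
    field_simp
  unfold frA
  rw [h2, h3]
  have h4 : (1 / (ξ : ℝ) ^ 2) ^ 2 * ((1 - y) * (ξ : ℝ) ^ 2 * ∑ x, F x ^ 2 -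
      a * (ξ : ℝ) ^ 4 * grd F) ≤ (1 / (ξ : ℝ) ^ 2) ^ 2 * frm (GT N b ξ) F :=
    mul_le_mul_of_nonneg_left h1 (by positivity)
  have h5 : (1 / (ξ : ℝ) ^ 2) ^ 2 * ((1 - y) * (ξ : ℝ) ^ 2 * ∑ x, F x ^ 2 -
      a * (ξ : ℝ) ^ 4 * grd F) =
      1 / (ξ : ℝ) ^ 2 * ∑ x, F x ^ 2 - y / (ξ : ℝ) ^ 2 * ∑ x, F x ^ 2 - a * grd F := by
    field_simp
  linarith

end

end Vale.Agent.P159.H197
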