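import Vale.Agent.P159.H197.Nk2
import Vale.Agent.P159.H733.TorgE

/-!
P159 / second order flow, module NKT (helper197), part 3: windows on a torus. The symbol of a
translation invariant nonnegative kernel is, up to the mass of the kernel at distance `> ρ - ξ`, the
bilinear form of two window functions.
-/

open Finset MeasureTheory

set_option linter.unusedSectionVars false

namespace Vale.Agent.P159.H197

open Vale.Agent.P159.TM.H104
open Vale.Agent.P159.H37 (qf bf Gm Cm wt)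
open Vale.Agent.P159.TM.Spec (V)
open Vale.Agent.P159.TM.H764 (cN sN dt)
open Vale.Agent.P159.TM.H459 (sn sd)
open Vale.Agent.P159.TM.H705 (dB pt)
open Vale.Agent.P159.H358 (src)
open Vale.Agent.P159.H864 (TI sym)
open Vale.Agent.P159.H733.Torg (em prj)

noncomputable section

/-! ### coordinates -/

section one

variable {T : ℕ} [NeZero T]

theorem val_of_sub {x z : ZMod T} {r : ℕ} (h : (z - x).valMinAbs.natAbs ≤ r) (h1 : r ≤ x.val)
    (h2 : x.val + r < T) : (z.val : ℤ) = x.val + (z - x).valMinAbs := by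
  set d := (z - x).valMinAbs with hd
  have e1 : z = (((x.val : ℤ) + d : ℤ) : ZMod T) := by
    push_cast
    rw [hd, ZMod.coe_valMinAbs, ZMod.natCast_val, ZMod.cast_id', id_eq]
    ring
  have e2 : ((z.val : ℕ) : ℤ) = ((x.val : ℤ) + d) % (T : ℤ) := by
    conv_lhs => rw [e1]
    exact ZMod.val_intCast _
  rw [e2]
  exact Int.emod_eq_of_lt (by omega) (by omega)

theorem sub_of_val {x z : ZMod T} {r : ℕ} (h : ((z.val : ℤ) - x.val).natAbs ≤ r)
    (h2 : 2 * (r + 1) ≤ T) : (z - x).valMinAbs = (z.val : ℤ) - x.val := by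
  have e1 : z - x = (((z.val : ℤ) - x.val : ℤ) : ZMod T) := by
    push_cast
    simp
  conv_lhs => rw [e1]
  exact TM.H705.vma_cast (r := r + 1) h2 (by omega)

end one

variable {N : ℕ} [NeZero N]

/-- coordinates of a site -/
def cd (x : V N) : ℕ × ℕ := (x.1.val, x.2.val)

theorem dB_le_iff {u z : ℕ × ℕ} {r : ℕ} :
    dB u z ≤ r ↔ ((z.1 : ℤ) - u.1).natAbs ≤ r ∧ ((z.2 : ℤ) - u.2).natAbs ≤ r := by
  unfold dB
  exact max_le_iff

theorem dB_cd {x z : V N} {r : ℕ} (h : sn (z - x) ≤ r) (h1 : r ≤ x.1.val) (h2 : x.1.val + r < N)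
    (h3 : r ≤ x.2.val) (h4 : x.2.val + r < N) : dB (cd x) (cd z) = sn (z - x) := by
  unfold sn at h ⊢
  rw [max_le_iff] at h
  have e1 := val_of_sub (x := x.1) (z := z.1) h.1 h1 h2
  have e2 := val_of_sub (x := x.2) (z := z.2) h.2 h3 h4
  unfold dB cd
  simp only
  rw [e1, e2, Prod.fst_sub, Prod.snd_sub]
  congr 1 <;> omega

theorem sn_cd {x z : V N} {r : ℕ} (h : dB (cd x) (cd z) ≤ r) (h2 : 2 * (r + 1) ≤ N) :
    sn (z - x) = dB (cd x) (cd z) := by
  rw [dB_le_iff] at h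
  unfold cd at h
  simp only at h
  unfold sn dB cd
  simp only
  rw [Prod.fst_sub, Prod.snd_sub, sub_of_val h.1 h2, sub_of_val h.2 h2]

/-- the box of side `ξ` with corner `(i0, i0)` -/
def Bx (N : ℕ) [NeZero N] (i0 ξ : ℕ) : Finset (V N) :=
  univ.filter fun x => (i0 ≤ x.1.val ∧ x.1.val < i0 + ξ) ∧ i0 ≤ x.2.val ∧ x.2.val < i0 + ξ

/-- the window of radius `ρ` around `(i0, i0)` -/
def Wx (N : ℕ) [NeZero N] (i0 ρ : ℕ) : Finset (V N) :=
  univ.filter fun z => dB (i0, i0) (cd z) ≤ ρ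

theorem mem_Bx {i0 ξ : ℕ} {x : V N} :
    x ∈ Bx N i0 ξ ↔ (i0 ≤ x.1.val ∧ x.1.val < i0 + ξ) ∧ i0 ≤ x.2.val ∧ x.2.val < i0 + ξ := by
  simp [Bx]

theorem mem_Wx {i0 ρ : ℕ} {z : V N} : z ∈ Wx N i0 ρ ↔ dB (i0, i0) (cd z) ≤ ρ := by
  simp [Wx]

theorem card_Bx {i0 ξ : ℕ} (h : i0 + ξ ≤ N) : (Bx N i0 ξ).card = ξ ^ 2 := by
  have h1 : (Bx N i0 ξ).card = ((Finset.Ico i0 (i0 + ξ)) ×ˢ (Finset.Ico i0 (i0 + ξ))).card := by
    refine Finset.card_bij (fun x _ => cd x) ?_ ?_ ?_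
    · intro x hx
      rw [mem_Bx] at hx
      rw [mem_product, mem_Ico, mem_Ico]
      exact hx
    · intro x _ x' _ he
      unfold cd at he
      rw [Prod.mk.injEq] at he
      exact Prod.ext (ZMod.val_injective N he.1) (ZMod.val_injective N he.2)
    · intro p hp
      rw [mem_product, mem_Ico, mem_Ico] at hp
      have v1 : ((p.1 : ℕ) : ZMod N).val = p.1 := ZMod.val_natCast_of_lt (by omega)
      have v2 : ((p.2 : ℕ) : ZMod N).val = p.2 := ZMod.val_natCast_of_lt (by omega)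
      refine ⟨((p.1 : ZMod N), (p.2 : ZMod N)), ?_, ?_⟩
      · rw [mem_Bx]
        simp only [v1, v2]
        exact hp
      · unfold cd
        simp only [v1, v2]
  rw [h1, Finset.card_product, Nat.card_Ico, Nat.add_sub_cancel_left, pow_two]

/-- all sites near the box are in the window -/
theorem near_Wx {i0 ξ ρ : ℕ} (h0 : ρ ≤ i0) (h1 : i0 + 2 * ρ < N) (hξ : ξ ≤ ρ) {x z : V N}
    (hx : x ∈ Bx N i0 ξ) (h : sn (z - x) ≤ ρ - ξ) : z ∈ Wx N i0 ρ := by
  rw [mem_Bx] at hx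
  rw [mem_Wx]
  have h2 : dB (cd x) (cd z) ≤ ρ - ξ := by
    rw [dB_cd h (by omega) (by omega) (by omega) (by omega)]
    exact h
  rw [dB_le_iff] at h2 ⊢
  unfold cd at h2 ⊢
  simp only at h2 ⊢
  omega

/-- **the symbol as a window form** -/
theorem sym_win {A : Matrix (V N) (V N) ℝ} (hA : TI A) (h0 : ∀ x y, 0 ≤ A x y) (k : V N)
    {i0 ξ ρ : ℕ} (hi : ρ ≤ i0) (h1 : i0 + 2 * ρ < N) (hξ : ξ ≤ ρ) :
    |(ξ : ℝ) ^ 2 * sym A k - ∑ x ∈ Bx N i0 ξ, ∑ z ∈ Wx N i0 ρ, A x z * cN (dt k (z - x))| ≤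
      (ξ : ℝ) ^ 2 * ∑ w ∈ univ.filter (fun w : V N => ρ - ξ < sn w), A 0 w := by
  have hc : ((Bx N i0 ξ).card : ℝ) = (ξ : ℝ) ^ 2 := by
    rw [card_Bx (by omega)]
    push_cast
    ring
  have hrow : ∀ x : V N, ∑ z, A x z * cN (dt k (z - x)) = sym A k := by
    intro x
    rw [H864.sym_def]
    refine Fintype.sum_equiv (Equiv.subRight x) _ _ fun z => ?_
    rw [Equiv.subRight_apply, hA.eq x z]
  have e1 : (ξ : ℝ) ^ 2 * sym A k = ∑ x ∈ Bx N i0 ξ, ∑ z, A x z * cN (dt k (z - x)) := by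
    rw [← hc, ← nsmul_eq_mul, ← Finset.sum_const]
    exact Finset.sum_congr rfl fun x _ => (hrow x).symm
  have e2 : (ξ : ℝ) ^ 2 * sym A k - ∑ x ∈ Bx N i0 ξ, ∑ z ∈ Wx N i0 ρ,
      A x z * cN (dt k (z - x)) = ∑ x ∈ Bx N i0 ξ, ∑ z ∈ (Wx N i0 ρ)ᶜ,
      A x z * cN (dt k (z - x)) := by
    rw [e1, ← Finset.sum_sub_distrib]
    refine Finset.sum_congr rfl fun x _ => ?_
    rw [← Finset.sum_add_sum_compl (Wx N i0 ρ)]
    ring
  rw [e2]
  refine (Finset.abs_sum_le_sum_abs _ _).trans ?_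
  rw [← hc, ← nsmul_eq_mul, ← Finset.sum_const]
  refine Finset.sum_le_sum fun x hx => ?_
  refine (Finset.abs_sum_le_sum_abs _ _).trans ?_
  have e3 : ∑ w ∈ univ.filter (fun w : V N => ρ - ξ < sn w), A 0 w =
      ∑ z ∈ univ.filter (fun z : V N => ρ - ξ < sn (z - x)), A x z := by
    refine Finset.sum_bij' (fun w _ => w + x) (fun z _ => z - x) ?_ ?_ ?_ ?_ ?_
    · intro w hw
      rw [mem_filter] at hw ⊢
      exact ⟨mem_univ _, by rw [add_sub_cancel_right]; exact hw.2⟩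
    · intro z hz
      rw [mem_filter] at hz ⊢
      exact ⟨mem_univ _, hz.2⟩
    · intro w _
      rw [add_sub_cancel_right]
    · intro z _
      rw [sub_add_cancel]
    · intro w _
      rw [hA.eq x (w + x), add_sub_cancel_right]
  rw [e3]
  calc ∑ z ∈ (Wx N i0 ρ)ᶜ, |A x z * cN (dt k (z - x))| ≤ ∑ z ∈ (Wx N i0 ρ)ᶜ, A x z := by
        refine Finset.sum_le_sum fun z _ => ?_
        rw [abs_mul, abs_of_nonneg (h0 x z)]
        have h2 : |cN (dt k (z - x))| ≤ 1 :=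
          abs_le.2 ⟨TM.H764.neg_one_le_cN _, TM.H764.cN_le_one _⟩
        have := mul_le_mul_of_nonneg_left h2 (h0 x z)
        linarith
    _ ≤ ∑ z ∈ univ.filter (fun z : V N => ρ - ξ < sn (z - x)), A x z := by
        refine Finset.sum_le_sum_of_subset_of_nonneg ?_ fun z _ _ => h0 x z
        intro z hz
        rw [mem_compl] at hz
        rw [mem_filter]
        refine ⟨mem_univ _, ?_⟩
        by_contra hn
        exact hz (near_Wx hi h1 hξ hx (by omega))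

/-! ### the sources -/

/-- phase functions of the window: `e = cN` or `sN` -/
def ph (k : V N) (e : ZMod N → ℝ) (i j : ℕ) : ℝ := e (dt k ((i : ZMod N), (j : ZMod N)))

/-- test function of the box -/
def uf (k : V N) (e : ZMod N → ℝ) (i0 ξ : ℕ) (i j : ℕ) : ℝ :=
  if (i0 ≤ i ∧ i < i0 + ξ) ∧ i0 ≤ j ∧ j < i0 + ξ then ph k e i j / (ξ : ℝ) ^ 2 else 0

/-- test function of the window -/
def vf (k : V N) (e : ZMod N → ℝ) (i0 ξ ρ : ℕ) (i j : ℕ) : ℝ :=
  if dB (i0, i0) (i, j) ≤ ρ then ph k e i j / (ξ : ℝ) ^ 2 else 0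

variable {M : ℕ} [NeZero M]

theorem ph_cN (h : N ∣ M) (k : V N) (x : V M) :
    ph k cN x.1.val x.2.val = cN (dt (em M k) x) := by
  rw [(H733.Torg.dt_em h k x).1]
  unfold ph
  congr 2
  rw [H733.Torg.prj_apply]
  have e1 : ((x.1.val : ℕ) : ZMod N) = ZMod.castHom h (ZMod N) x.1 := by
    rw [ZMod.castHom_apply, ← ZMod.natCast_val]
  have e2 : ((x.2.val : ℕ) : ZMod N) = ZMod.castHom h (ZMod N) x.2 := by
    rw [ZMod.castHom_apply, ← ZMod.natCast_val]
  rw [e1, e2]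

theorem ph_sN (h : N ∣ M) (k : V N) (x : V M) :
    ph k sN x.1.val x.2.val = sN (dt (em M k) x) := by
  rw [(H733.Torg.dt_em h k x).2]
  unfold ph
  congr 2
  rw [H733.Torg.prj_apply]
  have e1 : ((x.1.val : ℕ) : ZMod N) = ZMod.castHom h (ZMod N) x.1 := by
    rw [ZMod.castHom_apply, ← ZMod.natCast_val]
  have e2 : ((x.2.val : ℕ) : ZMod N) = ZMod.castHom h (ZMod N) x.2 := by
    rw [ZMod.castHom_apply, ← ZMod.natCast_val]
  rw [e1, e2]

end

end Vale.Agent.P159.H197
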