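import Vale.Agent.P159.H197.Nk3

/-!
P159 / second order flow, module NKT (helper197), part 4: on one torus, covariances of window
functions in the constant background `t c` and in the background `t c χ`, `χ` a slowly varying
cut-off, are exponentially close.
-/

open Finset MeasureTheory

set_option linter.unusedSectionVars false

namespace Vale.Agent.P159.H197

open Vale.Agent.P159.TM.H104
open Vale.Agent.P159.H37 (qf bf Gm Cm wt Tq)
open Vale.Agent.P159.TM.Spec (V GT)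
open Vale.Agent.P159.TM.H764 (QU grd Q)
open Vale.Agent.P159.TM.H459 (sn sd ball)
open Vale.Agent.P159.H612 (Far)

noncomputable section

/-- tent function -/
def tn (ρ : ℕ) (d : ℕ) : ℝ := max 0 (min 1 (3 - (d : ℝ) / ρ))

theorem tn_nonneg (ρ d : ℕ) : 0 ≤ tn ρ d := le_max_left _ _

theorem tn_le_one (ρ d : ℕ) : tn ρ d ≤ 1 := max_le zero_le_one (min_le_left _ _)

theorem tn_lip {ρ : ℕ} (hρ : 1 ≤ ρ) {d d' : ℕ} (h : d ≤ d' + 1) (h' : d' ≤ d + 1) :
    |tn ρ d - tn ρ d'| ≤ 1 / ρ := by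
  have hρ' : (0 : ℝ) < ρ := by exact_mod_cast hρ
  have h1 : |(3 - (d : ℝ) / ρ) - (3 - (d' : ℝ) / ρ)| ≤ 1 / ρ := by
    have e : (3 - (d : ℝ) / ρ) - (3 - (d' : ℝ) / ρ) = ((d' : ℝ) - d) / ρ := by ring
    rw [e, abs_div, abs_of_pos hρ']
    refine div_le_div_of_nonneg_right ?_ hρ'.le
    have a1 : (d : ℝ) ≤ d' + 1 := by exact_mod_cast h
    have a2 : (d' : ℝ) ≤ d + 1 := by exact_mod_cast h'
    rw [abs_le]
    constructor <;> linarith
  have h2 := abs_max_sub_max_le_max (0 : ℝ) (min 1 (3 - (d : ℝ) / ρ)) 0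
    (min 1 (3 - (d' : ℝ) / ρ))
  have h3 := abs_min_sub_min_le_max (1 : ℝ) (3 - (d : ℝ) / ρ) 1 (3 - (d' : ℝ) / ρ)
  rw [sub_self, abs_zero] at h2 h3
  have hp : (0 : ℝ) ≤ 1 / ρ := by positivity
  unfold tn
  refine h2.trans (max_le hp (h3.trans (max_le hp h1)))

theorem tn_one {ρ d : ℕ} (hρ : 1 ≤ ρ) (h : d ≤ 2 * ρ) : tn ρ d = 1 := by
  have hρ' : (0 : ℝ) < ρ := by exact_mod_cast hρ
  have h1 : (d : ℝ) / ρ ≤ 2 := by
    rw [div_le_iff₀ hρ']
    exact_mod_cast h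
  unfold tn
  rw [min_eq_left (by linarith), max_eq_right zero_le_one]

theorem tn_zero {ρ d : ℕ} (hρ : 1 ≤ ρ) (h : 3 * ρ ≤ d) : tn ρ d = 0 := by
  have hρ' : (0 : ℝ) < ρ := by exact_mod_cast hρ
  have h1 : 3 ≤ (d : ℝ) / ρ := by
    rw [le_div_iff₀ hρ']
    exact_mod_cast h
  unfold tn
  rw [max_eq_left]
  exact (min_le_right _ _).trans (by linarith)

variable {N : ℕ} [NeZero N] {b : ℝ} {ξ : ℕ}

/-- the cut-off around `p` -/
def chi (p : V N) (ρ : ℕ) (z : V N) : ℝ := tn ρ (sn (z - p))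

theorem sn_one_le (e : V N) (he : e = (1, 0) ∨ e = (0, 1)) : sn e ≤ 1 := by
  have h1 : (1 : ZMod N).valMinAbs.natAbs ≤ 1 := by
    have h := ZMod.natAbs_valMinAbs_le (1 : ZMod N)
    by_cases hN : 2 ≤ N
    · have : ((1 : ℕ) : ZMod N).valMinAbs = ((1 : ℕ) : ℤ) :=
        ZMod.valMinAbs_natCast_of_le_half (by omega)
      rw [Nat.cast_one] at this
      rw [this]
      rfl
    · omega
  have h0 : (0 : ZMod N).valMinAbs.natAbs = 0 := by simp
  rcases he with rfl | rfl <;> unfold sn <;> simp only [h0] <;> omega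

theorem Q_chi (p : V N) {ρ : ℕ} (hρ : 1 ≤ ρ) {e : V N} (he : e = (1, 0) ∨ e = (0, 1)) :
    Q (chi p ρ) e ≤ 81 := by
  classical
  have hρ' : (0 : ℝ) < ρ := by exact_mod_cast hρ
  have hs := sn_one_le e he
  have hd : ∀ x : V N, sn (x + e - p) ≤ sn (x - p) + 1 ∧ sn (x - p) ≤ sn (x + e - p) + 1 := by
    intro x
    have e1 : x + e - p = (x - p) + e := by abel
    have e2 : x - p = (x + e - p) + -e := by abel
    constructor
    · rw [e1]
      exact (TM.H459.sn_add_le _ _).trans (by omega)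
    · conv_lhs => rw [e2]
      refine (TM.H459.sn_add_le _ _).trans ?_
      rw [TM.H459.sn_neg]
      omega
  have h1 : ∀ x : V N, (chi p ρ (x + e) - chi p ρ x) ^ 2 ≤
      if x ∈ ball p (3 * ρ + 1) then (1 / (ρ : ℝ)) ^ 2 else 0 := by
    intro x
    obtain ⟨d1, d2⟩ := hd x
    split_ifs with hx
    · have h2 := tn_lip hρ d1 d2
      unfold chi
      rw [← sq_abs]
      exact pow_le_pow_left₀ (abs_nonneg _) h2 2
    · rw [TM.H459.mem_ball] at hx
      unfold sd at hx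
      unfold chi
      rw [tn_zero hρ (by omega), tn_zero hρ (by omega)]
      simp
  unfold Q
  refine (Finset.sum_le_sum fun x _ => h1 x).trans ?_
  rw [Finset.sum_ite_mem, Finset.univ_inter, Finset.sum_const, nsmul_eq_mul]
  have h3 : ((ball p (3 * ρ + 1)).card : ℝ) ≤ 81 * (ρ : ℝ) ^ 2 := by
    have h4 := TM.H459.card_ball_le p (3 * ρ + 1)
    have h5 : (2 * (3 * ρ + 1) + 1) ^ 2 ≤ 81 * ρ ^ 2 := by nlinarith
    exact_mod_cast h4.trans h5
  calc ((ball p (3 * ρ + 1)).card : ℝ) * (1 / (ρ : ℝ)) ^ 2 ≤ 81 * (ρ : ℝ) ^ 2 * (1 / (ρ : ℝ)) ^ 2 :=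
        mul_le_mul_of_nonneg_right h3 (by positivity)
    _ = 81 := by field_simp

theorem grd_chi (p : V N) {ρ : ℕ} (hρ : 1 ≤ ρ) : grd (chi p ρ) ≤ 162 := by
  unfold grd
  have h1 := Q_chi p hρ (e := (1, 0)) (Or.inl rfl)
  have h2 := Q_chi p hρ (e := (0, 1)) (Or.inr rfl)
  linarith

/-- bound of `T` on the path -/
def tau0 (a : ℝ) : ℝ := 20 + 648 * a

/-- `T` is bounded along the path from `t c χ` to `t c` -/
theorem tq_path (hb : 0 ≤ b) (hξ : 0 < ξ) {y a : ℝ} (ha : 0 ≤ a) (hy : 0 ≤ y)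
    (hQ : QU (ξ : ℝ) (GT N b ξ) y a) (hyN : y * (N : ℝ) ^ 2 ≤ (ξ : ℝ) ^ 2) (p : V N) {ρ : ℕ}
    (hρ : 1 ≤ ρ) {c : ℝ} (hc : |c| ≤ 1) {q : ℝ} (hq : q ∈ Set.Icc (0 : ℝ) 1) {f : V N → ℝ}
    (hf : ∑ x, f x ^ 2 ≤ 4 * (1 / (ξ : ℝ) ^ 2)) :
    Tq (wt N b (1 / (ξ : ℝ) ^ 2)) ((1 / (ξ : ℝ) ^ 2) • (fun z => c * (q + (1 - q) * chi p ρ z)) + f) ≤
      tau0 a := by
  have hξR : (0 : ℝ) < ξ := by exact_mod_cast hξ
  have ht : (0 : ℝ) < 1 / (ξ : ℝ) ^ 2 := by positivity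
  set t := 1 / (ξ : ℝ) ^ 2 with htd
  set F : V N → ℝ := fun z => c * (q + (1 - q) * chi p ρ z) with hF
  have hc2 : c ^ 2 ≤ 1 := by
    rw [← sq_abs]
    exact pow_le_one₀ (abs_nonneg _) hc
  have hq2 : (1 - q) ^ 2 ≤ 1 := pow_le_one₀ (by linarith [hq.2]) (by linarith [hq.1])
  have h1 : ∑ x, F x ^ 2 ≤ (N : ℝ) ^ 2 := by
    have h2 : ∀ x : V N, F x ^ 2 ≤ 1 := by
      intro x
      have a1 := tn_nonneg ρ (sn (x - p))
      have a2 := tn_le_one ρ (sn (x - p))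
      have a3 : 0 ≤ q + (1 - q) * chi p ρ x := by
        unfold chi
        have := mul_nonneg (by linarith [hq.2] : 0 ≤ 1 - q) a1
        linarith [hq.1]
      have a4 : q + (1 - q) * chi p ρ x ≤ 1 := by
        unfold chi
        have := mul_le_mul_of_nonneg_left a2 (by linarith [hq.2] : 0 ≤ 1 - q)
        linarith
      have a5 : (q + (1 - q) * chi p ρ x) ^ 2 ≤ 1 := pow_le_one₀ a3 a4
      simp only [hF]
      rw [mul_pow]
      nlinarith [sq_nonneg c, sq_nonneg (q + (1 - q) * chi p ρ x)]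
    refine (Finset.sum_le_sum fun x _ => h2 x).trans ?_
    rw [Finset.sum_const, Finset.card_univ, nsmul_eq_mul, mul_one]
    have : (Fintype.card (V N) : ℝ) = (N : ℝ) ^ 2 := TM.H764.card_V
    rw [this]
  have h2 : grd F ≤ 162 := by
    have e : grd F = (c * (1 - q)) ^ 2 * grd (chi p ρ) := by
      unfold grd Q
      rw [mul_add, Finset.mul_sum, Finset.mul_sum]
      congr 1 <;>
      · refine Finset.sum_congr rfl fun x _ => ?_
        simp only [hF]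
        ring
    rw [e, mul_pow]
    have h3 := grd_chi p hρ
    have h4 : 0 ≤ grd (chi p ρ) := add_nonneg (TM.H764.Q_nonneg _ _) (TM.H764.Q_nonneg _ _)
    have h5 : c ^ 2 * (1 - q) ^ 2 ≤ 1 := by nlinarith [sq_nonneg c, sq_nonneg (1 - q)]
    calc c ^ 2 * (1 - q) ^ 2 * grd (chi p ρ) ≤ 1 * grd (chi p ρ) :=
          mul_le_mul_of_nonneg_right h5 h4
      _ ≤ 162 := by linarith
  have h3 := frA_qu (N := N) (b := b) hξ hQ F
  rw [← htd] at h3
  have h4 : y / (ξ : ℝ) ^ 2 * ∑ x, F x ^ 2 ≤ 1 := by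
    calc y / (ξ : ℝ) ^ 2 * ∑ x, F x ^ 2 ≤ y / (ξ : ℝ) ^ 2 * (N : ℝ) ^ 2 :=
          mul_le_mul_of_nonneg_left h1 (by positivity)
      _ = y * (N : ℝ) ^ 2 / (ξ : ℝ) ^ 2 := by ring
      _ ≤ 1 := by
          rw [div_le_one (by positivity)]
          exact hyN
  have h5 := mul_le_mul_of_nonneg_left h2 ha
  have h6 := frA_le (N := N) hb ht f
  have h7 : (∑ x, f x ^ 2) / t ≤ 4 := by
    rw [div_le_iff₀ ht]
    linarith
  have h8 := frA_add (N := N) hb ht (t • F) f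
  have h9 := tq_frA (N := N) hb ht (t • F + f)
  unfold tau0
  linarith

/-- the decay of covariances in every background, as produced by `lb4` -/
def FarH (N : ℕ) [NeZero N] (b : ℝ) (ξ : ℕ) (c C : ℝ) : Prop :=
  ∀ (u v : V N → ℝ) (A B D : ℝ), 0 < A → 0 < B → 0 ≤ D →
    ∑ x, u x ^ 2 ≤ A ^ 2 * (1 / (ξ : ℝ) ^ 2) → ∑ x, v x ^ 2 ≤ B ^ 2 * (1 / (ξ : ℝ) ^ 2) →
    (∀ x z, u x ≠ 0 → v z ≠ 0 → D * ξ ≤ sd x z) →
    Far (wt N b (1 / (ξ : ℝ) ^ 2)) u v A B (C * Real.exp (-(c * D)))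

/-- the exponentially small number of this file (cube root) -/
def dl (a C c : ℝ) (ξ N R : ℕ) : ℝ :=
  (Real.exp (tau0 a / 2) * 2 * ((N : ℝ) / ξ) * (C * Real.exp (-(c * R)))) ^ ((1 : ℝ) / 3)

theorem dl_pos {a C c : ℝ} (hC : 0 < C) (hξ : 0 < ξ) {R : ℕ} : 0 < dl a C c ξ N R := by
  have hξR : (0 : ℝ) < ξ := by exact_mod_cast hξ
  have hN : (0 : ℝ) < N := Nat.cast_pos.2 (NeZero.pos N)
  unfold dl
  positivity

theorem dl_cube {a C c : ℝ} (hC : 0 < C) (hξ : 0 < ξ) {R : ℕ} : dl a C c ξ N R ^ 3 =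
    Real.exp (tau0 a / 2) * 2 * ((N : ℝ) / ξ) * (C * Real.exp (-(c * R))) := by
  have hξR : (0 : ℝ) < ξ := by exact_mod_cast hξ
  have hN : (0 : ℝ) < N := Nat.cast_pos.2 (NeZero.pos N)
  unfold dl
  rw [← Real.rpow_natCast, ← Real.rpow_mul (by positivity)]
  norm_num

/-- the variance of one window function in the two backgrounds -/
theorem cv_bg (hb : 0 ≤ b) (hξ : 0 < ξ) {y a : ℝ} (ha : 0 ≤ a) (hy : 0 ≤ y)
    (hQ : QU (ξ : ℝ) (GT N b ξ) y a) (hyN : y * (N : ℝ) ^ 2 ≤ (ξ : ℝ) ^ 2) {cf Cf : ℝ}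
    (hCf : 0 < Cf) (hF : FarH N b ξ cf Cf) (p : V N) {R : ℕ} (hR : 1 ≤ R) {c : ℝ}
    (hc : |c| ≤ 1) {f : V N → ℝ} (hf : ∑ x, f x ^ 2 ≤ 4 * (1 / (ξ : ℝ) ^ 2))
    (hs : ∀ x, f x ≠ 0 → sn (x - p) ≤ R * ξ) :
    |Cv (wt N b (1 / (ξ : ℝ) ^ 2)) (fun _ => 1 / (ξ : ℝ) ^ 2 * c) (li f) (li f) -
      Cv (wt N b (1 / (ξ : ℝ) ^ 2)) (fun z => 1 / (ξ : ℝ) ^ 2 * (c * chi p (R * ξ) z))
        (li f) (li f)| ≤ 20 * dl a Cf cf ξ N R * Real.exp ((tau0 a + 8) / 2) := by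
  have hξR : (0 : ℝ) < ξ := by exact_mod_cast hξ
  have hN0 : (0 : ℝ) < N := Nat.cast_pos.2 (NeZero.pos N)
  have ht : (0 : ℝ) < 1 / (ξ : ℝ) ^ 2 := by positivity
  have hρ : 1 ≤ R * ξ := Nat.one_le_iff_ne_zero.2 (by positivity)
  set t := 1 / (ξ : ℝ) ^ 2 with htd
  set ρ := R * ξ with hρd
  have hE := H789.em_wt (N := N) hb ht
  have hev : H37.Ev (wt N b t) := H789.ev_wt
  have hpk := H789.pk_wt (N := N) hb ht
  set J : V N → ℝ := fun z => t * (c * chi p ρ z) with hJ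
  set w : V N → ℝ := fun z => t * (c * (1 - chi p ρ z)) with hw
  have hJw : (fun _ : V N => t * c) = J + w := by
    funext z
    simp only [hJ, hw, Pi.add_apply]
    ring
  have path : ∀ q ∈ Set.Icc (0 : ℝ) 1, ∀ g : V N → ℝ, ∑ x, g x ^ 2 ≤ 4 * t →
      Tq (wt N b t) (J + q • w + g) ≤ tau0 a := by
    intro q hq g hg
    have h1 := tq_path (N := N) hb hξ ha hy hQ hyN p hρ hc hq hg
    have e : J + q • w + g = t • (fun z => c * (q + (1 - q) * chi p ρ z)) + g := by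
      funext z
      simp only [hJ, hw, Pi.add_apply, Pi.smul_apply, smul_eq_mul]
      ring
    rw [e]
    exact h1
  have hsf : ∀ s : ℝ, |s| ≤ 1 → ∑ x, (s • f) x ^ 2 ≤ 4 * t := by
    intro s hs1
    have e : ∑ x, (s • f) x ^ 2 = s ^ 2 * ∑ x, f x ^ 2 := by
      rw [Finset.mul_sum]
      refine Finset.sum_congr rfl fun x _ => ?_
      simp only [Pi.smul_apply, smul_eq_mul]
      ring
    rw [e]
    have h2 : s ^ 2 ≤ 1 := by
      rw [← sq_abs]
      exact pow_le_one₀ (abs_nonneg _) hs1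
    have h3 : 0 ≤ ∑ x, f x ^ 2 := Finset.sum_nonneg fun _ _ => sq_nonneg _
    nlinarith
  have hww : ∑ x, w x ^ 2 ≤ ((N : ℝ) / ξ) ^ 2 * t := by
    have h1 : ∀ x : V N, w x ^ 2 ≤ t ^ 2 := by
      intro x
      have a1 := tn_nonneg ρ (sn (x - p))
      have a2 := tn_le_one ρ (sn (x - p))
      have a3 : |c * (1 - chi p ρ x)| ≤ 1 := by
        rw [abs_mul]
        have : |1 - chi p ρ x| ≤ 1 := by
          unfold chi
          rw [abs_le]
          constructor <;> linarith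
        calc |c| * |1 - chi p ρ x| ≤ 1 * 1 :=
              mul_le_mul hc this (abs_nonneg _) zero_le_one
          _ = 1 := one_mul 1
      have a4 : (c * (1 - chi p ρ x)) ^ 2 ≤ 1 := by
        rw [← sq_abs]
        exact pow_le_one₀ (abs_nonneg _) a3
      simp only [hw]
      rw [mul_pow]
      nlinarith [sq_nonneg t]
    refine (Finset.sum_le_sum fun x _ => h1 x).trans ?_
    rw [Finset.sum_const, Finset.card_univ, nsmul_eq_mul]
    have : (Fintype.card (V N) : ℝ) = (N : ℝ) ^ 2 := TM.H764.card_V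
    rw [this, htd]
    apply le_of_eq
    field_simp
  have hsup : ∀ (s : ℝ) (x z : V N), (s • f) x ≠ 0 → w z ≠ 0 → (R : ℝ) * ξ ≤ sd x z := by
    intro s x z hx hz
    have h1 : f x ≠ 0 := by
      intro h0
      apply hx
      simp only [Pi.smul_apply, smul_eq_mul, h0, mul_zero]
    have h2 := hs x h1
    have h3 : 2 * ρ < sn (z - p) := by
      by_contra hn
      apply hz
      simp only [hw]
      unfold chi
      rw [tn_one hρ (by omega)]
      ring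
    have h4 : sn (z - p) ≤ sn (z - x) + sn (x - p) := by
      have e : z - p = (z - x) + (x - p) := by abel
      rw [e]
      exact TM.H459.sn_add_le _ _
    unfold sd
    have h5 : R * ξ ≤ sn (z - x) := by omega
    exact_mod_cast h5
  have hA2 : ∀ s : ℝ, |s| ≤ 1 → ∑ x, (s • f) x ^ 2 ≤ 2 ^ 2 * (1 / (ξ : ℝ) ^ 2) := by
    intro s hs1
    have := hsf s hs1
    rw [← htd]
    linarith
  have hφ : ∀ s : ℝ, |s| ≤ 1 → |Lg (wt N b t) (J + w + s • f) - Lg (wt N b t) (J + w) -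
      Lg (wt N b t) (J + s • f) + Lg (wt N b t) J| ≤ dl a Cf cf ξ N R ^ 3 := by
    intro s hs1
    have hfar := hF (s • f) w 2 ((N : ℝ) / ξ) R two_pos (by positivity) (by positivity)
      (hA2 s hs1) hww (hsup s)
    have h1 := hfar.lg J (tau0 a) (fun p' hp' q' hq' => by
      have hps : |p' * s| ≤ 1 := by
        rw [abs_mul, abs_of_nonneg hp'.1]
        calc p' * |s| ≤ 1 * 1 := mul_le_mul hp'.2 hs1 (abs_nonneg _) zero_le_one
          _ = 1 := one_mul 1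
      have h2 := path q' hq' ((p' * s) • f) (hsf _ hps)
      have e : J + p' • s • f + q' • w = J + q' • w + (p' * s) • f := by
        rw [smul_smul]; abel
      rw [e]
      exact h2)
    have e1 : J + s • f + w = J + w + s • f := by abel
    rw [e1] at h1
    rw [dl_cube hCf hξ]
    have e2 : Lg (wt N b t) (J + w + s • f) - Lg (wt N b t) (J + w) -
        Lg (wt N b t) (J + s • f) + Lg (wt N b t) J = Lg (wt N b t) (J + w + s • f) -
        Lg (wt N b t) (J + s • f) - Lg (wt N b t) (J + w) + Lg (wt N b t) J := by ring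
    rw [e2]
    exact h1
  have hT : ∀ s : ℝ, |s| ≤ 1 → Tq (wt N b t) (J + s • f) ≤ tau0 a ∧
      Tq (wt N b t) (J + w + s • f) ≤ tau0 a := by
    intro s hs1
    have h1 := path 0 ⟨le_rfl, zero_le_one⟩ (s • f) (hsf s hs1)
    have h2 := path 1 ⟨zero_le_one, le_rfl⟩ (s • f) (hsf s hs1)
    rw [zero_smul, add_zero] at h1
    rw [one_smul] at h2
    exact ⟨h1, h2⟩
  have hκ : Lg (wt N b t) ((2 : ℝ) • f) - Lg (wt N b t) 0 ≤ 8 := by
    have h1 := lg_sub (N := N) hb ht ((2 : ℝ) • f)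
    have e : (∑ x, ((2 : ℝ) • f) x ^ 2) / (2 * t) = 2 * ((∑ x, f x ^ 2) / t) := by
      simp only [Pi.smul_apply, smul_eq_mul, mul_pow, ← Finset.mul_sum]
      field_simp
    rw [e] at h1
    have h2 : (∑ x, f x ^ 2) / t ≤ 4 := by
      rw [div_le_iff₀ ht]
      linarith
    linarith
  have h := cv_far hE hev hpk (dl_pos (a := a) (c := cf) hCf hξ (N := N) (R := R)) hφ hT hκ
  rw [hJw]
  exact h

/-- the covariance of two window functions in the two backgrounds -/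
theorem cv_bg2 (hb : 0 ≤ b) (hξ : 0 < ξ) {y a : ℝ} (ha : 0 ≤ a) (hy : 0 ≤ y)
    (hQ : QU (ξ : ℝ) (GT N b ξ) y a) (hyN : y * (N : ℝ) ^ 2 ≤ (ξ : ℝ) ^ 2) {cf Cf : ℝ}
    (hCf : 0 < Cf) (hF : FarH N b ξ cf Cf) (p : V N) {R : ℕ} (hR : 1 ≤ R) {c : ℝ}
    (hc : |c| ≤ 1) {u v : V N → ℝ} {L : ℝ} (hL : 0 < L) (hu : ∑ x, u x ^ 2 ≤ 1 / (ξ : ℝ) ^ 2)
    (hv : ∑ x, v x ^ 2 ≤ L ^ 2 * (1 / (ξ : ℝ) ^ 2))
    (hsu : ∀ x, u x ≠ 0 → sn (x - p) ≤ R * ξ) (hsv : ∀ x, v x ≠ 0 → sn (x - p) ≤ R * ξ) :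
    |Cv (wt N b (1 / (ξ : ℝ) ^ 2)) (fun _ => 1 / (ξ : ℝ) ^ 2 * c) (li u) (li v) -
      Cv (wt N b (1 / (ξ : ℝ) ^ 2)) (fun z => 1 / (ξ : ℝ) ^ 2 * (c * chi p (R * ξ) z))
        (li u) (li v)| ≤ 10 * L * dl a Cf cf ξ N R * Real.exp ((tau0 a + 8) / 2) := by
  have hξR : (0 : ℝ) < ξ := by exact_mod_cast hξ
  have ht : (0 : ℝ) < 1 / (ξ : ℝ) ^ 2 := by positivity
  set t := 1 / (ξ : ℝ) ^ 2 with htd
  have hE := H789.em_wt (N := N) hb ht
  set v' : V N → ℝ := L⁻¹ • v with hv'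
  have hvv : v = L • v' := by
    rw [hv', smul_smul, mul_inv_cancel₀ hL.ne', one_smul]
  have hv2 : ∑ x, v' x ^ 2 ≤ t := by
    have e : ∑ x, v' x ^ 2 = (L⁻¹) ^ 2 * ∑ x, v x ^ 2 := by
      rw [Finset.mul_sum]
      refine Finset.sum_congr rfl fun x _ => ?_
      simp only [hv', Pi.smul_apply, smul_eq_mul]
      ring
    rw [e]
    calc (L⁻¹) ^ 2 * ∑ x, v x ^ 2 ≤ (L⁻¹) ^ 2 * (L ^ 2 * t) :=
          mul_le_mul_of_nonneg_left hv (by positivity)
      _ = t := by field_simp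
  have hpm : ∑ x, (u + v') x ^ 2 ≤ 4 * t ∧ ∑ x, (u - v') x ^ 2 ≤ 4 * t := by
    constructor
    · calc ∑ x, (u + v') x ^ 2 ≤ ∑ x, (2 * u x ^ 2 + 2 * v' x ^ 2) := by
            refine Finset.sum_le_sum fun x _ => ?_
            simp only [Pi.add_apply]
            nlinarith [sq_nonneg (u x - v' x)]
        _ = 2 * ∑ x, u x ^ 2 + 2 * ∑ x, v' x ^ 2 := by
            rw [Finset.sum_add_distrib, Finset.mul_sum, Finset.mul_sum]
        _ ≤ 4 * t := by linarith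
    · calc ∑ x, (u - v') x ^ 2 ≤ ∑ x, (2 * u x ^ 2 + 2 * v' x ^ 2) := by
            refine Finset.sum_le_sum fun x _ => ?_
            simp only [Pi.sub_apply]
            nlinarith [sq_nonneg (u x + v' x)]
        _ = 2 * ∑ x, u x ^ 2 + 2 * ∑ x, v' x ^ 2 := by
            rw [Finset.sum_add_distrib, Finset.mul_sum, Finset.mul_sum]
        _ ≤ 4 * t := by linarith
  have hsv' : ∀ x, v' x ≠ 0 → sn (x - p) ≤ R * ξ := by
    intro x hx
    apply hsv x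
    intro h0
    apply hx
    simp only [hv', Pi.smul_apply, smul_eq_mul, h0, mul_zero]
  have s1 : ∀ x, (u + v') x ≠ 0 → sn (x - p) ≤ R * ξ := by
    intro x hx
    by_cases h0 : u x = 0
    · apply hsv' x
      intro h1
      apply hx
      simp only [Pi.add_apply, h0, h1, add_zero]
    · exact hsu x h0
  have s2 : ∀ x, (u - v') x ≠ 0 → sn (x - p) ≤ R * ξ := by
    intro x hx
    by_cases h0 : u x = 0
    · apply hsv' x
      intro h1
      apply hx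
      simp only [Pi.sub_apply, h0, h1, sub_zero]
    · exact hsu x h0
  have b1 := abs_le.1 (cv_bg hb hξ ha hy hQ hyN hCf hF p hR hc hpm.1 s1)
  have b2 := abs_le.1 (cv_bg hb hξ ha hy hQ hyN hCf hF p hR hc hpm.2 s2)
  rw [← htd] at b1 b2
  have key : ∀ J : V N → ℝ, Cv (wt N b t) J (li u) (li v) =
      L / 4 * (Cv (wt N b t) J (li (u + v')) (li (u + v')) -
        Cv (wt N b t) J (li (u - v')) (li (u - v'))) := by
    intro J
    have h1 := H358.Cv_polar hE J u v'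
    have h2 : Cv (wt N b t) J (li u) (li v) = L * Cv (wt N b t) J (li u) (li v') := by
      have h3 := H612.Cv_smul_smul (μ := wt N b t) J 1 L u v'
      rw [one_smul, ← hvv, one_mul] at h3
      exact h3
    rw [h2, h1]
    ring
  rw [key, key]
  rw [abs_le]
  have hL4 : 0 ≤ L / 4 := by positivity
  constructor
  · have := mul_le_mul_of_nonneg_left (add_le_add b1.1 (neg_le_neg b2.2)) hL4
    linarith
  · have := mul_le_mul_of_nonneg_left (add_le_add b1.2 (neg_le_neg b2.1)) hL4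
    linarith

end

end Vale.Agent.P159.H197
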