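import Vale.Agent.P159.H197.Nk4
import Vale.Agent.P159.H358.Loc9q
import Vale.Agent.P159.H43.Nkt1

/-!
P159 / second order flow, module NKT (helper197), part 5: the window functions as sources on a
torus `T` of size at least `n`, the window form as a sum of two covariances, the grid of block
centres.
-/

open Finset MeasureTheory

set_option linter.unusedSectionVars false

namespace Vale.Agent.P159.H197

open Vale.Agent.P159.TM.H104
open Vale.Agent.P159.H37 (qf bf Gm Cm wt Tq)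
open Vale.Agent.P159.TM.Spec (V GT)
open Vale.Agent.P159.TM.H764 (cN sN dt QU)
open Vale.Agent.P159.TM.H459 (sn sd ball)
open Vale.Agent.P159.TM.H705 (dB pt)
open Vale.Agent.P159.H358 (src Wd)
open Vale.Agent.P159.H864 (TI sym)
open Vale.Agent.P159.H733.Torg (em prj)

noncomputable section

section srcs

variable {T : ℕ} [NeZero T] {n : ℕ}

theorem src_val {f : ℕ → ℕ → ℝ}
    (hf : ∀ i j, f i j ≠ 0 → (1 ≤ i ∧ i < n) ∧ 1 ≤ j ∧ j < n) (x : V T) :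
    src T n f x = f x.1.val x.2.val := by
  unfold src
  split_ifs with h
  · rfl
  · by_contra hc
    obtain ⟨⟨h1, h2⟩, h3, h4⟩ := hf _ _ (Ne.symm hc)
    exact h ⟨h1, h2, h3, h4⟩

variable {N : ℕ} [NeZero N] {i0 ξ ρ : ℕ}

theorem src_uf (h1 : 1 ≤ i0) (h2 : i0 + ξ ≤ n) (k : V N) (e : ZMod N → ℝ) (x : V T) :
    src T n (uf k e i0 ξ) x =
      if x ∈ Bx T i0 ξ then ph k e x.1.val x.2.val / (ξ : ℝ) ^ 2 else 0 := by
  rw [src_val]
  · unfold uf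
    by_cases hx : x ∈ Bx T i0 ξ
    · rw [if_pos hx, if_pos (mem_Bx.1 hx)]
    · rw [if_neg hx, if_neg fun h => hx (mem_Bx.2 h)]
  · intro i j hij
    unfold uf at hij
    by_cases h : (i0 ≤ i ∧ i < i0 + ξ) ∧ i0 ≤ j ∧ j < i0 + ξ
    · omega
    · rw [if_neg h] at hij
      exact absurd rfl hij

theorem src_vf (h1 : ρ < i0) (h2 : i0 + ρ < n) (k : V N) (e : ZMod N → ℝ) (x : V T) :
    src T n (vf k e i0 ξ ρ) x =
      if x ∈ Wx T i0 ρ then ph k e x.1.val x.2.val / (ξ : ℝ) ^ 2 else 0 := by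
  rw [src_val]
  · unfold vf
    by_cases hx : x ∈ Wx T i0 ρ
    · have hx' : dB (i0, i0) (x.1.val, x.2.val) ≤ ρ := mem_Wx.1 hx
      rw [if_pos hx, if_pos hx']
    · have hx' : ¬ dB (i0, i0) (x.1.val, x.2.val) ≤ ρ := fun h => hx (mem_Wx.2 h)
      rw [if_neg hx, if_neg hx']
  · intro i j hij
    unfold vf at hij
    by_cases h : dB (i0, i0) (i, j) ≤ ρ
    · rw [dB_le_iff] at h
      simp only at h
      omega
    · rw [if_neg h] at hij
      exact absurd rfl hij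

theorem sum_ite_mem' {S : Finset (V T)} (f g : V T → ℝ) :
    ∑ x, (if x ∈ S then f x else 0) * g x = ∑ x ∈ S, f x * g x := by
  rw [← Finset.sum_filter_add_sum_filter_not univ (fun x => x ∈ S)]
  have h1 : ∑ x ∈ univ.filter (fun x => x ∉ S), (if x ∈ S then f x else 0) * g x = 0 := by
    refine Finset.sum_eq_zero fun x hx => ?_
    rw [if_neg (mem_filter.1 hx).2, zero_mul]
  rw [h1, add_zero]
  refine Finset.sum_congr ?_ fun x hx => ?_
  · ext x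
    simp
  · rw [if_pos hx]

/-- one phase -/
theorem win_one (A : Matrix (V T) (V T) ℝ) (h1 : ρ < i0) (h2 : i0 + ρ < n) (h3 : i0 + ξ ≤ n)
    (k : V N) (e : ZMod N → ℝ) :
    bf A (src T n (uf k e i0 ξ)) (src T n (vf k e i0 ξ ρ)) =
      ∑ x ∈ Bx T i0 ξ, ∑ z ∈ Wx T i0 ρ, A x z *
        (ph k e z.1.val z.2.val * ph k e x.1.val x.2.val) * (1 / (ξ : ℝ) ^ 2) ^ 2 := by
  unfold bf
  have e1 : ∀ x : V T, ∑ z, src T n (uf k e i0 ξ) x * A x z * src T n (vf k e i0 ξ ρ) z =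
      (if x ∈ Bx T i0 ξ then ph k e x.1.val x.2.val / (ξ : ℝ) ^ 2 else 0) *
        ∑ z ∈ Wx T i0 ρ, ph k e z.1.val z.2.val / (ξ : ℝ) ^ 2 * A x z := by
    intro x
    have e2 := sum_ite_mem' (S := Wx T i0 ρ)
      (fun z : V T => ph k e z.1.val z.2.val / (ξ : ℝ) ^ 2) fun z => A x z
    rw [← e2, Finset.mul_sum]
    refine Finset.sum_congr rfl fun z _ => ?_
    rw [src_uf (by omega) h3, src_vf h1 h2]
    ring
  rw [Finset.sum_congr rfl fun x _ => e1 x, sum_ite_mem']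
  refine Finset.sum_congr rfl fun x _ => ?_
  rw [Finset.mul_sum]
  refine Finset.sum_congr rfl fun z _ => ?_
  ring

/-- **the window form as two covariances** -/
theorem win_bf (A : Matrix (V T) (V T) ℝ) (hT : N ∣ T) (h1 : ρ < i0) (h2 : i0 + ρ < n)
    (h3 : i0 + ξ ≤ n) (k : V N) :
    bf A (src T n (uf k cN i0 ξ)) (src T n (vf k cN i0 ξ ρ)) +
      bf A (src T n (uf k sN i0 ξ)) (src T n (vf k sN i0 ξ ρ)) =
      (1 / (ξ : ℝ) ^ 2) ^ 2 *
        ∑ x ∈ Bx T i0 ξ, ∑ z ∈ Wx T i0 ρ, A x z * cN (dt (em T k) (z - x)) := by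
  rw [win_one A h1 h2 h3, win_one A h1 h2 h3, ← Finset.sum_add_distrib, Finset.mul_sum]
  refine Finset.sum_congr rfl fun x _ => ?_
  rw [← Finset.sum_add_distrib, Finset.mul_sum]
  refine Finset.sum_congr rfl fun z _ => ?_
  rw [ph_cN hT, ph_cN hT, ph_sN hT, ph_sN hT, TM.H764.dt_sub, TM.H764.cN_sub]
  ring

/-! ### norms -/

theorem abs_ph_le (k : V N) {e : ZMod N → ℝ} (he : ∀ a, |e a| ≤ 1) (i j : ℕ) :
    |ph k e i j| ≤ 1 := he _

theorem abs_cN_le (a : ZMod N) : |cN a| ≤ 1 :=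
  abs_le.2 ⟨TM.H764.neg_one_le_cN _, TM.H764.cN_le_one _⟩

theorem abs_sN_le (a : ZMod N) : |sN a| ≤ 1 := by
  have h := TM.H764.cN_sq_add a
  rw [← sq_le_one_iff_abs_le_one]
  nlinarith [sq_nonneg (cN a)]

theorem card_Wx {i0 ρ : ℕ} (h : 2 * (ρ + 1) ≤ T) (h2 : i0 < T) :
    ((Wx T i0 ρ).card : ℝ) ≤ (2 * ρ + 1 : ℝ) ^ 2 := by
  have h1 : Wx T i0 ρ ⊆ ball ((i0 : ZMod T), (i0 : ZMod T)) ρ := by
    intro z hz
    rw [mem_Wx] at hz
    rw [TM.H459.mem_ball]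
    have e : cd (((i0 : ZMod T), (i0 : ZMod T)) : V T) = (i0, i0) := by
      unfold cd
      simp only [ZMod.val_natCast_of_lt h2]
    unfold sd
    rw [← e] at hz
    rw [sn_cd hz h]
    exact hz
  have h3 := (Finset.card_le_card h1).trans (TM.H459.card_ball_le _ ρ)
  calc ((Wx T i0 ρ).card : ℝ) ≤ (((2 * ρ + 1) ^ 2 : ℕ) : ℝ) := by exact_mod_cast h3
    _ = _ := by push_cast; ring

theorem sum_ite_sq {S : Finset (V T)} (f : V T → ℝ) {B : ℝ} (hB : ∀ x, f x ^ 2 ≤ B) :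
    ∑ x, (if x ∈ S then f x else 0) ^ 2 ≤ S.card * B := by
  have e : ∀ x : V T, (if x ∈ S then f x else 0) ^ 2 = if x ∈ S then f x ^ 2 else 0 := by
    intro x
    split_ifs <;> simp
  rw [Finset.sum_congr rfl fun x _ => e x, Finset.sum_ite_mem, Finset.univ_inter,
    ← nsmul_eq_mul, ← Finset.sum_const]
  exact Finset.sum_le_sum fun x _ => hB x

theorem ph_sq_le (k : V N) {e : ZMod N → ℝ} (he : ∀ a, |e a| ≤ 1) (i j : ℕ) :
    (ph k e i j / (ξ : ℝ) ^ 2) ^ 2 ≤ (1 / (ξ : ℝ) ^ 2) ^ 2 := by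
  rw [div_pow, div_pow, one_pow]
  refine div_le_div_of_nonneg_right ?_ (by positivity)
  rw [sq_le_one_iff_abs_le_one]
  exact he _

theorem norm_uf (hξ : 0 < ξ) (h1 : 1 ≤ i0) (h2 : i0 + ξ ≤ n) (hn : n ≤ T) (k : V N)
    {e : ZMod N → ℝ} (he : ∀ a, |e a| ≤ 1) :
    ∑ x : V T, src T n (uf k e i0 ξ) x ^ 2 ≤ 1 / (ξ : ℝ) ^ 2 := by
  have hξR : (0 : ℝ) < ξ := by exact_mod_cast hξ
  rw [Finset.sum_congr rfl fun x _ => by rw [src_uf h1 h2]]
  refine (sum_ite_sq (fun x : V T => ph k e x.1.val x.2.val / (ξ : ℝ) ^ 2)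
    fun x => ph_sq_le (ξ := ξ) k he x.1.val x.2.val).trans (le_of_eq ?_)
  rw [card_Bx (by omega)]
  push_cast
  field_simp

theorem norm_vf (hξ : 0 < ξ) (h1 : ρ < i0) (h2 : i0 + ρ < n) (hn : n ≤ T) (k : V N)
    {e : ZMod N → ℝ} (he : ∀ a, |e a| ≤ 1) {L : ℝ} (hL : (2 * ρ + 1 : ℝ) ≤ L * ξ) :
    ∑ x : V T, src T n (vf k e i0 ξ ρ) x ^ 2 ≤ L ^ 2 * (1 / (ξ : ℝ) ^ 2) := by
  have hξR : (0 : ℝ) < ξ := by exact_mod_cast hξ
  rw [Finset.sum_congr rfl fun x _ => by rw [src_vf h1 h2]]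
  refine (sum_ite_sq (fun x : V T => ph k e x.1.val x.2.val / (ξ : ℝ) ^ 2)
    fun x => ph_sq_le (ξ := ξ) k he x.1.val x.2.val).trans ?_
  have h3 := card_Wx (T := T) (i0 := i0) (ρ := ρ) (by omega) (by omega)
  have h4 : (2 * ρ + 1 : ℝ) ^ 2 ≤ (L * ξ) ^ 2 := pow_le_pow_left₀ (by positivity) hL 2
  calc ((Wx T i0 ρ).card : ℝ) * (1 / (ξ : ℝ) ^ 2) ^ 2 ≤ (L * ξ) ^ 2 * (1 / (ξ : ℝ) ^ 2) ^ 2 :=
        mul_le_mul_of_nonneg_right (h3.trans h4) (by positivity)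
    _ = L ^ 2 * (1 / (ξ : ℝ) ^ 2) := by field_simp

/-! ### the background -/

/-- the background `(c / ξ²) χ` -/
def jc (c : ℝ) (i0 ξ ρ : ℕ) (i j : ℕ) : ℝ := c / (ξ : ℝ) ^ 2 * tn ρ (dB (i0, i0) (i, j))

/-- the centre -/
def ctr (T i0 : ℕ) : V T := ((i0 : ZMod T), (i0 : ZMod T))

theorem cd_ctr (h : i0 < T) : cd (ctr T i0) = (i0, i0) := by
  unfold cd ctr
  simp only [ZMod.val_natCast_of_lt h]

theorem chi_dB (hρ : 1 ≤ ρ) (h1 : 3 * ρ < i0) (h2 : i0 + 3 * ρ < T) (x : V T) :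
    chi (ctr T i0) ρ x = tn ρ (dB (i0, i0) (cd x)) := by
  have hc := cd_ctr (T := T) (i0 := i0) (by omega)
  have hv : (ctr T i0).1.val = i0 ∧ (ctr T i0).2.val = i0 := by
    unfold cd at hc
    rw [Prod.mk.injEq] at hc
    exact hc
  unfold chi
  by_cases h : sn (x - ctr T i0) ≤ 3 * ρ
  · have h3 := dB_cd h (by omega) (by omega) (by omega) (by omega)
    rw [hc] at h3
    rw [h3]
  · have h4 : 3 * ρ < dB (i0, i0) (cd x) := by
      by_contra hn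
      push Not at hn
      rw [← hc] at hn
      have h5 := sn_cd hn (by omega)
      omega
    rw [tn_zero hρ (by omega), tn_zero hρ (by omega)]

theorem src_jc (hρ : 1 ≤ ρ) (h1 : 3 * ρ < i0) (h2 : i0 + 3 * ρ < n) (hn : n ≤ T) (c : ℝ) :
    src T n (jc c i0 ξ ρ) = fun z => 1 / (ξ : ℝ) ^ 2 * (c * chi (ctr T i0) ρ z) := by
  funext x
  rw [src_val]
  · rw [chi_dB hρ h1 (by omega)]
    unfold jc cd
    ring
  · intro i j hij
    unfold jc at hij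
    by_cases h : dB (i0, i0) (i, j) < 3 * ρ
    · have h3 : dB (i0, i0) (i, j) ≤ 3 * ρ - 1 := by omega
      rw [dB_le_iff] at h3
      simp only at h3
      omega
    · rw [tn_zero hρ (by omega), mul_zero] at hij
      exact absurd rfl hij

/-! ### the grid -/

/-- the block centres -/
def grid (i0 ξ R : ℕ) : Finset (ℕ × ℕ) :=
  (range (6 * R + 1) ×ˢ range (6 * R + 1)).image
    fun p => (i0 - 3 * (R * ξ) + p.1 * ξ, i0 - 3 * (R * ξ) + p.2 * ξ)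

theorem card_grid (i0 ξ R : ℕ) : (grid i0 ξ R).card ≤ (6 * R + 1) ^ 2 := by
  refine Finset.card_image_le.trans ?_
  rw [card_product, card_range, pow_two]

theorem grid_near {R : ℕ} (hξ : 0 < ξ) (h1 : 3 * (R * ξ) ≤ i0) {i j : ℕ}
    (h : dB (i0, i0) (i, j) ≤ 3 * (R * ξ)) : ∃ p ∈ grid i0 ξ R, dB p (i, j) ≤ ξ := by
  rw [dB_le_iff] at h
  simp only at h
  set s := i0 - 3 * (R * ξ) with hs
  have key : ∀ i : ℕ, ((i : ℤ) - i0).natAbs ≤ 3 * (R * ξ) →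
      (i - s) / ξ < 6 * R + 1 ∧ ((i : ℤ) - ((s + (i - s) / ξ * ξ : ℕ) : ℤ)).natAbs ≤ ξ := by
    intro i hi
    have a1 : s ≤ i := by omega
    have a2 : i - s ≤ 6 * (R * ξ) := by omega
    have a3 : (i - s) / ξ ≤ 6 * R := by
      have : i - s ≤ 6 * R * ξ := by rw [mul_assoc]; exact a2
      exact (Nat.div_le_div_right this).trans (by rw [Nat.mul_div_cancel _ hξ])
    have a4 := Nat.div_add_mod (i - s) ξ
    have a5 := Nat.mod_lt (i - s) hξ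
    have a6 : (i - s) / ξ * ξ = ξ * ((i - s) / ξ) := mul_comm _ _
    refine ⟨by omega, ?_⟩
    rw [a6]
    omega
  obtain ⟨k1, k2⟩ := key i h.1
  obtain ⟨k3, k4⟩ := key j h.2
  refine ⟨(s + (i - s) / ξ * ξ, s + (j - s) / ξ * ξ), ?_, ?_⟩
  · unfold grid
    rw [mem_image]
    exact ⟨((i - s) / ξ, (j - s) / ξ), by rw [mem_product, mem_range, mem_range]; exact ⟨k1, k3⟩,
      rfl⟩
  · rw [dB_le_iff]
    exact ⟨k2, k4⟩

theorem grid_in {R : ℕ} (h1 : 3 * (R * ξ) ≤ i0) {p : ℕ × ℕ} (hp : p ∈ grid i0 ξ R) :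
    (i0 - 3 * (R * ξ) ≤ p.1 ∧ p.1 ≤ i0 + 3 * (R * ξ)) ∧
      i0 - 3 * (R * ξ) ≤ p.2 ∧ p.2 ≤ i0 + 3 * (R * ξ) := by
  unfold grid at hp
  rw [mem_image] at hp
  obtain ⟨q, hq, rfl⟩ := hp
  rw [mem_product, mem_range, mem_range] at hq
  have a1 : q.1 * ξ ≤ 6 * R * ξ := Nat.mul_le_mul_right ξ (by omega)
  have a2 : q.2 * ξ ≤ 6 * R * ξ := Nat.mul_le_mul_right ξ (by omega)
  rw [mul_assoc] at a1 a2
  simp only
  omega

theorem wd_uf {R : ℕ} (hξ : 0 < ξ) (hR : 1 ≤ R) (h1 : 3 * (R * ξ) ≤ i0) (k : V N)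
    {e : ZMod N → ℝ} (he : ∀ a, |e a| ≤ 1) : Wd ξ (grid i0 ξ R) 1 (uf k e i0 ξ) where
  bd i j := by
    unfold uf
    split_ifs
    · rw [abs_div, abs_of_nonneg (by positivity : (0 : ℝ) ≤ (ξ : ℝ) ^ 2)]
      exact div_le_div_of_nonneg_right (he _) (by positivity)
    · rw [abs_zero]
      positivity
  sp i j hij := by
    apply grid_near hξ h1
    unfold uf at hij
    by_cases h : (i0 ≤ i ∧ i < i0 + ξ) ∧ i0 ≤ j ∧ j < i0 + ξ
    · have h2 : ξ ≤ R * ξ := Nat.le_mul_of_pos_left ξ hR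
      rw [dB_le_iff]
      simp only
      omega
    · rw [if_neg h] at hij
      exact absurd rfl hij

theorem wd_vf {R : ℕ} (hξ : 0 < ξ) (h1 : 3 * (R * ξ) ≤ i0) (k : V N)
    {e : ZMod N → ℝ} (he : ∀ a, |e a| ≤ 1) :
    Wd ξ (grid i0 ξ R) 1 (vf k e i0 ξ (R * ξ)) where
  bd i j := by
    unfold vf
    split_ifs
    · rw [abs_div, abs_of_nonneg (by positivity : (0 : ℝ) ≤ (ξ : ℝ) ^ 2)]
      exact div_le_div_of_nonneg_right (he _) (by positivity)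
    · rw [abs_zero]
      positivity
  sp i j hij := by
    apply grid_near hξ h1
    unfold vf at hij
    by_cases h : dB (i0, i0) (i, j) ≤ R * ξ
    · omega
    · rw [if_neg h] at hij
      exact absurd rfl hij

theorem wd_jc {R : ℕ} (hξ : 0 < ξ) (hR : 1 ≤ R) (h1 : 3 * (R * ξ) ≤ i0) {c : ℝ} (hc : |c| ≤ 1) :
    Wd ξ (grid i0 ξ R) 1 (jc c i0 ξ (R * ξ)) where
  bd i j := by
    have hξR : (0 : ℝ) < ξ := by exact_mod_cast hξ
    unfold jc
    rw [abs_mul, abs_div, abs_of_nonneg (by positivity : (0 : ℝ) ≤ (ξ : ℝ) ^ 2),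
      abs_of_nonneg (tn_nonneg _ _)]
    have h2 := tn_le_one (R * ξ) (dB (i0, i0) (i, j))
    have h3 := tn_nonneg (R * ξ) (dB (i0, i0) (i, j))
    have h4 : |c| / (ξ : ℝ) ^ 2 ≤ 1 / (ξ : ℝ) ^ 2 := div_le_div_of_nonneg_right hc (by positivity)
    calc |c| / (ξ : ℝ) ^ 2 * tn (R * ξ) (dB (i0, i0) (i, j)) ≤ 1 / (ξ : ℝ) ^ 2 * 1 :=
          mul_le_mul h4 h2 h3 (by positivity)
      _ = 1 / (ξ : ℝ) ^ 2 := mul_one _
  sp i j hij := by
    apply grid_near hξ h1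
    have hρ : 1 ≤ R * ξ := Nat.one_le_iff_ne_zero.2 (by positivity)
    unfold jc at hij
    by_contra h
    rw [tn_zero hρ (by omega), mul_zero] at hij
    exact hij rfl

end srcs

end

end Vale.Agent.P159.H197
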