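import Vale.Agent.P159.H197.Nk5

/-!
P159 / second order flow, module NKT (helper197), part 6: the tail of the covariance kernel in a
constant background, and the comparison of the symbols on two tori `N ∣ M` in the same constant
background, at all momenta of the smaller torus.
-/

open Finset MeasureTheory

set_option linter.unusedSectionVars false

namespace Vale.Agent.P159.H197

open Vale.Agent.P159.TM.H104
open Vale.Agent.P159.H37 (qf bf Gm Cm wt Tq)
open Vale.Agent.P159.TM.Spec (V GT)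
open Vale.Agent.P159.TM.H764 (cN sN dt QU)
open Vale.Agent.P159.TM.H459 (sn sd ball)
open Vale.Agent.P159.TM.H705 (dB pt)
open Vale.Agent.P159.H358 (src Wd Two err9q)
open Vale.Agent.P159.H864 (TI sym)
open Vale.Agent.P159.H612 (Far ZC ann)
open Vale.Agent.P159.H43 (Gcc)
open Vale.Agent.P159.H733.Torg (em prj ip)
open Vale.Agent.P159.TM.H265 (HA)

noncomputable section

variable {N : ℕ} [NeZero N] {b : ℝ} {ξ : ℕ}

/-- the constant of the tail -/
def kT (C c δ : ℝ) : ℝ :=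
  3 * Real.exp (2 * δ) * C * (10 / (min c 1 / 2) * (1 - Real.exp (-(min c 1 / 2 / 2)))⁻¹)

theorem kT_nonneg {C c δ : ℝ} (hC : 0 ≤ C) (hc : 0 < c) : 0 ≤ kT C c δ := by
  have h1 : 0 < min c 1 := lt_min hc one_pos
  have h2 : 0 < 1 - Real.exp (-(min c 1 / 2 / 2)) := by
    have : Real.exp (-(min c 1 / 2 / 2)) < 1 := by
      rw [Real.exp_lt_one_iff]
      linarith
    linarith
  unfold kT
  positivity

/-- **tail of the covariance kernel in a constant background** -/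
theorem gc_tail (hb : 0 ≤ b) (hξ : 0 < ξ) (h2 : 2 * ξ ≤ N) {c C δ : ℝ} (hc : 0 < c)
    (hC : 0 ≤ C)
    (hδ : ∀ u v : ℝ, Real.log (ZC N b (1 / (ξ : ℝ) ^ 2) u) -
      Real.log (ZC N b (1 / (ξ : ℝ) ^ 2) v) ≤ δ)
    (hfar : FarH N b ξ c C) (s : ℝ) {R : ℕ} (hR : 3 ≤ R) :
    ∑ w ∈ univ.filter (fun w : V N => R * ξ < sn w), Gcc N b (1 / (ξ : ℝ) ^ 2) s 0 w ≤
      kT C c δ * Real.exp (-(min c 1 / 2 * (R - 3))) * (ξ : ℝ) ^ 2 := by
  have hξR : (0 : ℝ) < ξ := by exact_mod_cast hξ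
  have ht : (0 : ℝ) < 1 / (ξ : ℝ) ^ 2 := by positivity
  set t := 1 / (ξ : ℝ) ^ 2 with htd
  set a' : ℝ := min c 1 / 2 with ha'
  have hm0 : 0 < min c 1 := lt_min hc one_pos
  have ha0 : 0 < a' := by positivity
  have ha1 : a' ≤ 1 := by
    have := min_le_right c 1
    rw [ha']
    linarith
  have hac : 2 * a' ≤ c := by
    have := min_le_left c 1
    rw [ha']
    linarith
  set f : V N → ℝ := fun w => if R * ξ < sn w then Gcc N b t s 0 w else 0 with hf
  have hG0 : ∀ w, 0 ≤ Gcc N b t s 0 w := fun w => H612.Cc_nonneg hb ht _ 0 w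
  have hf0 : ∀ w, 0 ≤ f w := by
    intro w
    simp only [hf]
    split_ifs
    · exact hG0 w
    · exact le_rfl
  have e1 : ∑ w ∈ univ.filter (fun w : V N => R * ξ < sn w), Gcc N b t s 0 w = ∑ w, f w := by
    rw [Finset.sum_filter]
  rw [e1]
  refine (H612.sum_ann_le hf0 hξ).trans ?_
  have h3 : ∑ z ∈ univ.filter (fun z : V N => sn z < 3 * ξ), f z = 0 := by
    refine Finset.sum_eq_zero fun z hz => ?_
    rw [mem_filter] at hz
    have h4 : 3 * ξ ≤ R * ξ := Nat.mul_le_mul_right ξ hR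
    simp only [hf]
    rw [if_neg (by omega)]
  rw [h3, zero_add]
  have h4 : ∀ k ∈ range (N + 1), ∑ z ∈ ann N ((k + 3) * ξ) ((k + 4) * ξ), f z ≤
      3 * Real.exp (2 * δ) * C * (ξ : ℝ) ^ 2 * Real.exp (-(a' * (R - 3))) *
        (((k : ℝ) + 5) * Real.exp (-(a' * k))) := by
    intro k _
    by_cases hk : R < k + 4
    · have h5 := H612.ann_cov hb ht (H612.ti_Cc b t (t * s)) hξ h2 hC
        (H612.Tq_const_le hb ht hδ s) hfar k
      have h6 : ∑ z ∈ ann N ((k + 3) * ξ) ((k + 4) * ξ), f z ≤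
          ∑ z ∈ ann N ((k + 3) * ξ) ((k + 4) * ξ), Cm (wt N b t) (fun _ => t * s) 0 z := by
        refine Finset.sum_le_sum fun z _ => ?_
        simp only [hf]
        split_ifs
        · exact le_rfl
        · exact hG0 z
      refine h6.trans (h5.trans ?_)
      have e2 : 4 * δ / 2 = 2 * δ := by ring
      rw [e2]
      have e3 : Real.exp (2 * δ) * (3 * ((k : ℝ) + 5)) * C * Real.exp (-(c * ((k : ℝ) + 1))) *
          (ξ : ℝ) ^ 2 = 3 * Real.exp (2 * δ) * C * (ξ : ℝ) ^ 2 * ((k : ℝ) + 5) *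
          Real.exp (-(c * ((k : ℝ) + 1))) := by ring
      have e4 : 3 * Real.exp (2 * δ) * C * (ξ : ℝ) ^ 2 * Real.exp (-(a' * (R - 3))) *
          (((k : ℝ) + 5) * Real.exp (-(a' * k))) =
          3 * Real.exp (2 * δ) * C * (ξ : ℝ) ^ 2 * ((k : ℝ) + 5) *
          (Real.exp (-(a' * (R - 3))) * Real.exp (-(a' * k))) := by ring
      rw [e3, e4, ← Real.exp_add]
      refine mul_le_mul_of_nonneg_left (Real.exp_le_exp.2 ?_) (by positivity)
      have hk' : (R : ℝ) ≤ k + 3 := by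
        have : R ≤ k + 3 := by omega
        exact_mod_cast this
      have hk0 : (0 : ℝ) ≤ k := Nat.cast_nonneg k
      nlinarith
    · have h5 : ∑ z ∈ ann N ((k + 3) * ξ) ((k + 4) * ξ), f z = 0 := by
        refine Finset.sum_eq_zero fun z hz => ?_
        rw [H612.mem_ann] at hz
        have h6 : (k + 4) * ξ ≤ R * ξ := Nat.mul_le_mul_right ξ (by omega)
        simp only [hf]
        rw [if_neg (by omega)]
      rw [h5]
      positivity
  refine (Finset.sum_le_sum h4).trans ?_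
  rw [← Finset.mul_sum]
  have h5 := H612.series_le ha0 ha1 (N + 1)
  calc 3 * Real.exp (2 * δ) * C * (ξ : ℝ) ^ 2 * Real.exp (-(a' * (R - 3))) *
        ∑ k ∈ range (N + 1), ((k : ℝ) + 5) * Real.exp (-(a' * k))
      ≤ 3 * Real.exp (2 * δ) * C * (ξ : ℝ) ^ 2 * Real.exp (-(a' * (R - 3))) *
        (10 / a' * (1 - Real.exp (-(a' / 2)))⁻¹) := mul_le_mul_of_nonneg_left h5 (by positivity)
    _ = kT C c δ * Real.exp (-(a' * (R - 3))) * (ξ : ℝ) ^ 2 := by
        unfold kT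
        rw [← ha']
        ring

/-- the hypotheses on one torus -/
structure PkT (N : ℕ) [NeZero N] (b : ℝ) (hb : 0 ≤ b) (ξ : ℕ) (y a c C cf Cf : ℝ) : Prop where
  hA : HA N b ξ hb y c C
  far : FarH N b ξ cf Cf
  qu : QU (ξ : ℝ) (GT N b ξ) y a
  yN : y * (N : ℝ) ^ 2 ≤ (ξ : ℝ) ^ 2
  osc : ∀ u v : ℝ, Real.log (ZC N b (1 / (ξ : ℝ) ^ 2) u) -
      Real.log (ZC N b (1 / (ξ : ℝ) ^ 2) v) ≤ 1

/-- error of the cut-off background on one torus -/
def eC (a cf Cf : ℝ) (ξ N R : ℕ) : ℝ :=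
  60 * R * dl a Cf cf ξ N R * Real.exp ((tau0 a + 8) / 2) +
    kT Cf cf 1 * Real.exp (-(min cf 1 / 2 * (R - 4)))

variable {hb : 0 ≤ b} {T n : ℕ} [NeZero T] {y a c C cf Cf : ℝ}

/-- **one torus**: the symbol of the covariance in a constant background, and two covariances of
window functions in the background `t c χ` -/
theorem one_torus (hξ : 0 < ξ) (ha : 0 ≤ a) (hy : 0 ≤ y) (hcf : 0 < cf) (hCf : 0 < Cf)
    (P : PkT T b hb ξ y a c C cf Cf) (hNT : N ∣ T) {R : ℕ} (hR : 4 ≤ R) (hn1 : 16 * (R * ξ) ≤ n)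
    (hn : n ≤ T) (k : V N) {s : ℝ} (hs : |s| ≤ 1) :
    |1 / (ξ : ℝ) ^ 2 * sym (Gcc T b (1 / (ξ : ℝ) ^ 2) s) (em T k) -
      (Cv (wt T b (1 / (ξ : ℝ) ^ 2)) (src T n (jc s (n / 2) ξ (R * ξ)))
          (li (src T n (uf k cN (n / 2) ξ))) (li (src T n (vf k cN (n / 2) ξ (R * ξ)))) +
        Cv (wt T b (1 / (ξ : ℝ) ^ 2)) (src T n (jc s (n / 2) ξ (R * ξ)))
          (li (src T n (uf k sN (n / 2) ξ))) (li (src T n (vf k sN (n / 2) ξ (R * ξ)))))| ≤
      eC a cf Cf ξ T R := by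
  have hξR : (0 : ℝ) < ξ := by exact_mod_cast hξ
  have hTR : (0 : ℝ) < T := Nat.cast_pos.2 (NeZero.pos T)
  have ht : (0 : ℝ) < 1 / (ξ : ℝ) ^ 2 := by positivity
  have hRR : (4 : ℝ) ≤ R := by exact_mod_cast hR
  have hE := H789.em_wt (N := T) hb ht
  set t := 1 / (ξ : ℝ) ^ 2 with htd
  set ρ := R * ξ with hρd
  have hρ4 : 4 * ξ ≤ ρ := Nat.mul_le_mul_right ξ hR
  set i0 := n / 2 with hi0
  have g1 : 3 * ρ < i0 := by omega
  have g2 : i0 + 3 * ρ < n := by omega
  -- the window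
  have hw := sym_win (H43.ti_Gcc (N := T) (b := b) (t := t) s)
    (fun x z => H612.Cc_nonneg hb ht _ x z) (em T k) (i0 := i0) (ξ := ξ) (ρ := ρ) (by omega)
    (by omega) (by omega)
  have htail := gc_tail (N := T) hb hξ (by omega) hcf hCf.le P.osc P.far s (R := R - 1) (by omega)
  have e1 : (R - 1) * ξ = ρ - ξ := by
    rw [Nat.sub_mul, one_mul]
  have e2 : (((R - 1 : ℕ) : ℝ) - 3) = (R : ℝ) - 4 := by
    rw [Nat.cast_sub (by omega)]
    push_cast
    ring
  rw [e1, e2] at htail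
  have hwf := win_bf (Gcc T b t s) hNT (i0 := i0) (ξ := ξ) (ρ := ρ) (n := n) (by omega) (by omega)
    (by omega) k
  set S := ∑ x ∈ Bx T i0 ξ, ∑ z ∈ Wx T i0 ρ, Gcc T b t s x z * cN (dt (em T k) (z - x)) with hS
  have h1 : |t * sym (Gcc T b t s) (em T k) - t ^ 2 * S| ≤
      kT Cf cf 1 * Real.exp (-(min cf 1 / 2 * (R - 4))) := by
    have e3 : t * sym (Gcc T b t s) (em T k) - t ^ 2 * S =
        t ^ 2 * ((ξ : ℝ) ^ 2 * sym (Gcc T b t s) (em T k) - S) := by
      rw [htd]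
      field_simp
    rw [e3, abs_mul, abs_of_nonneg (by positivity : (0 : ℝ) ≤ t ^ 2)]
    calc t ^ 2 * |(ξ : ℝ) ^ 2 * sym (Gcc T b t s) (em T k) - S| ≤
          t ^ 2 * ((ξ : ℝ) ^ 2 * (kT Cf cf 1 * Real.exp (-(min cf 1 / 2 * (R - 4))) *
            (ξ : ℝ) ^ 2)) :=
          mul_le_mul_of_nonneg_left (hw.trans (mul_le_mul_of_nonneg_left htail (by positivity)))
            (by positivity)
      _ = kT Cf cf 1 * Real.exp (-(min cf 1 / 2 * (R - 4))) := by
          rw [htd]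
          field_simp
  rw [← hwf] at h1
  unfold Gcc at h1
  rw [H789.bf_Cm hE, H789.bf_Cm hE] at h1
  -- the cut-off of the background
  have hj := src_jc (T := T) (n := n) (i0 := i0) (ξ := ξ) (ρ := ρ) (by omega) g1 g2 hn s
  rw [hj]
  have hL : (2 * ρ + 1 : ℝ) ≤ (3 * R : ℝ) * ξ := by
    have : 2 * ρ + 1 ≤ 3 * ρ := by omega
    have h5 : ((2 * ρ + 1 : ℕ) : ℝ) ≤ ((3 * ρ : ℕ) : ℝ) := by exact_mod_cast this
    push_cast at h5
    rw [hρd] at h5
    push_cast at h5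
    rw [hρd]
    push_cast
    linarith
  have hsu : ∀ (e : ZMod N → ℝ) (x : V T), src T n (uf k e i0 ξ) x ≠ 0 →
      sn (x - ctr T i0) ≤ R * ξ := by
    intro e x hx
    rw [src_uf (by omega) (by omega)] at hx
    by_cases hB : x ∈ Bx T i0 ξ
    · rw [mem_Bx] at hB
      have h5 : dB (cd (ctr T i0)) (cd x) ≤ ρ := by
        rw [cd_ctr (by omega), dB_le_iff]
        unfold cd
        simp only
        omega
      rw [sn_cd h5 (by omega)]
      exact h5
    · rw [if_neg hB] at hx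
      exact absurd rfl hx
  have hsv : ∀ (e : ZMod N → ℝ) (x : V T), src T n (vf k e i0 ξ ρ) x ≠ 0 →
      sn (x - ctr T i0) ≤ R * ξ := by
    intro e x hx
    rw [src_vf (by omega) (by omega)] at hx
    by_cases hB : x ∈ Wx T i0 ρ
    · rw [mem_Wx, ← cd_ctr (T := T) (i0 := i0) (by omega)] at hB
      rw [sn_cd hB (by omega)]
      exact hB
    · rw [if_neg hB] at hx
      exact absurd rfl hx
  have hcb : ∀ e : ZMod N → ℝ, (∀ a, |e a| ≤ 1) →
      |Cv (wt T b t) (fun _ => t * s) (li (src T n (uf k e i0 ξ)))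
          (li (src T n (vf k e i0 ξ ρ))) -
        Cv (wt T b t) (fun z => t * (s * chi (ctr T i0) ρ z)) (li (src T n (uf k e i0 ξ)))
          (li (src T n (vf k e i0 ξ ρ)))| ≤
        10 * (3 * R) * dl a Cf cf ξ T R * Real.exp ((tau0 a + 8) / 2) := by
    intro e he
    exact cv_bg2 hb hξ ha hy P.qu P.yN hCf P.far (ctr T i0) (by omega) hs (by positivity)
      (norm_uf hξ (by omega) (by omega) hn k he)
      (norm_vf hξ (by omega) (by omega) hn k he hL) (hsu e) (hsv e)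
  have h6 := abs_le.1 (hcb cN abs_cN_le)
  have h7 := abs_le.1 (hcb sN abs_sN_le)
  have h8 := abs_le.1 h1
  unfold eC
  unfold Gcc
  rw [abs_le]
  constructor <;> linarith [h6.1, h6.2, h7.1, h7.2, h8.1, h8.2]

end

end Vale.Agent.P159.H197
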