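import Vale.Agent.P159.H197.Nk6

/-!
P159 / second order flow, module NKT (helper197), part 7: two tori in the same constant background.
-/

open Finset MeasureTheory

set_option linter.unusedSectionVars false

namespace Vale.Agent.P159.H197

open Vale.Agent.P159.TM.H104
open Vale.Agent.P159.H37 (qf bf Gm Cm wt Tq)
open Vale.Agent.P159.TM.Spec (V GT)
open Vale.Agent.P159.TM.H764 (cN sN dt QU)
open Vale.Agent.P159.TM.H459 (sn sd ball)
open Vale.Agent.P159.TM.H705 (dB pt)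
open Vale.Agent.P159.H358 (src Wd Two err9q)
open Vale.Agent.P159.H864 (TI sym)
open Vale.Agent.P159.H43 (Gcc)
open Vale.Agent.P159.H733.Torg (em prj ip)

noncomputable section

variable {N M : ℕ} [NeZero N] [NeZero M] {b : ℝ} {hb : 0 ≤ b} {ξ : ℕ} {T n : ℕ} [NeZero T]
  {y a c C cf Cf : ℝ}

theorem em_self (k : V N) : em N k = k := by
  unfold H733.Torg.em ip
  rw [Nat.div_self (NeZero.pos N)]
  push_cast
  rw [one_mul, one_mul, ZMod.natCast_val, ZMod.natCast_val, ZMod.cast_id']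
  rfl

theorem norm_jc (hξ : 0 < ξ) {R : ℕ} (hR : 1 ≤ R) (hn1 : 16 * (R * ξ) ≤ n)
    (hn2 : 16 ≤ n) (hn : n ≤ T) {s : ℝ} (hs : |s| ≤ 1) :
    ∑ x : V T, src T n (jc s (n / 2) ξ (R * ξ)) x ^ 2 ≤ 49 * (R : ℝ) ^ 2 * (1 / (ξ : ℝ) ^ 2) := by
  have hξR : (0 : ℝ) < ξ := by exact_mod_cast hξ
  have hρ : 1 ≤ R * ξ := Nat.one_le_iff_ne_zero.2 (by positivity)
  have hj := src_jc (T := T) (n := n) (i0 := n / 2) (ξ := ξ) (ρ := R * ξ) hρ (by omega)
    (by omega) hn s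
  rw [hj]
  have h1 : ∀ x : V T, (1 / (ξ : ℝ) ^ 2 * (s * chi (ctr T (n / 2)) (R * ξ) x)) ^ 2 ≤
      if x ∈ ball (ctr T (n / 2)) (3 * (R * ξ)) then (1 / (ξ : ℝ) ^ 2) ^ 2 else 0 := by
    intro x
    split_ifs with hx
    · have a1 := tn_nonneg (R * ξ) (sn (x - ctr T (n / 2)))
      have a2 := tn_le_one (R * ξ) (sn (x - ctr T (n / 2)))
      have a3 : |s * chi (ctr T (n / 2)) (R * ξ) x| ≤ 1 := by
        unfold chi
        rw [abs_mul, abs_of_nonneg a1]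
        calc |s| * tn (R * ξ) (sn (x - ctr T (n / 2))) ≤ 1 * 1 :=
              mul_le_mul hs a2 a1 zero_le_one
          _ = 1 := one_mul 1
      have a4 : (s * chi (ctr T (n / 2)) (R * ξ) x) ^ 2 ≤ 1 := by
        rw [← sq_abs]
        exact pow_le_one₀ (abs_nonneg _) a3
      rw [mul_pow]
      calc (1 / (ξ : ℝ) ^ 2) ^ 2 * (s * chi (ctr T (n / 2)) (R * ξ) x) ^ 2 ≤
            (1 / (ξ : ℝ) ^ 2) ^ 2 * 1 := mul_le_mul_of_nonneg_left a4 (by positivity)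
        _ = (1 / (ξ : ℝ) ^ 2) ^ 2 := mul_one _
    · rw [TM.H459.mem_ball] at hx
      unfold sd at hx
      unfold chi
      rw [tn_zero hρ (by omega)]
      simp
  refine (Finset.sum_le_sum fun x _ => h1 x).trans ?_
  rw [Finset.sum_ite_mem, Finset.univ_inter, Finset.sum_const, nsmul_eq_mul]
  have h3 : ((ball (ctr T (n / 2)) (3 * (R * ξ))).card : ℝ) ≤ 49 * ((R : ℝ) * ξ) ^ 2 := by
    have h4 := TM.H459.card_ball_le (ctr T (n / 2)) (3 * (R * ξ))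
    have h5 : (2 * (3 * (R * ξ)) + 1) ^ 2 ≤ 49 * (R * ξ) ^ 2 := by nlinarith
    exact_mod_cast h4.trans h5
  calc ((ball (ctr T (n / 2)) (3 * (R * ξ))).card : ℝ) * (1 / (ξ : ℝ) ^ 2) ^ 2 ≤
        49 * ((R : ℝ) * ξ) ^ 2 * (1 / (ξ : ℝ) ^ 2) ^ 2 :=
        mul_le_mul_of_nonneg_right h3 (by positivity)
    _ = 49 * (R : ℝ) ^ 2 * (1 / (ξ : ℝ) ^ 2) := by field_simp

theorem lam_le (hb : 0 ≤ b) (hξ : 0 < ξ) {R : ℕ} (hR : 4 ≤ R) (hn1 : 16 * (R * ξ) ≤ n)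
    (hn : n ≤ T) (k : V N) {e : ZMod N → ℝ} (he : ∀ a, |e a| ≤ 1) {s : ℝ} (hs : |s| ≤ 1)
    (p q : ℝ) (hp : |p| ≤ 2) (hq : |q| = 1) :
    Lg (wt T b (1 / (ξ : ℝ) ^ 2)) ((2 : ℝ) • (src T n (jc s (n / 2) ξ (R * ξ)) +
      p • (src T n (uf k e (n / 2) ξ) + q • src T n (vf k e (n / 2) ξ (R * ξ))))) -
      Lg (wt T b (1 / (ξ : ℝ) ^ 2)) 0 ≤ 516 * (R : ℝ) ^ 2 := by
  have hξR : (0 : ℝ) < ξ := by exact_mod_cast hξ
  have ht : (0 : ℝ) < 1 / (ξ : ℝ) ^ 2 := by positivity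
  have hRR : (4 : ℝ) ≤ R := by exact_mod_cast hR
  have hRξ : 4 * ξ ≤ R * ξ := Nat.mul_le_mul_right ξ hR
  have h1 := norm_jc (T := T) hξ (by omega) hn1 (by omega) hn hs
  have h2 := norm_uf (T := T) (n := n) (i0 := n / 2) hξ (by omega) (by omega) hn k he
  have hL : (2 * ((R * ξ : ℕ) : ℝ) + 1) ≤ (3 * R : ℝ) * ξ := by
    have : 2 * (R * ξ) + 1 ≤ 3 * (R * ξ) := by omega
    have h5 : ((2 * (R * ξ) + 1 : ℕ) : ℝ) ≤ ((3 * (R * ξ) : ℕ) : ℝ) := by exact_mod_cast this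
    push_cast at h5 ⊢
    linarith
  have h3 := norm_vf (T := T) (n := n) (i0 := n / 2) (ρ := R * ξ) hξ (by omega) (by omega) hn k he
    hL
  set t := 1 / (ξ : ℝ) ^ 2 with htd
  set j := src T n (jc s (n / 2) ξ (R * ξ)) with hj
  set u := src T n (uf k e (n / 2) ξ) with hu
  set v := src T n (vf k e (n / 2) ξ (R * ξ)) with hv
  have hp2 : p ^ 2 ≤ 4 := by
    rw [← sq_abs]
    nlinarith [abs_nonneg p]
  have hq2 : q ^ 2 = 1 := by rw [← sq_abs, hq, one_pow]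
  have h4 : ∑ x, ((2 : ℝ) • (j + p • (u + q • v))) x ^ 2 ≤
      12 * (∑ x, j x ^ 2 + 4 * ∑ x, u x ^ 2 + 4 * ∑ x, v x ^ 2) := by
    have e1 : 12 * (∑ x, j x ^ 2 + 4 * ∑ x, u x ^ 2 + 4 * ∑ x, v x ^ 2) =
        ∑ x, (12 * j x ^ 2 + 48 * u x ^ 2 + 48 * v x ^ 2) := by
      rw [Finset.sum_add_distrib, Finset.sum_add_distrib, ← Finset.mul_sum, ← Finset.mul_sum,
        ← Finset.mul_sum]
      ring
    rw [e1]
    refine Finset.sum_le_sum fun x _ => ?_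
    simp only [Pi.smul_apply, Pi.add_apply, smul_eq_mul]
    have k1 : (j x + p * (u x + q * v x)) ^ 2 ≤
        3 * (j x ^ 2 + (p * u x) ^ 2 + (p * q * v x) ^ 2) := by
      nlinarith [sq_nonneg (j x - p * u x), sq_nonneg (j x - p * q * v x),
        sq_nonneg (p * u x - p * q * v x)]
    have k2 : (p * u x) ^ 2 ≤ 4 * u x ^ 2 := by
      rw [mul_pow]
      exact mul_le_mul_of_nonneg_right hp2 (sq_nonneg _)
    have k3 : (p * q * v x) ^ 2 ≤ 4 * v x ^ 2 := by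
      rw [mul_pow, mul_pow, hq2, mul_one]
      exact mul_le_mul_of_nonneg_right hp2 (sq_nonneg _)
    calc (2 * (j x + p * (u x + q * v x))) ^ 2 = 4 * (j x + p * (u x + q * v x)) ^ 2 := by ring
      _ ≤ 12 * j x ^ 2 + 48 * u x ^ 2 + 48 * v x ^ 2 := by linarith
  refine (lg_sub (N := T) hb ht _).trans ?_
  rw [div_le_iff₀ (by positivity)]
  refine h4.trans ?_
  have h6 : (3 * (R : ℝ)) ^ 2 * t = 9 * (R : ℝ) ^ 2 * t := by ring
  rw [h6] at h3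
  have h7 : 4 * t ≤ (R : ℝ) ^ 2 * t := mul_le_mul_of_nonneg_right (by nlinarith) ht.le
  nlinarith

/-- the error of the comparison of two tori -/
def eTT (a c C cf Cf : ℝ) (ξ N M R : ℕ) : ℝ :=
  eC a cf Cf ξ N R + eC a cf Cf ξ M R +
    120 * (1 + 4 * Real.sqrt C * (6 * R + 1) ^ 2) * Real.exp (1548 * (R : ℝ) ^ 2) *
      Real.exp (-(c * (N / 8 : ℕ) / (12 * ξ)))

/-- **two tori, one constant background, all momenta of the smaller torus** -/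
theorem two_torus (hξ : 0 < ξ) (ha : 0 ≤ a) (hy : 0 ≤ y) (hC : 0 < C) (hcf : 0 < cf)
    (hCf : 0 < Cf) (P : PkT N b hb ξ y a c C cf Cf) (P' : PkT M b hb ξ y a c C cf Cf)
    (hNM : N ∣ M) {R : ℕ} (hR : 4 ≤ R) (hn1 : 16 * (R * ξ) ≤ N) (hr : (N : ℝ) * y ≤ c * ξ)
    (k : V N) {s : ℝ} (hs : |s| ≤ 1) :
    |1 / (ξ : ℝ) ^ 2 * sym (Gcc N b (1 / (ξ : ℝ) ^ 2) s) k -
      1 / (ξ : ℝ) ^ 2 * sym (Gcc M b (1 / (ξ : ℝ) ^ 2) s) (em M k)| ≤
      eTT a c C cf Cf ξ N M R := by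
  have hM : N ≤ M := Nat.le_of_dvd (NeZero.pos M) hNM
  have hRξ : 4 * ξ ≤ R * ξ := Nat.mul_le_mul_right ξ hR
  have hξR : (0 : ℝ) < ξ := by exact_mod_cast hξ
  have o1 := one_torus (T := N) (n := N) hξ ha hy hcf hCf P dvd_rfl hR hn1 le_rfl k hs
  have o2 := one_torus (T := M) (n := N) hξ ha hy hcf hCf P' hNM hR hn1 hM k hs
  rw [em_self] at o1
  have hrN : ((N / 8 : ℕ) : ℝ) ≤ N := by exact_mod_cast Nat.div_le_self N 8
  have hny : ((N / 8 : ℕ) : ℝ) * y ≤ c * ξ := (mul_le_mul_of_nonneg_right hrN hy).trans hr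
  have H : Two N M b hb ξ y y c C (grid (N / 2) ξ R) (N / 8) N :=
    { hξ := hξ, hC := hC, hT := P.hA, hT' := P'.hA, hr := by omega, hny := hny, hny' := hny
      hI := fun p hp => by
        have := grid_in (ξ := ξ) (by omega) hp
        omega
      hn := le_rfl, hn' := hM }
  have hcard : ((grid (N / 2) ξ R).card : ℝ) ≤ (6 * (R : ℝ) + 1) ^ 2 := by
    have := card_grid (N / 2) ξ R
    exact_mod_cast this
  have key : ∀ e : ZMod N → ℝ, (∀ a, |e a| ≤ 1) →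
      |Cv (wt N b (1 / (ξ : ℝ) ^ 2)) (src N N (jc s (N / 2) ξ (R * ξ)))
          (li (src N N (uf k e (N / 2) ξ))) (li (src N N (vf k e (N / 2) ξ (R * ξ)))) -
        Cv (wt M b (1 / (ξ : ℝ) ^ 2)) (src M N (jc s (N / 2) ξ (R * ξ)))
          (li (src M N (uf k e (N / 2) ξ))) (li (src M N (vf k e (N / 2) ξ (R * ξ))))| ≤
        60 * (1 + 4 * Real.sqrt C * (6 * R + 1) ^ 2) * Real.exp (1548 * (R : ℝ) ^ 2) *
          Real.exp (-(c * (N / 8 : ℕ) / (12 * ξ))) := by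
    intro e he
    have h1 := H358.loc9q_cv H (A := 1) (Λ := 516 * (R : ℝ) ^ 2) zero_le_one
      (wd_jc hξ (by omega) (by omega) hs) (wd_uf hξ (by omega) (by omega) k he)
      (wd_vf hξ (by omega) k he)
      (fun p q hp hq => lam_le hb hξ hR hn1 le_rfl k he hs p q hp hq)
      (fun p q hp hq => lam_le hb hξ hR hn1 hM k he hs p q hp hq)
    refine h1.trans ?_
    unfold err9q
    have e1 : (3 : ℝ) * (516 * (R : ℝ) ^ 2) = 1548 * (R : ℝ) ^ 2 := by ring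
    rw [e1]
    refine mul_le_mul_of_nonneg_right ?_ (Real.exp_pos _).le
    refine mul_le_mul_of_nonneg_right ?_ (Real.exp_pos _).le
    have h2 : 2 * Real.sqrt C * (2 * 1) * ((grid (N / 2) ξ R).card : ℝ) ≤
        4 * Real.sqrt C * (6 * (R : ℝ) + 1) ^ 2 := by
      have h3 := mul_le_mul_of_nonneg_left hcard
        (by positivity : (0 : ℝ) ≤ 4 * Real.sqrt C)
      linarith
    linarith
  have k1 := abs_le.1 (key cN abs_cN_le)
  have k2 := abs_le.1 (key sN abs_sN_le)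
  have a1 := abs_le.1 o1
  have a2 := abs_le.1 o2
  unfold eTT
  rw [abs_le]
  constructor <;> linarith [a1.1, a1.2, a2.1, a2.2, k1.1, k1.2, k2.1, k2.2]

end

end Vale.Agent.P159.H197
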