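import Vale.Agent.P159.H197.Nk7

/-!
P159 / second order flow, module NKT (helper197), part 8: the average over the constant
backgrounds. The averaging density is `1 + O(ω)` and the symbols oscillate by `O(ω)`: the neutral
symbols of the two tori differ by the exponentially small error plus `O(ω²)`.
-/

open Finset MeasureTheory

set_option linter.unusedSectionVars false

namespace Vale.Agent.P159.H197

open Vale.Agent.P159.TM.H104
open Vale.Agent.P159.H37 (qf bf Gm Cm wt Tq)
open Vale.Agent.P159.TM.SpecC (wT)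
open Vale.Agent.P159.TM.Spec (V GT)
open Vale.Agent.P159.TM.H764 (cN sN dt QU)
open Vale.Agent.P159.H864 (TI sym)
open Vale.Agent.P159.H963 (GW MF Zc gw_wT mf_smul Gnh)
open Vale.Agent.P159.H612 (ZC GA pav pv)
open Vale.Agent.P159.H145 (OscZ)
open Vale.Agent.P159.H43 (Gcc)
open Vale.Agent.P159.H733.Torg (em prj ip)

noncomputable section

section av

variable {V' : Type} [Fintype V'] [DecidableEq V'] [Nonempty V'] {w : (V' → ℤ) → ℝ}
  {M' : Matrix V' V' ℝ} {m : ℝ}

/-- the weighted average and the plain average -/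
theorem pav_sub_int (hw : GW w) (hM : MF M' m) {f : ℝ → ℝ} (hf : Continuous f) {η D f0 : ℝ}
    (hη0 : 0 ≤ η)
    (hη : ∀ c, |Zc w M' m 0 c / (∫ c in (0 : ℝ)..1, Zc w M' m 0 c) - 1| ≤ η)
    (hD : ∀ c ∈ Set.Icc (0 : ℝ) 1, |f c - f0| ≤ D) :
    |pav w M' m f - ∫ c in (0 : ℝ)..1, f c| ≤ η * D := by
  have hI := H612.int_Zc_pos hw hM
  set I := ∫ c in (0 : ℝ)..1, Zc w M' m 0 c with hId
  have hc := H612.Zc_cont hw hM
  have e : pav w M' m f - ∫ c in (0 : ℝ)..1, f c =
      ∫ c in (0 : ℝ)..1, (Zc w M' m 0 c / I - 1) * (f c - f0) := by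
    have e1 : ∀ c, (Zc w M' m 0 c / I - 1) * (f c - f0) =
        (1 / I * (Zc w M' m 0 c * f c) - f c) + (f0 - f0 / I * Zc w M' m 0 c) := by
      intro c
      ring
    simp only [e1]
    rw [intervalIntegral.integral_add, intervalIntegral.integral_sub,
      intervalIntegral.integral_sub, intervalIntegral.integral_const_mul,
      intervalIntegral.integral_const_mul, intervalIntegral.integral_const, ← hId]
    · unfold pav
      rw [← hId]
      have e2 : f0 / I * I = f0 := div_mul_cancel₀ f0 hI.ne'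
      rw [e2]
      simp only [smul_eq_mul]
      ring
    · exact continuous_const.intervalIntegrable 0 1
    · exact (continuous_const.mul hc).intervalIntegrable 0 1
    · exact (continuous_const.mul (hc.mul hf)).intervalIntegrable 0 1
    · exact hf.intervalIntegrable 0 1
    · exact ((continuous_const.mul (hc.mul hf)).sub hf).intervalIntegrable 0 1
    · exact (continuous_const.sub (continuous_const.mul hc)).intervalIntegrable 0 1
  rw [e]
  have h := intervalIntegral.norm_integral_le_of_norm_le_const (a := (0 : ℝ)) (b := 1)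
    (f := fun c => (Zc w M' m 0 c / I - 1) * (f c - f0)) (C := η * D) (fun c hc' => by
      rw [Set.uIoc_of_le zero_le_one] at hc'
      rw [Real.norm_eq_abs, abs_mul]
      exact mul_le_mul (hη c) (hD c ⟨hc'.1.le, hc'.2⟩) (abs_nonneg _) hη0)
  rw [Real.norm_eq_abs] at h
  simpa using h

end av

variable {N : ℕ} [NeZero N] {b t : ℝ}

theorem zc_ratio (hb : 0 ≤ b) (ht : 0 < t) {δ : ℝ} (hδ1 : δ ≤ 1)
    (hδ : ∀ u v : ℝ, Real.log (ZC N b t u) - Real.log (ZC N b t v) ≤ δ) (c : ℝ) :
    |ZC N b t c / (∫ c in (0 : ℝ)..1, ZC N b t c) - 1| ≤ 2 * δ := by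
  have hδ0 : 0 ≤ δ := by
    have := hδ 0 0
    linarith
  have hI : 0 < ∫ c in (0 : ℝ)..1, ZC N b t c :=
    H612.int_Zc_pos (gw_wT (N := N) hb) (mf_smul ht)
  have hcont := H612.cont_ZC (N := N) hb ht
  have h1 : ∀ u v, ZC N b t u ≤ Real.exp δ * ZC N b t v := by
    intro u v
    have hu := H612.ZC_pos (N := N) hb ht u
    have hv := H612.ZC_pos (N := N) hb ht v
    rw [← Real.log_le_log_iff hu (mul_pos (Real.exp_pos _) hv),
      Real.log_mul (Real.exp_pos _).ne' hv.ne', Real.log_exp]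
    linarith [hδ u v]
  have h2 : ZC N b t c ≤ Real.exp δ * ∫ c in (0 : ℝ)..1, ZC N b t c := by
    have h3 := intervalIntegral.integral_mono_on (μ := volume) (a := 0) (b := 1)
      (f := fun _ => ZC N b t c) (g := fun v => Real.exp δ * ZC N b t v) zero_le_one
      (continuous_const.intervalIntegrable 0 1)
      ((continuous_const.mul hcont).intervalIntegrable 0 1) fun v _ => h1 c v
    rw [intervalIntegral.integral_const, intervalIntegral.integral_const_mul] at h3
    simpa using h3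
  have h4 : (∫ c in (0 : ℝ)..1, ZC N b t c) ≤ Real.exp δ * ZC N b t c := by
    have h3 := intervalIntegral.integral_mono_on (μ := volume) (a := 0) (b := 1)
      (f := fun v => ZC N b t v) (g := fun _ => Real.exp δ * ZC N b t c) zero_le_one
      (hcont.intervalIntegrable 0 1) (continuous_const.intervalIntegrable 0 1) fun v _ => h1 v c
    rw [intervalIntegral.integral_const] at h3
    simpa using h3
  have h5 : Real.exp δ - 1 ≤ 2 * δ := by
    have h6 := Real.abs_exp_sub_one_le (x := δ) (by rw [abs_of_nonneg hδ0]; exact hδ1)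
    rw [abs_of_nonneg hδ0] at h6
    exact (le_abs_self _).trans h6
  set I := ∫ c in (0 : ℝ)..1, ZC N b t c with hId
  have h6 : ZC N b t c / I ≤ Real.exp δ := by
    rw [div_le_iff₀ hI]
    exact h2
  have h7 : Real.exp (-δ) ≤ ZC N b t c / I := by
    rw [le_div_iff₀ hI, Real.exp_neg]
    rw [inv_mul_le_iff₀ (Real.exp_pos _)]
    exact h4
  have h8 : 1 - δ ≤ Real.exp (-δ) := by
    have := Real.add_one_le_exp (-δ)
    linarith
  rw [abs_le]
  constructor <;> linarith

/-- the neutral symbol is the average of the symbols in the constant backgrounds -/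
theorem sym_GA_pv (hb : 0 ≤ b) (ht : 0 < t) (k : V N) :
    sym (GA N b t) k = pv N b t fun c => sym (Gcc N b t c) k := by
  have hw := gw_wT (N := N) hb
  have hM := mf_smul (N := N) ht
  have e1 : (fun c => sym (Gcc N b t c) k) =
      fun c => ∑ z, cN (dt k z) * Cm (wt N b t) (fun _ => t * c) 0 z := by
    funext c
    rw [H864.sym_def]
    exact Finset.sum_congr rfl fun z _ => mul_comm _ _
  rw [e1]
  unfold pv
  rw [H612.pav_sum hw hM univ (f := fun z c => cN (dt k z) * Cm (wt N b t) (fun _ => t * c) 0 z)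
    fun z _ => continuous_const.mul (H612.cont_Cmc hw hM 0 z)]
  rw [H864.sym_def]
  refine Finset.sum_congr rfl fun z _ => ?_
  rw [H612.pav_cmul, mul_comm]
  rfl

theorem cont_symG (hb : 0 ≤ b) (ht : 0 < t) (k : V N) :
    Continuous fun c => sym (Gcc N b t c) k := by
  have hw := gw_wT (N := N) hb
  have hM := mf_smul (N := N) ht
  have e1 : (fun c => sym (Gcc N b t c) k) =
      fun c => ∑ z, Cm (wt N b t) (fun _ => t * c) 0 z * cN (dt k z) := by
    funext c
    rw [H864.sym_def]
    rfl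
  rw [e1]
  exact continuous_finsetSum _ fun z _ => (H612.cont_Cmc hw hM 0 z).mul continuous_const

/-- **weighted and plain average of the symbols differ by `O(ω²)`** -/
theorem ga_int (hb : 0 ≤ b) (ht : 0 < t) {ω : ℝ} (hω0 : 0 ≤ ω) (hω : ω ≤ 1 / 4)
    (hO : OscZ (wT b N) ((2 * t) • (1 : Matrix (V N) (V N) ℝ)) ω)
    (hO' : OscZ (wT b N) (t • (1 : Matrix (V N) (V N) ℝ)) ω) {k : V N} (hk : k ≠ 0) :
    |t * sym (GA N b t) k - ∫ c in (0 : ℝ)..1, t * sym (Gcc N b t c) k| ≤ 56 * ω ^ 2 := by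
  have hw := gw_wT (N := N) hb
  have hM := mf_smul (N := N) ht
  have hosc := H612.osc_ZC (N := N) hb ht hO' (by linarith)
  have hη := zc_ratio (N := N) hb ht (δ := 4 * ω) (by linarith) hosc
  have hD : ∀ c ∈ Set.Icc (0 : ℝ) 1, |sym (Gcc N b t c) k - Gnh N b t k| ≤ 7 * ω / t := by
    intro c hc
    refine (H43.sym_const_le hb ht hO hω0 hO' (by linarith) hk hc).trans ?_
    refine div_le_div_of_nonneg_right ?_ ht.le
    rw [div_le_iff₀ (by linarith)]
    nlinarith
  have h1 := pav_sub_int hw hM (cont_symG (N := N) hb ht k) (η := 2 * (4 * ω)) (by positivity) hη hD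
  have e1 : pav (wT b N) (t • (1 : Matrix (V N) (V N) ℝ)) t (fun c => sym (Gcc N b t c) k) =
      sym (GA N b t) k := (sym_GA_pv hb ht k).symm
  rw [e1] at h1
  rw [intervalIntegral.integral_const_mul, ← mul_sub, abs_mul, abs_of_pos ht]
  calc t * |sym (GA N b t) k - ∫ c in (0 : ℝ)..1, sym (Gcc N b t c) k| ≤
        t * (2 * (4 * ω) * (7 * ω / t)) := mul_le_mul_of_nonneg_left h1 ht.le
    _ = 56 * ω ^ 2 := by
        field_simp
        ring

variable {M : ℕ} [NeZero M]

theorem em_ne {k : V N} (h : N ∣ M) (hk : k ≠ 0) : em M k ≠ 0 := by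
  intro h0
  obtain ⟨R, hR⟩ := h
  have hN : 0 < N := NeZero.pos N
  have hM : 0 < M := NeZero.pos M
  have hR0 : 0 < R := Nat.pos_of_ne_zero fun h1 => by
    rw [h1, mul_zero] at hR
    omega
  have key : ∀ p : ZMod N, (((M / N : ℕ) * ((p.val : ℕ) : ℤ) : ℤ) : ZMod M) = 0 → p = 0 := by
    intro p hp
    have e1 : M / N = R := by rw [hR, Nat.mul_div_cancel_left R hN]
    have e2 : (((M / N : ℕ) * ((p.val : ℕ) : ℤ) : ℤ) : ZMod M) = ((R * p.val : ℕ) : ZMod M) := by
      rw [e1]
      push_cast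
      rfl
    rw [e2, ZMod.natCast_eq_zero_iff, hR, mul_comm N R] at hp
    have h2 := Nat.dvd_of_mul_dvd_mul_left hR0 hp
    have h3 := Nat.eq_zero_of_dvd_of_lt h2 (ZMod.val_lt p)
    exact (ZMod.val_eq_zero p).1 h3
  unfold H733.Torg.em ip at h0
  rw [Prod.mk_eq_zero] at h0
  exact hk (Prod.ext (key _ h0.1) (key _ h0.2))

/-- **comparison of the neutral symbols**, abstract form: from the comparison in every constant
background -/
theorem nkt_of (hb : 0 ≤ b) (ht : 0 < t) (hNM : N ∣ M) {ω e : ℝ} (hω0 : 0 ≤ ω) (hω : ω ≤ 1 / 4)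
    (hO : OscZ (wT b N) ((2 * t) • (1 : Matrix (V N) (V N) ℝ)) ω)
    (hO' : OscZ (wT b N) (t • (1 : Matrix (V N) (V N) ℝ)) ω)
    (hO2 : OscZ (wT b M) ((2 * t) • (1 : Matrix (V M) (V M) ℝ)) ω)
    (hO2' : OscZ (wT b M) (t • (1 : Matrix (V M) (V M) ℝ)) ω) {k : V N} (hk : k ≠ 0)
    (he : ∀ c ∈ Set.Icc (0 : ℝ) 1,
      |t * sym (Gcc N b t c) k - t * sym (Gcc M b t c) (em M k)| ≤ e) :
    |t * sym (GA N b t) k - t * sym (GA M b t) (em M k)| ≤ e + 112 * ω ^ 2 := by
  have h1 := ga_int (N := N) hb ht hω0 hω hO hO' hk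
  have h2 := ga_int (N := M) hb ht hω0 hω hO2 hO2' (em_ne hNM hk)
  have c1 : Continuous fun c => t * sym (Gcc N b t c) k :=
    continuous_const.mul (cont_symG hb ht k)
  have c2 : Continuous fun c => t * sym (Gcc M b t c) (em M k) :=
    continuous_const.mul (cont_symG hb ht _)
  have h3 : |(∫ c in (0 : ℝ)..1, t * sym (Gcc N b t c) k) -
      ∫ c in (0 : ℝ)..1, t * sym (Gcc M b t c) (em M k)| ≤ e := by
    rw [← intervalIntegral.integral_sub (c1.intervalIntegrable 0 1) (c2.intervalIntegrable 0 1)]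
    have h := intervalIntegral.norm_integral_le_of_norm_le_const (a := (0 : ℝ)) (b := 1)
      (f := fun c => t * sym (Gcc N b t c) k - t * sym (Gcc M b t c) (em M k)) (C := e)
      (fun c hc' => by
        rw [Set.uIoc_of_le zero_le_one] at hc'
        rw [Real.norm_eq_abs]
        exact he c ⟨hc'.1.le, hc'.2⟩)
    rw [Real.norm_eq_abs] at h
    simpa using h
  have a1 := abs_le.1 h1
  have a2 := abs_le.1 h2
  have a3 := abs_le.1 h3
  rw [abs_le]
  constructor <;> linarith [a1.1, a1.2, a2.1, a2.2, a3.1, a3.2]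

/-- the embedding of the momenta in natural indices -/
theorem em_nat {R : ℕ} (h : M = N * R) (p q : ℕ) :
    em M (((p : ZMod N), (q : ZMod N)) : V N) = (((p * R : ℕ) : ZMod M), ((q * R : ℕ) : ZMod M)) := by
  have hN : 0 < N := NeZero.pos N
  have key : ∀ p : ℕ, (((M / N : ℕ) * (((p : ZMod N).val : ℕ) : ℤ) : ℤ) : ZMod M) =
      ((p * R : ℕ) : ZMod M) := by
    intro p
    have e1 : M / N = R := by rw [h, Nat.mul_div_cancel_left R hN]
    rw [e1, ZMod.val_natCast]
    have e2 : (((R : ℕ) : ℤ) * ((p % N : ℕ) : ℤ) : ℤ) = ((p % N * R : ℕ) : ℤ) := by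
      push_cast
      ring
    rw [e2, Int.cast_natCast, ZMod.natCast_eq_natCast_iff, Nat.ModEq, h, Nat.mul_mod_mul_right,
      Nat.mul_mod_mul_right, Nat.mod_mod]
  unfold H733.Torg.em ip
  rw [Prod.mk.injEq]
  exact ⟨key p, key q⟩

end

end Vale.Agent.P159.H197
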