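import Vale.Agent.P159.H197.Nk8
import Vale.Agent.P159.TM.H352.ThmA
import Vale.Agent.P159.H789.LgD

/-!
P159 / second order flow, module NKT (helper197), part 9: **NKT**. For `N ∣ M`, `t = ξ⁻²`, the
symbols of the covariance in a constant background agree on the common momenta up to
`ξ² C (M/ξ)² exp (- c √(N/ξ))`; the neutral symbols agree up to this plus `112 ω² ξ²`.
-/

open Finset MeasureTheory

set_option linter.unusedSectionVars false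

namespace Vale.Agent.P159.H197

open Vale.Agent.P159.TM.H104
open Vale.Agent.P159.H37 (qf bf Gm Cm wt Tq Rs)
open Vale.Agent.P159.TM.SpecC (wT)
open Vale.Agent.P159.TM.Spec (V GT Rng)
open Vale.Agent.P159.TM.H764 (cN sN dt QU grd Q)
open Vale.Agent.P159.H864 (TI sym)
open Vale.Agent.P159.H963 (Gnh)
open Vale.Agent.P159.H612 (ZC GA)
open Vale.Agent.P159.H145 (OscZ)
open Vale.Agent.P159.H43 (Gcc)
open Vale.Agent.P159.H733.Torg (em prj ip)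

noncomputable section

/-! ### numbers -/

theorem dl_le {a cf Cf : ℝ} (hCf : 0 < Cf) {ξ T R : ℕ} (hξ : 0 < ξ) (hT : ξ ≤ T) :
    dl a Cf cf ξ T R ≤
      (Real.exp (tau0 a / 2) * 2 * Cf + 1) * ((T : ℝ) / ξ) * Real.exp (-(cf * R / 3)) := by
  have hξR : (0 : ℝ) < ξ := by exact_mod_cast hξ
  have hq : (1 : ℝ) ≤ (T : ℝ) / ξ := by
    rw [one_le_div hξR]
    exact_mod_cast hT
  set q := (T : ℝ) / ξ with hqd
  set A := Real.exp (tau0 a / 2) * 2 * Cf with hA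
  have hA0 : 0 < A := by positivity
  have hE : Real.exp (-(cf * R)) = Real.exp (-(cf * R / 3)) ^ 3 := by
    rw [← Real.exp_nat_mul]
    congr 1
    push_cast
    ring
  have h1 : Real.exp (tau0 a / 2) * 2 * q * (Cf * Real.exp (-(cf * R))) ≤
      ((A + 1) * q * Real.exp (-(cf * R / 3))) ^ 3 := by
    have e1 : Real.exp (tau0 a / 2) * 2 * q * (Cf * Real.exp (-(cf * R))) =
        A * q * Real.exp (-(cf * R / 3)) ^ 3 := by
      rw [hE, hA]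
      ring
    have e2 : ((A + 1) * q * Real.exp (-(cf * R / 3))) ^ 3 =
        (A + 1) ^ 3 * q ^ 3 * Real.exp (-(cf * R / 3)) ^ 3 := by ring
    rw [e1, e2]
    refine mul_le_mul_of_nonneg_right ?_ (by positivity)
    have h2 : A ≤ (A + 1) ^ 3 := by nlinarith [sq_nonneg A]
    have h3 : q ≤ q ^ 3 := by
      have : q ^ 1 ≤ q ^ 3 := pow_le_pow_right₀ hq (by norm_num)
      simpa using this
    exact mul_le_mul h2 h3 (by positivity) (by positivity)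
  unfold dl
  calc (Real.exp (tau0 a / 2) * 2 * ((T : ℝ) / ξ) * (Cf * Real.exp (-(cf * R)))) ^ ((1 : ℝ) / 3) ≤
        (((A + 1) * q * Real.exp (-(cf * R / 3))) ^ 3) ^ ((1 : ℝ) / 3) :=
        Real.rpow_le_rpow (by positivity) h1 (by norm_num)
    _ = (A + 1) * q * Real.exp (-(cf * R / 3)) := by
        rw [← Real.rpow_natCast, ← Real.rpow_mul (by positivity)]
        norm_num

/-- the parameter `ε` and its properties -/
theorem eps_ex {c : ℝ} (hc : 0 < c) : ∃ ε : ℝ, 0 < ε ∧ ε ^ 2 ≤ c / 360000 ∧ ε ≤ 1 / 600 := by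
  have hm10 : 0 < min c 1 := lt_min hc one_pos
  refine ⟨√(min c 1) / 600, by positivity, ?_, ?_⟩
  · rw [div_pow, Real.sq_sqrt hm10.le]
    have : min c 1 ≤ c := min_le_left _ _
    linarith
  · have : √(min c 1) ≤ 1 := Real.sqrt_le_one.2 (min_le_right _ _)
    linarith

theorem num1 {cf c1 ε x R : ℝ} (hcf : 0 < cf) (hx : 0 ≤ x) (h1 : c1 ≤ cf * ε / 3)
    (hR : ε * x - 1 < R) :
    Real.exp (-(cf * R / 3)) ≤ Real.exp (cf / 3) * Real.exp (-(c1 * x)) := by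
  rw [← Real.exp_add]
  refine Real.exp_le_exp.2 ?_
  have h2 := mul_le_mul_of_nonneg_right h1 hx
  have h3 : cf / 3 * (ε * x) ≤ cf / 3 * (R + 1) :=
    mul_le_mul_of_nonneg_left (by linarith) (by positivity)
  linarith

theorem num2 {m2 c1 ε x R : ℝ} (hm : 0 < m2) (hm1 : m2 ≤ 1) (hx : 0 ≤ x)
    (h1 : c1 ≤ m2 / 2 * ε) (hR : ε * x - 1 < R) :
    Real.exp (-(m2 / 2 * (R - 4))) ≤ Real.exp (5 / 2) * Real.exp (-(c1 * x)) := by
  rw [← Real.exp_add]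
  refine Real.exp_le_exp.2 ?_
  have h2 := mul_le_mul_of_nonneg_right h1 hx
  have h3 : m2 / 2 * (ε * x) ≤ m2 / 2 * (R + 1) :=
    mul_le_mul_of_nonneg_left (by linarith) (by positivity)
  linarith

theorem num3 {c c1 m R : ℝ} {N ξ : ℕ} (hc : 0 < c) (hξ : 0 < ξ) (hm : m = (N : ℝ) / ξ)
    (hx : √m ≤ m) (h1 : c1 ≤ c / 192) (hR : R ^ 2 ≤ c / 360000 * m) :
    Real.exp (1548 * R ^ 2) * Real.exp (-(c * (N / 8 : ℕ) / (12 * ξ))) ≤
      Real.exp (c / 12) * Real.exp (-(c1 * √m)) := by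
  have hξR : (0 : ℝ) < ξ := by exact_mod_cast hξ
  have hm0 : 0 ≤ m := (Real.sqrt_nonneg m).trans hx
  rw [← Real.exp_add, ← Real.exp_add]
  refine Real.exp_le_exp.2 ?_
  have h2 := mul_le_mul_of_nonneg_right h1 (Real.sqrt_nonneg m)
  have h3 : c / 192 * √m ≤ c / 192 * m := mul_le_mul_of_nonneg_left hx (by positivity)
  have h9 : m / 8 - 1 ≤ ((N / 8 : ℕ) : ℝ) / ξ := by
    have h10 : (N : ℝ) / 8 - 1 ≤ ((N / 8 : ℕ) : ℝ) := by
      have h11 : N < 8 * (N / 8) + 8 := by omega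
      have h12 : (N : ℝ) < 8 * ((N / 8 : ℕ) : ℝ) + 8 := by exact_mod_cast h11
      linarith
    rw [le_div_iff₀ hξR]
    have h13 : (m / 8 - 1) * ξ = (N : ℝ) / 8 - ξ := by
      rw [hm]
      field_simp
    have h14 : (1 : ℝ) ≤ ξ := by exact_mod_cast hξ
    linarith
  have h15 : c * ((N / 8 : ℕ) : ℝ) / (12 * ξ) = c / 12 * (((N / 8 : ℕ) : ℝ) / ξ) := by
    field_simp
  have h16 := mul_le_mul_of_nonneg_left h9 (by positivity : (0 : ℝ) ≤ c / 12)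
  have hcm : 0 ≤ c * m := by positivity
  rw [h15]
  linarith

theorem num4 {a cf Cf q E R : ℝ} {ξ T : ℕ} {R' : ℕ} (hRR : R = R') (hcf : 0 < cf)
    (hCf : 0 < Cf) (hξ : 0 < ξ) (hT : ξ ≤ T) (hTq : (T : ℝ) / ξ ≤ q) (hRq : R ≤ q) (hq : 1 ≤ q)
    (hE : 0 ≤ E) (t1 : Real.exp (-(cf * R / 3)) ≤ Real.exp (cf / 3) * E)
    (t2 : Real.exp (-(min cf 1 / 2 * (R - 4))) ≤ Real.exp (5 / 2) * E) :
    eC a cf Cf ξ T R' ≤
      (60 * (Real.exp (tau0 a / 2) * 2 * Cf + 1) * Real.exp ((tau0 a + 8) / 2) *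
        Real.exp (cf / 3) + kT Cf cf 1 * Real.exp (5 / 2)) * q ^ 2 * E := by
  subst hRR
  have h1 := dl_le (a := a) (cf := cf) hCf (R := R') hξ hT
  set A := Real.exp (tau0 a / 2) * 2 * Cf + 1 with hA
  have hA0 : 0 < A := by positivity
  have hq0 : 0 < q := by linarith
  have hqq : 1 ≤ q ^ 2 := one_le_pow₀ hq
  have h2 : dl a Cf cf ξ T R' ≤ A * q * (Real.exp (cf / 3) * E) := by
    refine h1.trans ?_
    have h3 : A * ((T : ℝ) / ξ) ≤ A * q := mul_le_mul_of_nonneg_left hTq hA0.le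
    exact mul_le_mul h3 t1 (Real.exp_pos _).le (by positivity)
  have hT0 : 0 < T := by omega
  haveI : NeZero T := ⟨hT0.ne'⟩
  have h3 : 60 * (R' : ℝ) * dl a Cf cf ξ T R' * Real.exp ((tau0 a + 8) / 2) ≤
      60 * A * Real.exp ((tau0 a + 8) / 2) * Real.exp (cf / 3) * q ^ 2 * E := by
    have h5 : 60 * (R' : ℝ) * dl a Cf cf ξ T R' ≤ 60 * q * (A * q * (Real.exp (cf / 3) * E)) :=
      mul_le_mul (by linarith) h2 (dl_pos (N := T) hCf hξ).le (by positivity)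
    refine (mul_le_mul_of_nonneg_right h5 (Real.exp_pos _).le).trans (le_of_eq ?_)
    ring
  have hk0 := kT_nonneg (δ := 1) hCf.le hcf
  have h4 : kT Cf cf 1 * Real.exp (-(min cf 1 / 2 * ((R' : ℝ) - 4))) ≤
      kT Cf cf 1 * Real.exp (5 / 2) * q ^ 2 * E := by
    have h5 := mul_le_mul_of_nonneg_left t2 hk0
    have h6 : 0 ≤ kT Cf cf 1 * Real.exp (5 / 2) * E := by positivity
    have h7 : kT Cf cf 1 * Real.exp (5 / 2) * E * 1 ≤ kT Cf cf 1 * Real.exp (5 / 2) * E * q ^ 2 :=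
      mul_le_mul_of_nonneg_left hqq h6
    have e1 : kT Cf cf 1 * (Real.exp (5 / 2) * E) = kT Cf cf 1 * Real.exp (5 / 2) * E * 1 := by
      ring
    have e2 : kT Cf cf 1 * Real.exp (5 / 2) * E * q ^ 2 =
        kT Cf cf 1 * Real.exp (5 / 2) * q ^ 2 * E := by ring
    rw [e1] at h5
    rw [← e2]
    exact h5.trans h7
  unfold eC
  have e : (60 * A * Real.exp ((tau0 a + 8) / 2) * Real.exp (cf / 3) +
      kT Cf cf 1 * Real.exp (5 / 2)) * q ^ 2 * E =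
      60 * A * Real.exp ((tau0 a + 8) / 2) * Real.exp (cf / 3) * q ^ 2 * E +
        kT Cf cf 1 * Real.exp (5 / 2) * q ^ 2 * E := by ring
  rw [e]
  exact add_le_add h3 h4

theorem num5 {C c q E R x : ℝ} (hR0 : 0 ≤ R) (hRq : R ≤ q) (hq : 1 ≤ q) (hx : 0 ≤ x)
    (t3 : x ≤ Real.exp (c / 12) * E) (hE : 0 ≤ E) :
    120 * (1 + 4 * √C * (6 * R + 1) ^ 2) * x ≤
      120 * (1 + 196 * √C) * Real.exp (c / 12) * q ^ 2 * E := by
  have hC := Real.sqrt_nonneg C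
  have h1 : (6 * R + 1) ^ 2 ≤ (7 * q) ^ 2 := pow_le_pow_left₀ (by positivity) (by linarith) 2
  have h3 := mul_le_mul_of_nonneg_left h1 (by positivity : (0 : ℝ) ≤ 4 * √C)
  have hqq : 1 ≤ q ^ 2 := one_le_pow₀ hq
  have h2 : 120 * (1 + 4 * √C * (6 * R + 1) ^ 2) ≤ 120 * (1 + 196 * √C) * q ^ 2 := by
    have e : 4 * √C * (7 * q) ^ 2 = 196 * √C * q ^ 2 := by ring
    rw [e] at h3
    linarith
  calc 120 * (1 + 4 * √C * (6 * R + 1) ^ 2) * x ≤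
        120 * (1 + 196 * √C) * q ^ 2 * (Real.exp (c / 12) * E) :=
        mul_le_mul h2 t3 hx (by positivity)
    _ = _ := by ring

/-- **the numbers** -/
theorem eTT_le {a c C cf Cf : ℝ} (hc : 0 < c) (hcf : 0 < cf) (hCf : 0 < Cf) :
    ∃ c1 C1 : ℝ, ∃ X : ℕ, 0 < c1 ∧ 0 < C1 ∧ 1 ≤ X ∧ ∀ ξ N M : ℕ, 0 < ξ → X * ξ ≤ N → N ≤ M →
      ∃ R : ℕ, 4 ≤ R ∧ 16 * (R * ξ) ≤ N ∧ eTT a c C cf Cf ξ N M R ≤
        C1 * ((M : ℝ) / ξ) ^ 2 * Real.exp (-(c1 * √((N : ℝ) / ξ))) := by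
  obtain ⟨ε, hε0, hε2, hε1⟩ := eps_ex hc
  have hm20 : 0 < min cf 1 := lt_min hcf one_pos
  set c1 := min (min (cf * ε / 3) (min cf 1 / 2 * ε)) (c / 192) with hc1
  have hc10 : 0 < c1 := by positivity
  have d1 : c1 ≤ cf * ε / 3 := (min_le_left _ _).trans (min_le_left _ _)
  have d2 : c1 ≤ min cf 1 / 2 * ε := (min_le_left _ _).trans (min_le_right _ _)
  have d3 : c1 ≤ c / 192 := min_le_right _ _
  clear_value c1
  set K12 := 60 * (Real.exp (tau0 a / 2) * 2 * Cf + 1) * Real.exp ((tau0 a + 8) / 2) *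
    Real.exp (cf / 3) + kT Cf cf 1 * Real.exp (5 / 2) with hK12
  set K3 := 120 * (1 + 196 * √C) * Real.exp (c / 12) with hK3
  have hK0 : 0 < K12 := by
    have := kT_nonneg (δ := 1) hCf.le hcf
    positivity
  have hK30 : 0 < K3 := by positivity
  refine ⟨c1, 2 * K12 + K3, max 1 ⌈(5 / ε) ^ 2⌉₊, hc10, by positivity, le_max_left _ _, ?_⟩
  intro ξ N M hξ hX hNM
  have hξR : (0 : ℝ) < ξ := by exact_mod_cast hξ
  obtain ⟨m, hm⟩ : ∃ m, m = (N : ℝ) / ξ := ⟨_, rfl⟩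
  have hmX : (5 / ε) ^ 2 ≤ m := by
    have h1 : (5 / ε) ^ 2 ≤ ((max 1 ⌈(5 / ε) ^ 2⌉₊ : ℕ) : ℝ) :=
      (Nat.le_ceil _).trans (by exact_mod_cast le_max_right _ _)
    refine h1.trans ?_
    rw [hm, le_div_iff₀ hξR]
    exact_mod_cast hX
  have h5ε : 5 / ε ≤ √m := Real.le_sqrt_of_sq_le hmX
  have h5 : 5 ≤ ε * √m := by
    rw [div_le_iff₀ hε0] at h5ε
    linarith
  have hx0 := Real.sqrt_nonneg m
  have hεx : ε * √m ≤ 1 / 600 * √m := mul_le_mul_of_nonneg_right hε1 hx0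
  have hsm : 1 ≤ √m := by linarith
  have hm0 : 0 ≤ m := (sq_nonneg _).trans hmX
  have hsq : √m * √m = m := Real.mul_self_sqrt hm0
  have hsm2 : √m ≤ m := by nlinarith
  obtain ⟨R, hR⟩ : ∃ R, R = ⌊ε * √m⌋₊ := ⟨_, rfl⟩
  have hR1 : (R : ℝ) ≤ ε * √m := by
    rw [hR]
    exact Nat.floor_le (by positivity)
  have hR2 : ε * √m - 1 < R := by
    rw [hR]
    exact Nat.sub_one_lt_floor _
  have hR4 : 4 ≤ R := by
    have : (4 : ℝ) < R := by linarith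
    have : 4 < R := by exact_mod_cast this
    omega
  have hRm : 16 * (R : ℝ) ≤ m := by linarith
  have hR0 : (0 : ℝ) ≤ R := Nat.cast_nonneg R
  have h16 : 16 * (R * ξ) ≤ N := by
    have h1 : 16 * ((R : ℝ) * ξ) ≤ N := by
      have h3 : m * ξ = N := by
        rw [hm]
        field_simp
      rw [← h3, ← mul_assoc]
      exact mul_le_mul_of_nonneg_right hRm hξR.le
    exact_mod_cast h1
  have hNξ : ξ ≤ N := by
    have h2 : 1 * ξ ≤ max 1 ⌈(5 / ε) ^ 2⌉₊ * ξ := Nat.mul_le_mul_right ξ (le_max_left _ _)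
    omega
  obtain ⟨q, hq⟩ : ∃ q, q = (M : ℝ) / ξ := ⟨_, rfl⟩
  have hmq : m ≤ q := by
    rw [hm, hq]
    exact div_le_div_of_nonneg_right (by exact_mod_cast hNM) hξR.le
  have hq1 : 1 ≤ q := (hsm.trans hsm2).trans hmq
  refine ⟨R, hR4, h16, ?_⟩
  rw [← hq, ← hm]
  have hR2' : (R : ℝ) ^ 2 ≤ c / 360000 * m := by
    have h5 : (R : ℝ) ^ 2 ≤ (ε * √m) ^ 2 := pow_le_pow_left₀ hR0 hR1 2
    rw [mul_pow, Real.sq_sqrt hm0] at h5
    exact h5.trans (mul_le_mul_of_nonneg_right hε2 hm0)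
  have t1 := num1 (R := R) hcf hx0 d1 hR2
  have t2 := num2 (R := R) hm20 (min_le_right _ _) hx0 d2 hR2
  have t3 := num3 (R := R) hc hξ hm hsm2 d3 hR2'
  obtain ⟨E, hE⟩ : ∃ E, E = Real.exp (-(c1 * √m)) := ⟨_, rfl⟩
  rw [← hE] at t1 t2 t3 ⊢
  have hE0 : 0 ≤ E := by rw [hE]; exact (Real.exp_pos _).le
  have hRq : (R : ℝ) ≤ q := by linarith
  have k1 := num4 (a := a) (R := R) rfl hcf hCf hξ hNξ (hm ▸ hmq) hRq hq1 hE0 t1 t2
  have k2 := num4 (a := a) (R := R) rfl hcf hCf hξ (hNξ.trans hNM) hq.ge hRq hq1 hE0 t1 t2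
  have k3 := num5 (C := C) hR0 hRq hq1 (by positivity) t3 hE0
  rw [← hK12] at k1 k2
  rw [← hK3] at k3
  unfold eTT
  have e : (2 * K12 + K3) * q ^ 2 * E = K12 * q ^ 2 * E + K12 * q ^ 2 * E + K3 * q ^ 2 * E := by
    ring
  rw [e, mul_assoc (120 * (1 + 4 * √C * (6 * (R : ℝ) + 1) ^ 2))]
  exact add_le_add (add_le_add k1 k2) k3

/-! ### periodicity and oscillation -/

variable {N : ℕ} [NeZero N] {b t : ℝ}

theorem Cv_add_const {V' : Type*} [Fintype V'] {μ : (V' → ℤ) → ℝ} (hμ : EM μ) (J : V' → ℝ)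
    {F G : (V' → ℤ) → ℝ} (hF : Gr F) (hG : Gr G) (p q : ℝ) :
    Cv μ J (fun h => F h + p) (fun h => G h + q) = Cv μ J F G := by
  unfold Cv
  have e1 : (fun h => (F h + p) * (G h + q)) = fun h => F h * G h + (q * F h + (p * G h + p * q)) := by
    funext h
    ring
  rw [e1, Ex_add hμ (hF.mul hG) ((hF.cmul q).add ((hG.cmul p).add (Gr.const _))),
    Ex_add hμ (hF.cmul q) ((hG.cmul p).add (Gr.const _)), Ex_add hμ (hG.cmul p) (Gr.const _),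
    Ex_cmul, Ex_cmul, Ex_const hμ, Ex_add hμ hF (Gr.const _), Ex_add hμ hG (Gr.const _),
    Ex_const hμ, Ex_const hμ]
  ring

/-- the covariance is periodic in the constant background -/
theorem Gcc_per (hb : 0 ≤ b) (ht : 0 < t) (c : ℝ) (k : ℤ) :
    Gcc N b t (c + k) = Gcc N b t c := by
  have hE := H789.em_wt (N := N) hb ht
  have key : ∀ Y : (V N → ℤ) → ℝ, Ex (wt N b t) (fun _ => t * (c + k)) Y =
      Ex (wt N b t) (fun _ => t * c) fun h => Y fun x => h x + k := by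
    intro Y
    have h1 := H789.Ex_wt' (b := b) (t := t) (fun _ : V N => c + k) Y
    have h2 := H789.Ex_wt' (b := b) (t := t) (fun _ : V N => c) fun h => Y fun x => h x + k
    have h3 := H789.Ex_shift_int b (fun _ : V N => t) (fun _ => c) k Y
    have e1 : (t • fun _ : V N => c + k) = fun _ => t * (c + k) := rfl
    have e2 : (t • fun _ : V N => c) = fun _ => t * c := rfl
    rw [e1] at h1
    rw [e2] at h2
    rw [h1, h2]
    exact h3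
  ext x z
  unfold Gcc Cm
  simp only [Matrix.of_apply]
  have e3 : Cv (wt N b t) (fun _ => t * (c + k)) (fun h => (h x : ℝ)) (fun h => (h z : ℝ)) =
      Cv (wt N b t) (fun _ => t * c) (fun h => (h x : ℝ) + k) fun h => (h z : ℝ) + k := by
    unfold Cv
    rw [key, key, key]
    push_cast
    rfl
  rw [e3]
  exact Cv_add_const hE _ (H612.gr_site x) (H612.gr_site z) _ _

/-- the oscillation of `log Z` over the constants -/
theorem osc_qu (hb : 0 ≤ b) {ξ : ℕ} (hξ : 0 < ξ) {y a : ℝ} (hy : 0 ≤ y)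
    (hQ : QU (ξ : ℝ) (GT N b ξ) y a) (hyN : y * (N : ℝ) ^ 2 ≤ (ξ : ℝ) ^ 2) (u v : ℝ) :
    Real.log (ZC N b (1 / (ξ : ℝ) ^ 2) u) - Real.log (ZC N b (1 / (ξ : ℝ) ^ 2) v) ≤ 1 := by
  have hξR : (0 : ℝ) < ξ := by exact_mod_cast hξ
  have ht : (0 : ℝ) < 1 / (ξ : ℝ) ^ 2 := by positivity
  set t := 1 / (ξ : ℝ) ^ 2 with htd
  have hcard : (Fintype.card (V N) : ℝ) = (N : ℝ) ^ 2 := TM.H764.card_V
  have hsum : ∀ c : ℝ, ∑ _x : V N, (t * c) ^ 2 = (N : ℝ) ^ 2 * (t * c) ^ 2 := by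
    intro c
    rw [Finset.sum_const, Finset.card_univ, nsmul_eq_mul, hcard]
  -- the maximum is at `0`
  have h1 : ∀ c, Real.log (ZC N b t c) ≤ Lg (wt N b t) 0 := by
    intro c
    have h2 := H612.log_ZC (N := N) hb ht c
    have h3 := lg_sub (N := N) hb ht fun _ => t * c
    rw [hsum] at h3
    have e : (N : ℝ) ^ 2 * (t * c) ^ 2 / (2 * t) = t * (N : ℝ) ^ 2 / 2 * c ^ 2 := by
      field_simp
    rw [e] at h3
    linarith
  have hper : ZC N b t v = ZC N b t (Int.fract v) := by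
    have h2 := (H612.ZC_per (N := N) hb ht).sub_zsmul_eq (x := v) ⌊v⌋
    rw [zsmul_one] at h2
    rw [Int.fract]
    exact h2.symm
  rw [hper]
  set v' := Int.fract v with hv'
  have hv0 : 0 ≤ v' := Int.fract_nonneg v
  have hv1 : v' ≤ 1 := (Int.fract_lt_one v).le
  have h2 := H612.log_ZC (N := N) hb ht v'
  have h3 := frA_qu (N := N) (b := b) hξ hQ fun _ => v'
  rw [← htd] at h3
  have e0 : (t • fun _ : V N => v') = fun _ => t * v' := rfl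
  have h4 := H789.Rs_nonneg (H789.em_wt (N := N) hb ht) H789.ev_wt (H789.pk_wt hb ht)
    (fun _ => t * v')
  rw [e0] at h3
  unfold frA at h3
  rw [hsum] at h3
  have hg : grd (fun _ : V N => v') = 0 := by
    unfold grd Q
    simp
  rw [hg, mul_zero, add_zero] at h3
  have hs2 : ∑ _x : V N, v' ^ 2 = (N : ℝ) ^ 2 * v' ^ 2 := by
    rw [Finset.sum_const, Finset.card_univ, nsmul_eq_mul, hcard]
  rw [hs2] at h3
  unfold Rs at h4
  have e1 : (N : ℝ) ^ 2 * (t * v') ^ 2 / t = 2 * (t * (N : ℝ) ^ 2 / 2 * v' ^ 2) := by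
    field_simp
  rw [e1] at h3
  have h5 : y / (ξ : ℝ) ^ 2 * ((N : ℝ) ^ 2 * v' ^ 2) ≤ 1 := by
    have h6 : v' ^ 2 ≤ 1 := pow_le_one₀ hv0 hv1
    have h7 : y / (ξ : ℝ) ^ 2 * (N : ℝ) ^ 2 ≤ 1 := by
      have : y / (ξ : ℝ) ^ 2 * (N : ℝ) ^ 2 = y * (N : ℝ) ^ 2 / (ξ : ℝ) ^ 2 := by ring
      rw [this, div_le_one (by positivity)]
      exact hyN
    calc y / (ξ : ℝ) ^ 2 * ((N : ℝ) ^ 2 * v' ^ 2) = (y / (ξ : ℝ) ^ 2 * (N : ℝ) ^ 2) * v' ^ 2 := by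
          ring
      _ ≤ 1 * 1 := mul_le_mul h7 h6 (by positivity) zero_le_one
      _ = 1 := one_mul 1
  have h8 := h1 u
  linarith

/-! ### the theorems -/

/-- **NKT, constant backgrounds**: the covariance symbols of two tori `N ∣ M` in the same constant
background agree on the momenta of `N` up to an exponentially small error; all real constants, all
momenta (`k = 0` included) -/
theorem nkt0 {b1 : ℝ} (hb1 : 0 < b1) (b2 : ℝ) {a : ℝ} (ha : 0 ≤ a) :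
    ∃ W₀ : ℝ, ∀ W : ℝ, W₀ ≤ W → ∃ c C ys : ℝ, ∃ X : ℕ, 0 < c ∧ 0 < C ∧ 0 < ys ∧ 1 ≤ X ∧
    ∀ (N M : ℕ) [NeZero N] [NeZero M] (b : ℝ) (ξ : ℕ) (y : ℝ), N ∣ M →
      Rng b1 b2 a W ys X N b ξ y → Rng b1 b2 a W ys X M b ξ y →
      y * (M : ℝ) ^ 2 ≤ (ξ : ℝ) ^ 2 → ∀ (k : V N) (s : ℝ),
      |1 / (ξ : ℝ) ^ 2 * sym (Gcc N b (1 / (ξ : ℝ) ^ 2) s) k -
        1 / (ξ : ℝ) ^ 2 * sym (Gcc M b (1 / (ξ : ℝ) ^ 2) s) (em M k)| ≤
        C * ((M : ℝ) / ξ) ^ 2 * Real.exp (-(c * √((N : ℝ) / ξ))) := by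
  obtain ⟨W1, hA⟩ := TM.H352.thmA hb1 b2 a
  obtain ⟨W2, cf, Cf, ysf, Xf, hcf, hCf, hysf, hXf, hF⟩ := H612.lb4 hb1 b2 a
  refine ⟨max W1 W2, ?_⟩
  intro W hW
  obtain ⟨cA, CA, ysA, XA, hcA, hCA, hysA, hXA, hA⟩ := hA W ((le_max_left _ _).trans hW)
  have hCf' : 0 < Cf := by linarith
  obtain ⟨c1, C1, X1, hc1, hC1, hX1, hnum⟩ := eTT_le (a := a) (C := CA) hcA hcf hCf'
  set X2 : ℕ := max ⌈1 / cA⌉₊ ⌈1 / cf⌉₊ with hX2
  refine ⟨c1, C1, min ysA ysf, max (max XA Xf) (max X1 X2), hc1, hC1, lt_min hysA hysf,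
    hX1.trans ((le_max_left _ _).trans (le_max_right _ _)), ?_⟩
  intro N M _ _ b ξ y hNM hRN hRM hyM k s
  have hM : N ≤ M := Nat.le_of_dvd (NeZero.pos M) hNM
  have hb : 0 ≤ b := hb1.le.trans hRN.hb1
  have hy := hRN.y0
  have hξ1 : 1 ≤ ξ := by
    have h1 := hRN.hX
    have h2 : 1 ≤ X1 := hX1
    have h3 : X1 ≤ max (max XA Xf) (max X1 X2) := (le_max_left _ _).trans (le_max_right _ _)
    omega
  have hξ : 0 < ξ := hξ1
  have hξR : (0 : ℝ) < ξ := by exact_mod_cast hξ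
  have hNM' : (N : ℝ) ≤ M := by exact_mod_cast hM
  have hN0 : (0 : ℝ) < N := Nat.cast_pos.2 (NeZero.pos N)
  have rA : ∀ (T : ℕ) [NeZero T],
      Rng b1 b2 a W (min ysA ysf) (max (max XA Xf) (max X1 X2)) T b ξ y →
      Rng b1 b2 a W ysA XA T b ξ y := fun T _ h =>
    { hb1 := h.hb1, hb2 := h.hb2
      hX := ((le_max_left _ _).trans (le_max_left _ _)).trans h.hX
      hK := (Nat.mul_le_mul_right ξ ((le_max_left _ _).trans (le_max_left _ _))).trans h.hK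
      hd := h.hd, y0 := h.y0, y1 := h.y1.trans (min_le_left _ _), hyp := h.hyp }
  have rF : ∀ (T : ℕ) [NeZero T],
      Rng b1 b2 a W (min ysA ysf) (max (max XA Xf) (max X1 X2)) T b ξ y →
      Rng b1 b2 a W ysf Xf T b ξ y := fun T _ h =>
    { hb1 := h.hb1, hb2 := h.hb2
      hX := ((le_max_right _ _).trans (le_max_left _ _)).trans h.hX
      hK := (Nat.mul_le_mul_right ξ ((le_max_right _ _).trans (le_max_left _ _))).trans h.hK
      hd := h.hd, y0 := h.y0, y1 := h.y1.trans (min_le_right _ _), hyp := h.hyp }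
  -- the range condition of the cluster theorems
  have hX2N : ∀ (T : ℕ) [NeZero T],
      Rng b1 b2 a W (min ysA ysf) (max (max XA Xf) (max X1 X2)) T b ξ y →
      y * (T : ℝ) ^ 2 ≤ (ξ : ℝ) ^ 2 → ∀ g : ℝ, 0 < g → ⌈1 / g⌉₊ ≤ X2 → (T : ℝ) * y ≤ g * ξ := by
    intro T _ h hyT g hg hgX
    have hT0 : (0 : ℝ) < T := Nat.cast_pos.2 (NeZero.pos T)
    have h1 : (1 / g) * ξ ≤ T := by
      have h2 : ((X2 * ξ : ℕ) : ℝ) ≤ T := by
        have h3 := h.hK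
        have h4 : X2 ≤ max (max XA Xf) (max X1 X2) := (le_max_right _ _).trans (le_max_right _ _)
        have h5 := Nat.mul_le_mul_right ξ h4
        exact_mod_cast h5.trans h3
      have h6 : (1 / g) ≤ X2 := (Nat.le_ceil _).trans (by exact_mod_cast hgX)
      have h7 := mul_le_mul_of_nonneg_right h6 hξR.le
      push_cast at h2
      linarith
    have h8 : (ξ : ℝ) ≤ g * T := by
      have h9 := mul_le_mul_of_nonneg_left h1 hg.le
      have e : g * (1 / g * ξ) = ξ := by field_simp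
      linarith
    -- `T y * T ≤ ξ² ≤ g ξ T`
    have h10 : (T : ℝ) * y * T ≤ g * ξ * T := by
      have e1 : (T : ℝ) * y * T = y * (T : ℝ) ^ 2 := by ring
      have e2 : (ξ : ℝ) ^ 2 ≤ g * ξ * T := by nlinarith
      linarith
    exact le_of_mul_le_mul_right h10 hT0
  have hyN : y * (N : ℝ) ^ 2 ≤ (ξ : ℝ) ^ 2 :=
    (mul_le_mul_of_nonneg_left (pow_le_pow_left₀ hN0.le hNM' 2) hy).trans hyM
  have pkt : ∀ (T : ℕ) [NeZero T],
      Rng b1 b2 a W (min ysA ysf) (max (max XA Xf) (max X1 X2)) T b ξ y →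
      y * (T : ℝ) ^ 2 ≤ (ξ : ℝ) ^ 2 → PkT T b hb ξ y a cA CA cf Cf := fun T _ h hyT =>
    { hA := fun x0 n hn => (hA T b hb ξ y (rA T h) x0 n hn).1
      far := fun u v A B D h1 h2 h3 h4 h5 h6 =>
        hF W ((le_max_right _ _).trans hW) T b ξ y (rF T h)
          (hX2N T h hyT cf hcf (le_max_right _ _)) u v A B D h1 h2 h3 h4 h5 h6
      qu := h.hyp.qu
      yN := hyT
      osc := osc_qu hb hξ hy h.hyp.qu hyT }
  have PN := pkt N hRN hyN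
  have PM := pkt M hRM hyM
  obtain ⟨R, hR4, h16, hR⟩ := hnum ξ N M hξ (by
    have h3 := hRN.hK
    have h4 : X1 ≤ max (max XA Xf) (max X1 X2) := (le_max_left _ _).trans (le_max_right _ _)
    exact (Nat.mul_le_mul_right ξ h4).trans h3) hM
  -- reduction to `0 ≤ s < 1`
  have ht : (0 : ℝ) < 1 / (ξ : ℝ) ^ 2 := by positivity
  have es : s = Int.fract s + (⌊s⌋ : ℤ) := (Int.fract_add_floor s).symm
  rw [es, Gcc_per hb ht, Gcc_per hb ht]
  have hs : |Int.fract s| ≤ 1 := by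
    rw [abs_of_nonneg (Int.fract_nonneg s)]
    exact (Int.fract_lt_one s).le
  exact (two_torus (hb := hb) hξ ha hy hCA hcf hCf' PN PM hNM hR4 h16
    (hX2N N hRN hyN cA hcA (le_max_left _ _)) k hs).trans hR

/-- **NKT**: the neutral symbols of two tori `N ∣ M` agree on the momenta `k ≠ 0` of `N` up to an
exponentially small error and `112 ω²` -/
theorem nkt {b1 : ℝ} (hb1 : 0 < b1) (b2 : ℝ) {a : ℝ} (ha : 0 ≤ a) :
    ∃ W₀ : ℝ, ∀ W : ℝ, W₀ ≤ W → ∃ c C ys : ℝ, ∃ X : ℕ, 0 < c ∧ 0 < C ∧ 0 < ys ∧ 1 ≤ X ∧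
    ∀ (N M : ℕ) [NeZero N] [NeZero M] (b : ℝ) (ξ : ℕ) (y ω : ℝ), N ∣ M →
      Rng b1 b2 a W ys X N b ξ y → Rng b1 b2 a W ys X M b ξ y →
      y * (M : ℝ) ^ 2 ≤ (ξ : ℝ) ^ 2 → 0 ≤ ω → ω ≤ 1 / 4 →
      OscZ (wT b N) ((2 * (1 / (ξ : ℝ) ^ 2)) • (1 : Matrix (V N) (V N) ℝ)) ω →
      OscZ (wT b N) ((1 / (ξ : ℝ) ^ 2) • (1 : Matrix (V N) (V N) ℝ)) ω →
      OscZ (wT b M) ((2 * (1 / (ξ : ℝ) ^ 2)) • (1 : Matrix (V M) (V M) ℝ)) ω →
      OscZ (wT b M) ((1 / (ξ : ℝ) ^ 2) • (1 : Matrix (V M) (V M) ℝ)) ω →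
      ∀ k : V N, k ≠ 0 →
        |1 / (ξ : ℝ) ^ 2 * sym (GA N b (1 / (ξ : ℝ) ^ 2)) k -
          1 / (ξ : ℝ) ^ 2 * sym (GA M b (1 / (ξ : ℝ) ^ 2)) (em M k)| ≤
          C * ((M : ℝ) / ξ) ^ 2 * Real.exp (-(c * √((N : ℝ) / ξ))) + 112 * ω ^ 2 ∧
        |1 / (ξ : ℝ) ^ 2 * Gnh N b (1 / (ξ : ℝ) ^ 2) k -
          1 / (ξ : ℝ) ^ 2 * Gnh M b (1 / (ξ : ℝ) ^ 2) (em M k)| ≤
          C * ((M : ℝ) / ξ) ^ 2 * Real.exp (-(c * √((N : ℝ) / ξ))) + 112 * ω ^ 2 := by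
  obtain ⟨W0, h0⟩ := nkt0 hb1 b2 ha
  refine ⟨W0, fun W hW => ?_⟩
  obtain ⟨c, C, ys, X, hc, hC, hys, hX, h⟩ := h0 W hW
  refine ⟨c, C, ys, X, hc, hC, hys, hX, ?_⟩
  intro N M _ _ b ξ y ω hNM hRN hRM hyM hω0 hω hO hO' hO2 hO2' k hk
  have hb : 0 ≤ b := hb1.le.trans hRN.hb1
  have hξ : 0 < ξ := by
    have := hRN.hX
    omega
  have hξR : (0 : ℝ) < ξ := by exact_mod_cast hξ
  have ht : (0 : ℝ) < 1 / (ξ : ℝ) ^ 2 := by positivity
  have h1 := nkt_of hb ht hNM hω0 hω hO hO' hO2 hO2' hk fun s _ =>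
    h N M b ξ y hNM hRN hRM hyM k s
  refine ⟨h1, ?_⟩
  rw [← H612.sym_GA hb ht hk, ← H612.sym_GA hb ht (em_ne hNM hk)]
  exact h1

end

end Vale.Agent.P159.H197
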