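import Vale.Agent.P159.H474.Green4
import Vale.Agent.P159.H813.TB3a
import Vale.Agent.P159.H864.Cel4
import Vale.Agent.P159.H462.In3Sum

/-!
P159 / variance of one window (helper197, (O1) and (O2) of 846 / 889): lattice sums. For a profile
`P` on the cell momenta which is close to `a EE` at the central aliases,
`N ^ (-2) ∑_k (1 / (t' + P k) - 1 / (t + P k)) = log (t / t') / (4 π a) + O(error)`.
-/

set_option linter.unusedSectionVars false

namespace Vale.Agent.P159.H197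

open Finset Real
open Vale.Agent.P159.TM.H764 (EE EE_nonneg)
open Vale.Agent.P159.TM.Spec (V)
open Vale.Agent.P159.H474 (SN)
open Vale.Agent.P159.H864 (cen rd)

noncomputable section

/-- increment of a mode -/
def fO (t' t x : ℝ) : ℝ := 1 / (t' + x) - 1 / (t + x)

lemma fO_nonneg {t' t x : ℝ} (ht' : 0 < t') (h : t' ≤ t) (hx : 0 ≤ x) : 0 ≤ fO t' t x := by
  unfold fO
  have := one_div_le_one_div_of_le (by linarith : 0 < t' + x) (by linarith : t' + x ≤ t + x)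
  linarith

lemma fO_le {t' t x : ℝ} (ht' : 0 < t') (h : t' ≤ t) (hx : 0 < x) : fO t' t x ≤ t / x ^ 2 := by
  unfold fO
  have ht : 0 < t := ht'.trans_le h
  have h1 : 1 / (t' + x) - 1 / (t + x) = (t - t') / ((t' + x) * (t + x)) := by
    have : t' + x ≠ 0 := by linarith
    have : t + x ≠ 0 := by linarith
    field_simp
    ring
  rw [h1, div_le_div_iff₀ (by positivity) (by positivity)]
  have h2 : x ^ 2 ≤ (t' + x) * (t + x) := by nlinarith
  have h3 : 0 ≤ t - t' := by linarith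
  calc (t - t') * x ^ 2 ≤ t * x ^ 2 := mul_le_mul_of_nonneg_right (by linarith) (by positivity)
    _ ≤ t * ((t' + x) * (t + x)) := mul_le_mul_of_nonneg_left h2 (by linarith)

section csec

variable {N l : ℕ} [NeZero N] [NeZero (N / l)]

/-- the central alias -/
def sc (hl : l ∣ N) (k : V (N / l)) : V N := Classical.choose (H864.exists_cen hl k)

lemma cen_sc (hl : l ∣ N) (k : V (N / l)) : cen l (sc hl k) :=
  (Classical.choose_spec (H864.exists_cen hl k)).1

lemma rd_sc (hl : l ∣ N) (k : V (N / l)) : (rd (sc hl k) : V (N / l)) = k :=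
  (Classical.choose_spec (H864.exists_cen hl k)).2

lemma sc_inj (hl : l ∣ N) : Function.Injective (sc (N := N) hl) := by
  intro a b h
  rw [← rd_sc hl a, h, rd_sc hl b]

/-- low momenta are central aliases -/
lemma sc_rd (hl : l ∣ N) {p : V N} (hp : EE p < 4 / (l : ℝ) ^ 2) :
    sc hl (rd p : V (N / l)) = p := by
  by_contra h
  have h1 := H864.EE_alias_ge hl (cen_sc hl (rd p : V (N / l))) (rd_sc hl _).symm
    (fun h2 => h h2.symm)
  linarith

lemma EE_sc_ge (hl : l ∣ N) (k : V (N / l)) :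
    EE k ≤ (l : ℝ) ^ 2 * EE (sc hl k) := by
  have h := H864.EE_rd_le hl (sc hl k)
  rwa [rd_sc] at h

end csec

section sums

variable {N l : ℕ} [NeZero N] [NeZero (N / l)]

lemma log_two_small : Real.log 2 / (4 * π) ≤ 1 := by
  have h1 := Real.log_two_lt_d9
  have h2 := Real.pi_gt_three
  rw [div_le_one (by positivity)]
  linarith

/-- high momenta -/
theorem high_sum {E0 : ℝ} (hE0 : 0 < E0) (hE1 : E0 ≤ 1) (hN : 1 ≤ (N : ℝ) * √(E0 / 2)) :
    (∑ p ∈ univ.filter (fun p : V N => E0 < EE p), 1 / EE p ^ 2) / (N : ℝ) ^ 2 ≤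
      10400 / E0 := by
  have hNp : (0 : ℝ) < (N : ℝ) ^ 2 := by
    have : (0 : ℝ) < N := by exact_mod_cast NeZero.pos N
    positivity
  have h1 := H474.TB1' (N := N) (m := E0 / 2) (m' := E0) (by positivity) (by linarith) hE1 hN
  have h2 : Real.log (E0 / (E0 / 2)) / (4 * π) ≤ 1 := by
    have e : E0 / (E0 / 2) = 2 := by field_simp
    rw [e]
    exact log_two_small
  have h3 : √E0 ≤ 1 := by
    rw [Real.sqrt_le_one]
    exact hE1
  have h4 : Real.exp (-((N : ℝ) * √(E0 / 2) / 16)) ≤ 1 := by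
    rw [Real.exp_le_one_iff]
    have : 0 ≤ (N : ℝ) * √(E0 / 2) := by positivity
    linarith
  have h5 := (abs_le.1 h1).2
  have h6 : SN N (E0 / 2) - SN N E0 ≤ 1300 := by linarith
  have h7 : (∑ p ∈ univ.filter (fun p : V N => E0 < EE p), 1 / EE p ^ 2) ≤
      8 / E0 * ((SN N (E0 / 2) - SN N E0) * (N : ℝ) ^ 2) := by
    unfold SN
    rw [← sub_div, div_mul_cancel₀ _ hNp.ne', ← Finset.sum_sub_distrib, Finset.mul_sum]
    have hterm : ∀ p : V N, 0 ≤ 8 / E0 * (1 / (E0 / 2 + EE p) - 1 / (E0 + EE p)) := by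
      intro p
      have h0 := EE_nonneg p
      have := one_div_le_one_div_of_le (by linarith : 0 < E0 / 2 + EE p)
        (by linarith : E0 / 2 + EE p ≤ E0 + EE p)
      exact mul_nonneg (by positivity) (by linarith)
    refine le_trans (Finset.sum_le_sum fun p hp => ?_)
      (Finset.sum_le_sum_of_subset_of_nonneg (Finset.filter_subset _ _) fun p _ _ => hterm p)
    have hp1 : E0 < EE p := (Finset.mem_filter.1 hp).2
    have hx : 0 < EE p := hE0.trans hp1
    have e1 : 8 / E0 * (1 / (E0 / 2 + EE p) - 1 / (E0 + EE p)) =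
        4 / ((E0 / 2 + EE p) * (E0 + EE p)) := by
      have a1 : E0 / 2 + EE p ≠ 0 := by positivity
      have a2 : E0 + EE p ≠ 0 := by positivity
      field_simp
      ring
    rw [e1, div_le_div_iff₀ (by positivity) (by positivity)]
    nlinarith
  rw [div_le_iff₀ hNp]
  refine h7.trans ?_
  have h8 : (SN N (E0 / 2) - SN N E0) * (N : ℝ) ^ 2 ≤ 1300 * (N : ℝ) ^ 2 :=
    mul_le_mul_of_nonneg_right h6 hNp.le
  calc 8 / E0 * ((SN N (E0 / 2) - SN N E0) * (N : ℝ) ^ 2) ≤ 8 / E0 * (1300 * (N : ℝ) ^ 2) :=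
        mul_le_mul_of_nonneg_left h8 (by positivity)
    _ = 10400 / E0 * (N : ℝ) ^ 2 := by ring

/-- low momenta -/
theorem low_sum (hl : l ∣ N) {t' : ℝ} (ht' : 0 < t') (htl : t' * (l : ℝ) ^ 2 ≤ 1)
    (hN : 1 ≤ (N : ℝ) * √t') :
    (∑ k : V (N / l), (EE (sc hl k) + t')⁻¹) / (N : ℝ) ^ 2 ≤
      601 + Real.log (1 / (t' * (l : ℝ) ^ 2)) / (4 * π) := by
  have hl0 : (0 : ℝ) < l := by exact_mod_cast H864.l_pos hl
  have hNp : (0 : ℝ) < (N : ℝ) ^ 2 := by
    have : (0 : ℝ) < N := by exact_mod_cast NeZero.pos N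
    positivity
  have hn : (0 : ℝ) < ((N / l : ℕ) : ℝ) ^ 2 := by
    have : (0 : ℝ) < ((N / l : ℕ) : ℝ) := by exact_mod_cast NeZero.pos (N / l)
    positivity
  have hNl : ((N / l : ℕ) : ℝ) * l = N := H864.Nl hl
  have hm : 0 < t' * (l : ℝ) ^ 2 := by positivity
  have hN2 : 1 ≤ ((N / l : ℕ) : ℝ) * √(t' * (l : ℝ) ^ 2) := by
    rw [Real.sqrt_mul ht'.le, Real.sqrt_sq hl0.le]
    have e : ((N / l : ℕ) : ℝ) * (√t' * l) = (((N / l : ℕ) : ℝ) * l) * √t' := by ring
    rw [e, hNl]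
    exact hN
  have h1 := H474.SN_sub_Im' (N := N / l) hm (by linarith) hN2
  have h2 := H474.Im_le hm htl
  have h4 : Real.exp (-(((N / l : ℕ) : ℝ) * √(t' * (l : ℝ) ^ 2) / 16)) ≤ 1 := by
    rw [Real.exp_le_one_iff]
    have : 0 ≤ ((N / l : ℕ) : ℝ) * √(t' * (l : ℝ) ^ 2) := by positivity
    linarith
  have h5 : SN (N / l) (t' * (l : ℝ) ^ 2) ≤
      601 + Real.log (1 / (t' * (l : ℝ) ^ 2)) / (4 * π) := by
    have := (abs_le.1 h1).2
    linarith
  refine le_trans ?_ h5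
  unfold SN
  rw [div_le_div_iff₀ hNp hn]
  have h6 : ∑ k : V (N / l), (EE (sc hl k) + t')⁻¹ ≤
      (l : ℝ) ^ 2 * ∑ k : V (N / l), 1 / (t' * (l : ℝ) ^ 2 + EE k) := by
    rw [Finset.mul_sum]
    refine Finset.sum_le_sum fun k _ => ?_
    have h7 := EE_sc_ge hl k
    have h8 := EE_nonneg k
    have h9 := EE_nonneg (sc hl k)
    rw [mul_one_div, inv_eq_one_div, div_le_div_iff₀ (by positivity) (by positivity)]
    nlinarith
  calc (∑ k : V (N / l), (EE (sc hl k) + t')⁻¹) * ((N / l : ℕ) : ℝ) ^ 2 ≤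
        ((l : ℝ) ^ 2 * ∑ k : V (N / l), 1 / (t' * (l : ℝ) ^ 2 + EE k)) *
          ((N / l : ℕ) : ℝ) ^ 2 := mul_le_mul_of_nonneg_right h6 hn.le
    _ = (∑ k : V (N / l), 1 / (t' * (l : ℝ) ^ 2 + EE k)) * (((N / l : ℕ) : ℝ) * l) ^ 2 := by
        ring
    _ = _ := by rw [hNl]

/-- the reference sum -/
theorem ref_sum {a t' t : ℝ} (ha : 1 ≤ a) (ht' : 0 < t') (h : t' ≤ t) (ht1 : t ≤ 1)
    (hN : 1 ≤ (N : ℝ) * √(t' / a)) :
    |(∑ p : V N, fO t' t (a * EE p)) / (N : ℝ) ^ 2 - Real.log (t / t') / (4 * π * a)| ≤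
      √t / 4 + 1200 * Real.exp (-((N : ℝ) * √(t' / a) / 16)) := by
  have ha0 : 0 < a := by linarith
  have ht : 0 < t := ht'.trans_le h
  have h1 := H474.TB1' (N := N) (m := t' / a) (m' := t / a) (by positivity)
    (div_le_div_of_nonneg_right h ha0.le) (by rw [div_le_one ha0]; linarith) hN
  have e1 : (∑ p : V N, fO t' t (a * EE p)) / (N : ℝ) ^ 2 =
      (SN N (t' / a) - SN N (t / a)) / a := by
    unfold SN
    rw [← sub_div, ← Finset.sum_sub_distrib, div_right_comm]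
    congr 1
    rw [Finset.sum_div]
    refine Finset.sum_congr rfl fun p _ => ?_
    have e : ∀ τ : ℝ, 1 / (τ + a * EE p) = 1 / (τ / a + EE p) / a := by
      intro τ
      rw [div_div]
      congr 1
      field_simp
    unfold fO
    rw [e, e, sub_div]
  have e2 : Real.log (t / t') / (4 * π * a) =
      Real.log (t / a / (t' / a)) / (4 * π) / a := by
    rw [div_div_div_cancel_right₀ ha0.ne', div_div]
  rw [e1, e2, ← sub_div, abs_div, abs_of_pos ha0, div_le_iff₀ ha0]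
  refine h1.trans ?_
  have h3 : √(t / a) ≤ √t := Real.sqrt_le_sqrt (div_le_self ht.le ha)
  have h4 : 0 ≤ √t / 4 + 1200 * Real.exp (-((N : ℝ) * √(t' / a) / 16)) := by positivity
  nlinarith

/-- **the sum over the cell momenta** -/
theorem cell_sum (hl : l ∣ N) {P : V (N / l) → ℝ} {a c0 t' t η E0 : ℝ} (hc0 : 0 < c0)
    (hc1 : c0 ≤ 1) (ha : 1 ≤ a) (ht' : 0 < t') (h : t' ≤ t) (ht1 : t ≤ 1) (hη : 0 ≤ η)
    (hE0 : 0 < E0) (hE1 : E0 ≤ 1) (hEl : E0 < 4 / (l : ℝ) ^ 2)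
    (htl : t' * (l : ℝ) ^ 2 ≤ 1) (hNE : 1 ≤ (N : ℝ) * √(E0 / 2))
    (hN : 1 ≤ (N : ℝ) * √(t' / a))
    (hlow : ∀ k, c0 * EE (sc hl k) ≤ P k)
    (hP : ∀ k, EE (sc hl k) ≤ E0 →
      |P k - a * EE (sc hl k)| ≤ η * EE (sc hl k) * (1 + EE (sc hl k) / t)) :
    |(∑ k : V (N / l), fO t' t (P k)) / (N : ℝ) ^ 2 - Real.log (t / t') / (4 * π * a)| ≤
      2 * η / c0 ^ 3 * (601 + Real.log (1 / (t' * (l : ℝ) ^ 2)) / (4 * π)) +
        20800 * t / (c0 ^ 2 * E0) +
        (√t / 4 + 1200 * Real.exp (-((N : ℝ) * √(t' / a) / 16))) := by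
  classical
  have ha0 : 0 < a := by linarith
  have ht : 0 < t := ht'.trans_le h
  have hNp : (0 : ℝ) < (N : ℝ) ^ 2 := by
    have : (0 : ℝ) < N := by exact_mod_cast NeZero.pos N
    positivity
  have hc0a : c0 ≤ a := hc1.trans ha
  -- the three pieces
  set L := univ.filter (fun k : V (N / l) => EE (sc hl k) ≤ E0) with hL
  set H := univ.filter (fun k : V (N / l) => ¬ EE (sc hl k) ≤ E0) with hH
  have s1 : ∑ k : V (N / l), fO t' t (P k) = ∑ k ∈ L, fO t' t (P k) + ∑ k ∈ H, fO t' t (P k) :=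
    (Finset.sum_filter_add_sum_filter_not _ _ _).symm
  have s2 : ∑ p : V N, fO t' t (a * EE p) =
      ∑ p ∈ univ.filter (fun p : V N => EE p ≤ E0), fO t' t (a * EE p) +
        ∑ p ∈ univ.filter (fun p : V N => ¬ EE p ≤ E0), fO t' t (a * EE p) :=
    (Finset.sum_filter_add_sum_filter_not _ _ _).symm
  have s3 : ∑ p ∈ univ.filter (fun p : V N => EE p ≤ E0), fO t' t (a * EE p) =
      ∑ k ∈ L, fO t' t (a * EE (sc hl k)) := by
    symm
    refine Finset.sum_bij (fun k _ => sc hl k) ?_ ?_ ?_ ?_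
    · intro k hk
      exact Finset.mem_filter.2 ⟨mem_univ _, (Finset.mem_filter.1 hk).2⟩
    · intro k _ k' _ hkk
      exact sc_inj hl hkk
    · intro p hp
      have hp2 := (Finset.mem_filter.1 hp).2
      have e := sc_rd hl (p := p) (hp2.trans_lt hEl)
      exact ⟨rd p, Finset.mem_filter.2 ⟨mem_univ _, by rw [e]; exact hp2⟩, e⟩
    · intro k _
      rfl
  -- high part of the sites
  have hh := high_sum (N := N) hE0 hE1 hNE
  have eF : univ.filter (fun p : V N => ¬ EE p ≤ E0) = univ.filter (fun p : V N => E0 < EE p) := by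
    ext p
    simp [not_le]
  have h1 : ∑ p ∈ univ.filter (fun p : V N => ¬ EE p ≤ E0), fO t' t (a * EE p) ≤
      t / c0 ^ 2 * ∑ p ∈ univ.filter (fun p : V N => E0 < EE p), 1 / EE p ^ 2 := by
    rw [eF, Finset.mul_sum]
    refine Finset.sum_le_sum fun p hp => ?_
    have hp1 : E0 < EE p := (Finset.mem_filter.1 hp).2
    have hx : 0 < EE p := hE0.trans hp1
    refine (fO_le ht' h (by positivity)).trans ?_
    rw [mul_one_div, div_div, div_le_div_iff_of_pos_left ht (by positivity) (by positivity),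
      ← mul_pow]
    exact pow_le_pow_left₀ (by positivity) (mul_le_mul_of_nonneg_right hc0a hx.le) 2
  have h1' : 0 ≤ ∑ p ∈ univ.filter (fun p : V N => ¬ EE p ≤ E0), fO t' t (a * EE p) :=
    Finset.sum_nonneg fun p _ => fO_nonneg ht' h (mul_nonneg ha0.le (EE_nonneg p))
  have hPn : ∀ k, 0 ≤ P k := fun k =>
    (mul_nonneg hc0.le (EE_nonneg _)).trans (hlow k)
  have h2 : ∑ k ∈ H, fO t' t (P k) ≤
      t / c0 ^ 2 * ∑ p ∈ univ.filter (fun p : V N => E0 < EE p), 1 / EE p ^ 2 := by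
    have h3 : ∑ k ∈ H, fO t' t (P k) ≤ ∑ k ∈ H, t / c0 ^ 2 * (1 / EE (sc hl k) ^ 2) := by
      refine Finset.sum_le_sum fun k hk => ?_
      have hp1 : E0 < EE (sc hl k) := not_le.1 (Finset.mem_filter.1 hk).2
      have hx : 0 < EE (sc hl k) := hE0.trans hp1
      have hPk : 0 < P k := lt_of_lt_of_le (by positivity) (hlow k)
      refine (fO_le ht' h hPk).trans ?_
      rw [mul_one_div, div_div, div_le_div_iff_of_pos_left ht (by positivity) (by positivity),
        ← mul_pow]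
      exact pow_le_pow_left₀ (by positivity) (hlow k) 2
    refine h3.trans ?_
    rw [← Finset.mul_sum]
    refine mul_le_mul_of_nonneg_left ?_ (by positivity)
    have e4 : ∑ k ∈ H, 1 / EE (sc hl k) ^ 2 = ∑ p ∈ H.image (sc hl), 1 / EE p ^ 2 := by
      rw [Finset.sum_image fun x _ y _ hxy => sc_inj hl hxy]
    rw [e4]
    refine Finset.sum_le_sum_of_subset_of_nonneg ?_ fun p _ _ => by positivity
    intro p hp
    obtain ⟨k, hk, rfl⟩ := Finset.mem_image.1 hp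
    exact Finset.mem_filter.2 ⟨mem_univ _, not_le.1 (Finset.mem_filter.1 hk).2⟩
  have h2' : 0 ≤ ∑ k ∈ H, fO t' t (P k) :=
    Finset.sum_nonneg fun k _ => fO_nonneg ht' h (hPn k)
  have h3 : |∑ k ∈ L, fO t' t (P k) - ∑ k ∈ L, fO t' t (a * EE (sc hl k))| ≤
      2 * η / c0 ^ 3 * ∑ k : V (N / l), (EE (sc hl k) + t')⁻¹ := by
    rw [← Finset.sum_sub_distrib]
    refine (Finset.abs_sum_le_sum_abs _ _).trans ?_
    rw [Finset.mul_sum]
    refine le_trans (Finset.sum_le_sum fun k hk => ?_)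
      (Finset.sum_le_sum_of_subset_of_nonneg (Finset.filter_subset _ _) fun k _ _ => by
        have := EE_nonneg (sc hl k)
        positivity)
    exact H813.comp_k ht' h hc0 hc1 (EE_nonneg _) hη (hlow k)
      (mul_le_mul_of_nonneg_right hc0a (EE_nonneg _)) (hP k (Finset.mem_filter.1 hk).2)
  have hlow2 := low_sum hl ht' htl (by
    refine hN.trans (mul_le_mul_of_nonneg_left (Real.sqrt_le_sqrt (div_le_self ht'.le ha))
      (Nat.cast_nonneg _)))
  have href := ref_sum (N := N) ha ht' h ht1 hN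
  set S2 := ∑ p ∈ univ.filter (fun p : V N => E0 < EE p), 1 / EE p ^ 2 with hS2
  have h5 : t / c0 ^ 2 * S2 / (N : ℝ) ^ 2 ≤ 10400 * t / (c0 ^ 2 * E0) := by
    calc t / c0 ^ 2 * S2 / (N : ℝ) ^ 2 = t / c0 ^ 2 * (S2 / (N : ℝ) ^ 2) := by ring
      _ ≤ t / c0 ^ 2 * (10400 / E0) := mul_le_mul_of_nonneg_left hh (by positivity)
      _ = _ := by field_simp
  have h6 : |(∑ k : V (N / l), fO t' t (P k)) / (N : ℝ) ^ 2 -
      (∑ p : V N, fO t' t (a * EE p)) / (N : ℝ) ^ 2| ≤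
      2 * η / c0 ^ 3 * (601 + Real.log (1 / (t' * (l : ℝ) ^ 2)) / (4 * π)) +
        20800 * t / (c0 ^ 2 * E0) := by
    rw [← sub_div, abs_div, abs_of_pos hNp, s1, s2, s3]
    have e5 : (∑ k ∈ L, fO t' t (P k) + ∑ k ∈ H, fO t' t (P k)) -
        (∑ k ∈ L, fO t' t (a * EE (sc hl k)) +
          ∑ p ∈ univ.filter (fun p : V N => ¬ EE p ≤ E0), fO t' t (a * EE p)) =
        (∑ k ∈ L, fO t' t (P k) - ∑ k ∈ L, fO t' t (a * EE (sc hl k))) +
        (∑ k ∈ H, fO t' t (P k) -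
          ∑ p ∈ univ.filter (fun p : V N => ¬ EE p ≤ E0), fO t' t (a * EE p)) := by ring
    rw [e5]
    have h7 : |∑ k ∈ H, fO t' t (P k) -
        ∑ p ∈ univ.filter (fun p : V N => ¬ EE p ≤ E0), fO t' t (a * EE p)| ≤
        2 * (t / c0 ^ 2 * S2) := by
      rw [abs_le]
      constructor <;> linarith
    have h8 := (abs_add_le (∑ k ∈ L, fO t' t (P k) - ∑ k ∈ L, fO t' t (a * EE (sc hl k)))
        (∑ k ∈ H, fO t' t (P k) -
          ∑ p ∈ univ.filter (fun p : V N => ¬ EE p ≤ E0), fO t' t (a * EE p)))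
    have h9 : (2 * η / c0 ^ 3 * ∑ k : V (N / l), (EE (sc hl k) + t')⁻¹) / (N : ℝ) ^ 2 ≤
        2 * η / c0 ^ 3 * (601 + Real.log (1 / (t' * (l : ℝ) ^ 2)) / (4 * π)) := by
      rw [mul_div_assoc]
      exact mul_le_mul_of_nonneg_left hlow2 (by positivity)
    calc |∑ k ∈ L, fO t' t (P k) - ∑ k ∈ L, fO t' t (a * EE (sc hl k)) +
        (∑ k ∈ H, fO t' t (P k) -
          ∑ p ∈ univ.filter (fun p : V N => ¬ EE p ≤ E0), fO t' t (a * EE p))| / (N : ℝ) ^ 2 ≤
        (2 * η / c0 ^ 3 * ∑ k : V (N / l), (EE (sc hl k) + t')⁻¹ + 2 * (t / c0 ^ 2 * S2)) /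
          (N : ℝ) ^ 2 := div_le_div_of_nonneg_right (h8.trans (add_le_add h3 h7)) hNp.le
      _ = (2 * η / c0 ^ 3 * ∑ k : V (N / l), (EE (sc hl k) + t')⁻¹) / (N : ℝ) ^ 2 +
          2 * (t / c0 ^ 2 * S2 / (N : ℝ) ^ 2) := by ring
      _ ≤ 2 * η / c0 ^ 3 * (601 + Real.log (1 / (t' * (l : ℝ) ^ 2)) / (4 * π)) +
          2 * (10400 * t / (c0 ^ 2 * E0)) := by linarith
      _ = _ := by ring
  have e6 : (∑ k : V (N / l), fO t' t (P k)) / (N : ℝ) ^ 2 - Real.log (t / t') / (4 * π * a) =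
      ((∑ k : V (N / l), fO t' t (P k)) / (N : ℝ) ^ 2 -
        (∑ p : V N, fO t' t (a * EE p)) / (N : ℝ) ^ 2) +
      ((∑ p : V N, fO t' t (a * EE p)) / (N : ℝ) ^ 2 - Real.log (t / t') / (4 * π * a)) := by ring
  rw [e6]
  exact (abs_add_le _ _).trans (add_le_add h6 href)

end sums

end

end Vale.Agent.P159.H197
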