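import Vale.Agent.P159.H197.Ov1
import Vale.Agent.P159.H375.FineC
import Vale.Agent.P159.H276.Eta2
import Vale.Agent.P159.H363.Brd
import Vale.Agent.P159.H363.Inst
import Vale.Agent.P159.H963.Link
import Vale.Agent.P159.H972.Good

/-!
P159 / variance of one window (helper197, (O1) and (O2) of 846 / 889), part 2: the neutral cell
self energy against `a EE`, from the flat profile; the variances `vv` and `vT` as sums over the
cell momenta; the two final numbers.
-/

set_option linter.unusedSectionVars false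

namespace Vale.Agent.P159.H197

open Finset Real Matrix
open Vale.Agent.P159.TM.H764 (EE EE_nonneg cN pw)
open Vale.Agent.P159.TM.Spec (V)
open Vale.Agent.P159.H474 (SN)
open Vale.Agent.P159.H864 (cen rd rd1 sym TI)
open Vale.Agent.P159.H963 (Gnc Gnh Pin PinC)
open Vale.Agent.P159.H363 (acl sn)
open Vale.Agent.P159.H462 (Gam)
open Vale.Agent.P159.H972 (FL)

noncomputable section

variable {N l : ℕ} [NeZero N] [NeZero (N / l)] {b t t' : ℝ}

/-- at a central alias the two Laplacians are comparable (helper280) -/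
lemma cen_rd (hl : l ∣ N) {p : V N} (hp : cen l p) :
    (l : ℝ) ^ 2 * EE p ≤ 3 * EE (rd p : V (N / l)) := by
  have key : ∀ z : ZMod N, 2 * l * z.valMinAbs.natAbs ≤ N →
      (l : ℝ) ^ 2 * (1 - cN z) ≤ 3 * (1 - cN (rd1 z : ZMod (N / l))) := by
    intro z hz
    have h1 := H864.pw_cen hz
    have hlp : (0 : ℝ) < l := by exact_mod_cast H864.l_pos hl
    have h2 : cN (rd1 z : ZMod (N / l)) = Real.cos (l * pw z) := by
      have h3 : (rd1 z : ZMod (N / l)) = ((z.valMinAbs : ℤ) : ZMod (N / l)) := by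
        rw [← H864.rd1_intCast hl, ZMod.coe_valMinAbs]
      rw [h3, TM.H764.cN_int]
      congr 1
      unfold pw
      have hNl := H864.Nl (N := N) hl
      have hn : (0 : ℝ) < ((N / l : ℕ) : ℝ) := by exact_mod_cast NeZero.pos (N / l)
      rw [← hNl]
      field_simp
    rw [h2, TM.H764.cN_pw]
    have h4 : |(l : ℝ) * pw z| ≤ Real.pi := by
      rw [abs_mul, abs_of_pos hlp, mul_comm]
      exact h1
    have h5 := TM.H764.one_sub_cos_low h4
    have h6 := Real.one_sub_sq_div_two_le_cos (x := pw z)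
    have h7 : Real.pi ^ 2 ≤ 12 := by
      have := Real.pi_lt_d2
      nlinarith [Real.pi_pos]
    have h8 : (l : ℝ) ^ 2 * (1 - Real.cos (pw z)) ≤ (l : ℝ) ^ 2 * (pw z ^ 2 / 2) :=
      mul_le_mul_of_nonneg_left (by linarith) (by positivity)
    have h9 : (l : ℝ) ^ 2 * (pw z ^ 2 / 2) ≤ 3 * (2 / Real.pi ^ 2 * ((l : ℝ) * pw z) ^ 2) := by
      have h10 : 3 * (2 / Real.pi ^ 2 * ((l : ℝ) * pw z) ^ 2) =
          (12 / Real.pi ^ 2) * ((l : ℝ) ^ 2 * (pw z ^ 2 / 2)) := by
        field_simp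
        ring
      rw [h10]
      refine le_mul_of_one_le_left (by positivity) ?_
      rw [le_div_iff₀ (by positivity)]
      linarith
    linarith
  have h1 := key p.1 hp.1
  have h2 := key p.2 hp.2
  have e1 : EE p = 2 * (1 - cN p.1) + 2 * (1 - cN p.2) := rfl
  have e2 : EE (rd p : V (N / l)) =
      2 * (1 - cN (rd1 p.1 : ZMod (N / l))) + 2 * (1 - cN (rd1 p.2 : ZMod (N / l))) := rfl
  rw [e1, e2]
  nlinarith

/-- the neutral cell self energy, zero at the zero momentum -/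
def PC (N l : ℕ) [NeZero N] [NeZero (N / l)] (b t : ℝ) (k : V (N / l)) : ℝ :=
  if k = 0 then 0 else PinC N l b t t k

lemma sc_zero (hl : l ∣ N) : sc hl (0 : V (N / l)) = 0 := by
  have hl0 : (0 : ℝ) < l := by exact_mod_cast H864.l_pos hl
  have h1 := sc_rd (l := l) hl (p := (0 : V N)) (by
    rw [H813.EE_z]
    positivity)
  have h2 : (rd (0 : V N) : V (N / l)) = 0 := by
    unfold rd
    have h3 : (H864.rd1 (0 : ZMod N) : ZMod (N / l)) = 0 := by
      rw [H864.rd1_eq hl]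
      exact map_zero _
    exact Prod.ext h3 h3
  rw [h2] at h1
  exact h1

lemma sc_ne (hl : l ∣ N) {k : V (N / l)} (hk : k ≠ 0) : sc hl k ≠ 0 := by
  intro h
  apply hk
  have h1 := rd_sc hl k
  rw [h, ← sc_zero hl, rd_sc] at h1
  exact h1.symm

/-- lower bound of the cell self energy -/
theorem PC_low (hb : 0 < b) (hl : l ∣ N) (ht : 0 < t) {c0 : ℝ} (hc : 3 * b * c0 ≤ 1)
    (hc0 : 0 ≤ c0) (k : V (N / l)) : c0 * EE (sc hl k) ≤ PC N l b t k := by
  unfold PC
  by_cases hk : k = 0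
  · rw [if_pos hk, hk, sc_zero, H813.EE_z, mul_zero]
  rw [if_neg hk]
  have hl0 : (0 : ℝ) < l := by exact_mod_cast H864.l_pos hl
  have h1 := H859.Gnck_dom (N := N) (κ := 1 / b) hb.le hl ht le_rfl (by positivity)
    (by rw [mul_one_div_cancel hb.ne']) k
  have h2 := H963.sym_Gnc_pos hb hl ht le_rfl hk
  have h3 := cen_rd hl (cen_sc hl k)
  rw [rd_sc] at h3
  have hE := EE_nonneg k
  have h4 : 0 ≤ 1 / b / (l : ℝ) ^ 2 * EE k := by positivity
  have h5 := (le_inv_comm₀ h2 (by linarith)).1 h1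
  have h6 : EE (sc hl k) ≤ 3 * EE k / (l : ℝ) ^ 2 := by
    rw [le_div_iff₀ (by positivity)]
    linarith
  unfold PinC
  have h7 : c0 * EE (sc hl k) ≤ 1 / b / (l : ℝ) ^ 2 * EE k := by
    calc c0 * EE (sc hl k) ≤ c0 * (3 * EE k / (l : ℝ) ^ 2) := mul_le_mul_of_nonneg_left h6 hc0
      _ = (3 * b * c0) * (1 / b / (l : ℝ) ^ 2 * EE k) := by
          field_simp
      _ ≤ 1 * (1 / b / (l : ℝ) ^ 2 * EE k) := mul_le_mul_of_nonneg_right hc h4
      _ = _ := one_mul _
  linarith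


/-- arithmetic of the site self energy -/
lemma ar1 {t η a a' z E P : ℝ} (ht : 0 < t) (hη : 0 < η) (hη1 : η ≤ 1 / 2) (ha2 : a ≤ 2)
    (hE : 0 ≤ E) (hz : 0 ≤ z) (hz2 : z ≤ η * E) (haa : |a' - a| ≤ η)
    (hf : |P - z - a' * E| ≤ η * E ^ 2 / t) (hk : E ≤ t / η) :
    |P - a * E| ≤ 2 * η * E * (1 + E / t) ∧ t + P ≤ 6 * (t + E) := by
  have hfp := abs_le.1 hf
  have ha' := abs_le.1 haa
  have hq : 0 ≤ η * E ^ 2 / t := by positivity
  have h1 : |P - a * E| ≤ 2 * η * E * (1 + E / t) := by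
    have e1 : 2 * η * E * (1 + E / t) = 2 * η * E + 2 * (η * E ^ 2 / t) := by
      field_simp
    have b1 : a' * E ≤ (a + η) * E := mul_le_mul_of_nonneg_right (by linarith [ha'.2]) hE
    have b2 : (a - η) * E ≤ a' * E := mul_le_mul_of_nonneg_right (by linarith [ha'.1]) hE
    rw [e1, abs_le]
    constructor
    · linarith [hfp.1]
    · linarith [hfp.2]
  refine ⟨h1, ?_⟩
  have h3 := (abs_le.1 h1).2
  have h4 : 2 * η * E * (1 + E / t) ≤ 3 * E := by
    have h5 : η * (E / t) ≤ 1 := by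
      rw [le_div_iff₀ hη] at hk
      rw [← mul_div_assoc, div_le_one ht]
      linarith
    calc 2 * η * E * (1 + E / t) = 2 * E * (η + η * (E / t)) := by ring
      _ ≤ 2 * E * (1 / 2 + 1) := by gcongr
      _ = 3 * E := by ring
  have h6 : a * E ≤ 2 * E := mul_le_mul_of_nonneg_right ha2 hE
  linarith

/-- arithmetic of the cells -/
lemma ar2 {b t η E P L n : ℝ} (hb : 0 < b) (ht : 0 < t) (hη : 0 < η) (hη1 : η ≤ 1 / 2)
    (hE : 0 ≤ E) (hL : 0 ≤ L) (hn : 0 ≤ n) (hP : 0 ≤ t + P) (hP6 : t + P ≤ 6 * (t + E))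
    (hk : E ≤ t / η) (hnE : 1 ≤ n * E)
    (hfine : 200 * b * (t * L) * (1 + t * n) ≤ η ^ 2) :
    (t + P) * (6 * b * L) ≤ 1 / 2 ∧ 2 * (t + P) ^ 2 * (6 * b * L) ≤ 5 * η * E := by
  have h3 : t + E ≤ 2 * t / η := by
    have h4 : t ≤ t / η := by
      rw [le_div_iff₀ hη]
      nlinarith
    have : 2 * t / η = t / η + t / η := by ring
    linarith
  have h4 : t + E ≤ (1 + t * n) * E := by
    have h5 : t ≤ t * n * E := by
      calc t = t * 1 := (mul_one t).symm
        _ ≤ t * (n * E) := mul_le_mul_of_nonneg_left hnE ht.le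
        _ = _ := by ring
    linarith
  have h6 : 200 * b * (t * L) ≤ η ^ 2 := by
    refine le_trans ?_ hfine
    have : 0 ≤ 200 * b * (t * L) := by positivity
    exact le_mul_of_one_le_right this (by nlinarith [mul_nonneg ht.le hn])
  constructor
  · calc (t + P) * (6 * b * L) ≤ (6 * (2 * t / η)) * (6 * b * L) := by
            refine mul_le_mul_of_nonneg_right (hP6.trans ?_) (by positivity)
            linarith
      _ = (200 * b * (t * L)) * (72 / 200) / η := by ring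
      _ ≤ η ^ 2 * (72 / 200) / η := by gcongr
      _ = η * (72 / 200) := by field_simp
      _ ≤ 1 / 2 := by linarith
  · have h7 : (t + P) ^ 2 ≤ (6 * (t + E)) ^ 2 := pow_le_pow_left₀ hP hP6 2
    have h8 : (t + E) ^ 2 ≤ (2 * t / η) * ((1 + t * n) * E) := by
      rw [pow_two]
      exact mul_le_mul h3 h4 (by positivity) (by positivity)
    calc 2 * (t + P) ^ 2 * (6 * b * L) ≤ 2 * (6 * (t + E)) ^ 2 * (6 * b * L) := by gcongr
      _ = 432 * (t + E) ^ 2 * (b * L) := by ring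
      _ ≤ 432 * ((2 * t / η) * ((1 + t * n) * E)) * (b * L) := by gcongr
      _ = (200 * b * (t * L) * (1 + t * n)) * ((864 / 200) * E) / η := by ring
      _ ≤ η ^ 2 * ((864 / 200) * E) / η := by gcongr
      _ = (864 / 200) * (η * E) := by field_simp
      _ ≤ 5 * (η * E) := by
          have : 0 ≤ η * E := by positivity
          linarith
      _ = 5 * η * E := by ring

/-- the cell self energy is `a EE` up to a small relative error -/
theorem PC_flat (hb : 0 < b) (hl : l ∣ N) (ht : 0 < t) {a η : ℝ} (ha2 : a ≤ 2)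
    (hη : 0 < η) (hη1 : η ≤ 1 / 2) (hF : FL b t a η N)
    (hfine : 200 * b * (t * (l : ℝ) ^ 2) * (1 + t * (N : ℝ) ^ 2) ≤ η ^ 2) (k : V (N / l))
    (hk : EE (sc hl k) ≤ t / η) :
    |PC N l b t k - a * EE (sc hl k)| ≤ 7 * η * EE (sc hl k) * (1 + EE (sc hl k) / t) := by
  unfold PC
  by_cases hk0 : k = 0
  · rw [if_pos hk0, hk0, sc_zero, H813.EE_z]
    simp
  rw [if_neg hk0]
  have hN : (0 : ℝ) < N := by exact_mod_cast NeZero.pos N
  have hl0 : (0 : ℝ) < l := by exact_mod_cast H864.l_pos hl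
  obtain ⟨z, a', hz, hzN, haa, hfl⟩ := hF
  have hp0 : sc hl k ≠ 0 := sc_ne hl hk0
  have hcen := cen_sc hl k
  have hrd := rd_sc hl k
  generalize sc hl k = p at hk hp0 hcen hrd ⊢
  have hE0 : 0 ≤ EE p := EE_nonneg p
  have hgap : 16 / (N : ℝ) ^ 2 ≤ EE p := H462.EE_gap hp0
  have hnE : 1 ≤ (N : ℝ) ^ 2 * EE p := by
    rw [div_le_iff₀ (by positivity)] at hgap
    linarith
  have hz2 : z ≤ η * EE p := by
    have h2 : z * 1 ≤ z * ((N : ℝ) ^ 2 * EE p) := mul_le_mul_of_nonneg_left hnE hz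
    have h3 : z * (N : ℝ) ^ 2 * EE p ≤ η * EE p := mul_le_mul_of_nonneg_right hzN hE0
    linarith
  obtain ⟨h1, h2⟩ := ar1 ht hη hη1 ha2 hE0 hz hz2 haa (hfl p hp0) hk
  have hdom := H276.Gnh_dom (N := N) hb ht
  have hcell := H375.abs_Gnc_sub_le (N := N) (c0 := 1 / b) hb.le hl ht (by positivity) hdom hcen
  rw [hrd] at hcell
  have hg := H963.Gnh_pos (N := N) hb ht hp0
  have e1 : t + Pin N b t p = (Gnh N b t p)⁻¹ := by
    unfold Pin
    ring
  have e2 : 6 * (l : ℝ) ^ 2 / (1 / b) = 6 * b * (l : ℝ) ^ 2 := by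
    field_simp
  rw [e2] at hcell
  obtain ⟨h3, h4⟩ := ar2 (L := (l : ℝ) ^ 2) (n := (N : ℝ) ^ 2) hb ht hη hη1 hE0 (by positivity)
    (by positivity) (by rw [e1]; positivity) h2 hk hnE hfine
  have h5 := (H375.abs_inv_sub_le hg hcell (by rw [← e1]; exact h3)).2
  have e3 : PinC N l b t t k - Pin N b t p = (sym (Gnc N l b t t) k)⁻¹ - (Gnh N b t p)⁻¹ := by
    unfold PinC Pin
    ring
  rw [← e3, ← e1] at h5
  have h9 := abs_sub_le (PinC N l b t t k) (Pin N b t p) (a * EE p)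
  have h12 : 0 ≤ η * EE p * (EE p / t) := by positivity
  have h13 : 7 * η * EE p * (1 + EE p / t) = 7 * (η * EE p) + 7 * (η * EE p * (EE p / t)) := by
    ring
  have h14 : 2 * η * EE p * (1 + EE p / t) = 2 * (η * EE p) + 2 * (η * EE p * (EE p / t)) := by
    ring
  rw [h13]
  rw [h14] at h1
  linarith

/-- the increment of the variance -/
theorem vv_eq (hb : 0 < b) (hl : l ∣ N) (ht' : 0 < t') (h : t' < t) :
    H363.vv (sn l t t') (t * (l : ℝ) ^ 2) (acl N l b t t) =
      (∑ k : V (N / l), fO t' t (PC N l b t k)) / (N : ℝ) ^ 2 := by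
  have ht : 0 < t := ht'.trans h
  have hl0 : (0 : ℝ) < l := by exact_mod_cast H864.l_pos hl
  have hNl := H864.Nl (N := N) hl
  have hn : (0 : ℝ) < ((N / l : ℕ) : ℝ) := by exact_mod_cast NeZero.pos (N / l)
  have tA := H363.ti_acl (N := N) hb.le hl ht (le_refl t)
  have tS : TI (1 - (t * (l : ℝ) ^ 2)⁻¹ • acl N l b t t) := TI.one.sub (tA.smul _)
  have tG := H462.ti_Gam (sn l t t') (acl N l b t t)
  unfold H363.vv
  rw [((tS.mul tG).mul tS).diag_eq, ← hNl, mul_pow, inv_mul_eq_div, div_mul_eq_div_div_swap]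
  congr 1
  rw [Finset.sum_div]
  refine Finset.sum_congr rfl fun k _ => ?_
  rw [H864.sym_mul (tS.mul tG) tS, H864.sym_mul tS tG, H462.sym_Gam, H864.sym_sub, H864.sym_one,
    H864.sym_smul]
  unfold sn fO PC
  by_cases hk : k = 0
  · rw [if_pos hk, hk, H363.sym_acl_zero hl hb.le ht le_rfl]
    field_simp
    ring
  · rw [if_neg hk, H363.sym_acl_eq hb hl ht le_rfl hk]
    have hP := H963.PinC_nonneg hb hl ht le_rfl hk
    have h1 : 0 < t + PinC N l b t t k := by linarith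
    have h2 : 0 < t' + PinC N l b t t k := by linarith
    generalize PinC N l b t t k = P at hP h1 h2 ⊢
    have e1 : 1 - (t * (l : ℝ) ^ 2)⁻¹ * ((l : ℝ) ^ 2 * (t * P / (t + P))) = t / (t + P) := by
      field_simp
      ring
    have e2 : 1 + (t'⁻¹ - t⁻¹) / (l : ℝ) ^ 2 * ((l : ℝ) ^ 2 * (t * P / (t + P))) =
        t * (t' + P) / (t' * (t + P)) := by
      field_simp
      ring
    rw [e1, e2]
    field_simp
    ring

end

end Vale.Agent.P159.H197
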