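import Vale.Agent.P159.H197.Ov2
import Vale.Agent.P159.H197.Nk13

/-!
P159 / variance of one window (helper197, (O1) and (O2) of 846 / 889), part 3: the variance
increment of one window and the typical variance, for general numbers.
-/

set_option linter.unusedSectionVars false

namespace Vale.Agent.P159.H197

open Finset Real Matrix Filter Topology
open Vale.Agent.P159.TM.H764 (EE EE_nonneg)
open Vale.Agent.P159.TM.Spec (V)
open Vale.Agent.P159.H864 (cen rd sym TI)
open Vale.Agent.P159.H963 (Gnc Gnh Pin PinC)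
open Vale.Agent.P159.LNK (vT)
open Vale.Agent.P159.H363 (acl sn)
open Vale.Agent.P159.H972 (FL Par lg)
open Vale.Agent.P159.H37 (small_rpow lg_lo lg_hi)

noncomputable section

section gen

variable {N l : ℕ} [NeZero N] [NeZero (N / l)] {b t t' t₂ : ℝ}

/-- error of the lattice sums -/
def eO (N l : ℕ) (a c0 η t' t : ℝ) : ℝ :=
  14 * η / c0 ^ 3 * (601 + Real.log (1 / (t' * (l : ℝ) ^ 2)) / (4 * π)) + 20800 * η / c0 ^ 2 +
    (√t / 4 + 1200 * Real.exp (-((N : ℝ) * √(t' / a) / 16)))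

/-- the sum over the cell momenta, from the flat profile at mass `t`; any target masses
`t' <= t₂ <= t` -/
theorem pc_sum (hb : 0 < b) (hl : l ∣ N) {a c0 η : ℝ} (hc0 : 0 < c0) (hc1 : c0 ≤ 1)
    (hcb : 3 * b * c0 ≤ 1) (ha : 1 ≤ a) (ha2 : a ≤ 2) (ht' : 0 < t') (h : t' ≤ t₂) (h2 : t₂ ≤ t)
    (htη : t ≤ η) (hη1 : η ≤ 1 / 2) (hF : FL b t a η N)
    (hfine : 200 * b * (t * (l : ℝ) ^ 2) * (1 + t * (N : ℝ) ^ 2) ≤ η ^ 2)
    (hlη : t * (l : ℝ) ^ 2 ≤ η) (hN : 1 ≤ (N : ℝ) * √(t' / a)) :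
    |(∑ k : V (N / l), fO t' t₂ (PC N l b t k)) / (N : ℝ) ^ 2 -
      Real.log (t₂ / t') / (4 * π * a)| ≤ eO N l a c0 η t' t₂ := by
  have ht2 : 0 < t₂ := ht'.trans_le h
  have ht : 0 < t := ht2.trans_le h2
  have hη : 0 < η := ht.trans_le htη
  have ha0 : 0 < a := by linarith
  have hl0 : (0 : ℝ) < l := by exact_mod_cast H864.l_pos hl
  have hNp : (0 : ℝ) < N := by exact_mod_cast NeZero.pos N
  have h1 : 1 ≤ (N : ℝ) * √(t₂ / η / 2) := by
    refine hN.trans (mul_le_mul_of_nonneg_left (Real.sqrt_le_sqrt ?_) hNp.le)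
    have h2 : t' / a ≤ t' := div_le_self ht'.le ha
    have h3 : t₂ ≤ t₂ / η / 2 := by
      rw [div_div, le_div_iff₀ (by positivity)]
      nlinarith
    linarith
  have hm2 : t₂ * (l : ℝ) ^ 2 ≤ t * (l : ℝ) ^ 2 := mul_le_mul_of_nonneg_right h2 (by positivity)
  have hm : t' * (l : ℝ) ^ 2 ≤ 1 := by
    have : t' * (l : ℝ) ^ 2 ≤ t₂ * (l : ℝ) ^ 2 := mul_le_mul_of_nonneg_right h (by positivity)
    linarith
  have h4 := cell_sum (N := N) (P := PC N l b t) (a := a) (c0 := c0) (η := 7 * η)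
    (E0 := t₂ / η) hl hc0 hc1 ha ht' h (by linarith) (by positivity) (by positivity)
    (by rw [div_le_one hη]; linarith)
    (by
      rw [div_lt_div_iff₀ hη (by positivity)]
      linarith) hm h1 hN (PC_low hb hl ht hcb hc0.le)
    (fun k hk => by
      have h5 : EE (sc hl k) ≤ t / η := hk.trans (div_le_div_of_nonneg_right h2 hη.le)
      refine (PC_flat hb hl ht ha2 hη hη1 hF hfine k h5).trans ?_
      have h6 := EE_nonneg (sc hl k)
      have h7 : EE (sc hl k) / t ≤ EE (sc hl k) / t₂ := div_le_div_of_nonneg_left h6 ht2 h2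
      exact mul_le_mul_of_nonneg_left (by linarith) (by positivity))
  refine h4.trans (le_of_eq ?_)
  unfold eO
  field_simp
  ring

/-- **(O1)**: the variance increment of one window -/
theorem o1_gen (hb : 0 < b) (hl : l ∣ N) {a c0 η : ℝ} (hc0 : 0 < c0) (hc1 : c0 ≤ 1)
    (hcb : 3 * b * c0 ≤ 1) (ha : 1 ≤ a) (ha2 : a ≤ 2) (ht' : 0 < t') (h : t' < t) (htη : t ≤ η)
    (hη1 : η ≤ 1 / 2) (hF : FL b t a η N)
    (hfine : 200 * b * (t * (l : ℝ) ^ 2) * (1 + t * (N : ℝ) ^ 2) ≤ η ^ 2)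
    (hlη : t * (l : ℝ) ^ 2 ≤ η) (hN : 1 ≤ (N : ℝ) * √(t' / a)) :
    |H363.vv (sn l t t') (t * (l : ℝ) ^ 2) (acl N l b t t) - Real.log (t / t') / (4 * π * a)| ≤
      eO N l a c0 η t' t := by
  rw [vv_eq hb hl ht' h]
  exact pc_sum hb hl hc0 hc1 hcb ha ha2 ht' h.le le_rfl htη hη1 hF hfine hlη hN

/-- the cell self energy is at least the gap -/
lemma PC_gap (hb : 0 < b) (hl : l ∣ N) (ht : 0 < t) {c0 : ℝ} (hc : 3 * b * c0 ≤ 1)
    (hc0 : 0 ≤ c0) {k : V (N / l)} (hk : k ≠ 0) : 16 * c0 / (N : ℝ) ^ 2 ≤ PC N l b t k := by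
  refine le_trans ?_ (PC_low hb hl ht hc hc0 k)
  have h1 : 16 / (N : ℝ) ^ 2 ≤ EE (sc hl k) := H462.EE_gap (sc_ne hl hk)
  calc 16 * c0 / (N : ℝ) ^ 2 = c0 * (16 / (N : ℝ) ^ 2) := by ring
    _ ≤ _ := mul_le_mul_of_nonneg_left h1 hc0

lemma PC_pos (hb : 0 < b) (hl : l ∣ N) (ht : 0 < t) {k : V (N / l)} (hk : k ≠ 0) :
    0 < PC N l b t k := by
  have hNp : (0 : ℝ) < N := by exact_mod_cast NeZero.pos N
  have h1 := PC_gap (N := N) (l := l) (c0 := 1 / (3 * b)) hb hl ht (by field_simp; norm_num)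
    (by positivity) hk
  have h2 : 0 < 16 * (1 / (3 * b)) / (N : ℝ) ^ 2 := by positivity
  linarith

/-- the covariance of the typical law is nondegenerate off the zero momentum -/
theorem nf_acl (hb : 0 < b) (hl : l ∣ N) (ht : 0 < t) : H363.Nf (acl N l b t t) where
  ti := H363.ti_acl hb.le hl ht le_rfl
  pos := fun k hk => by
    have h1 := PC_pos (N := N) (l := l) hb hl ht hk
    unfold PC at h1
    rw [if_neg hk] at h1
    have hl0 : (0 : ℝ) < l := by exact_mod_cast H864.l_pos hl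
    rw [H363.sym_acl_eq hb hl ht le_rfl hk]
    positivity
  zero := H363.sym_acl_zero hl hb.le ht le_rfl

/-- the typical variance as a sum over the nonzero cell momenta -/
theorem vT_PC (hb : 0 < b) (hl : l ∣ N) (ht : 0 < t) :
    vT (t * (l : ℝ) ^ 2) (acl N l b t t) =
      (∑ k : V (N / l), if k = 0 then 0 else
        (1 / PC N l b t k - 1 / (t + PC N l b t k))) / (N : ℝ) ^ 2 := by
  have hl0 : (0 : ℝ) < l := by exact_mod_cast H864.l_pos hl
  have hNl := H864.Nl (N := N) hl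
  have hn : (0 : ℝ) < ((N / l : ℕ) : ℝ) := by exact_mod_cast NeZero.pos (N / l)
  rw [LNK.vT_eq (nf_acl hb hl ht), ← hNl, mul_pow, inv_mul_eq_div, div_mul_eq_div_div_swap]
  congr 1
  rw [Finset.sum_div]
  refine Finset.sum_congr rfl fun k _ => ?_
  by_cases hk : k = 0
  · rw [if_pos hk, hk, H363.sym_acl_zero hl hb.le ht le_rfl]
    simp
  · rw [if_neg hk, H363.sym_acl_eq hb hl ht le_rfl hk]
    have hP := PC_pos (N := N) (l := l) hb hl ht hk
    unfold PC at hP ⊢
    rw [if_neg hk] at hP ⊢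
    generalize PinC N l b t t k = P at hP ⊢
    have e1 : 1 - (t * (l : ℝ) ^ 2)⁻¹ * ((l : ℝ) ^ 2 * (t * P / (t + P))) = t / (t + P) := by
      field_simp
      ring
    rw [e1]
    field_simp
    ring

/-- **(O2), lower half** -/
theorem o2_low (hb : 0 < b) (hl : l ∣ N) {a c0 η : ℝ} (hc0 : 0 < c0) (hc1 : c0 ≤ 1)
    (hcb : 3 * b * c0 ≤ 1) (ha : 1 ≤ a) (ha2 : a ≤ 2) (ht' : 0 < t') (h : t' ≤ t) (htη : t ≤ η)
    (hη1 : η ≤ 1 / 2) (hF : FL b t a η N)
    (hfine : 200 * b * (t * (l : ℝ) ^ 2) * (1 + t * (N : ℝ) ^ 2) ≤ η ^ 2)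
    (hlη : t * (l : ℝ) ^ 2 ≤ η) (hN : 1 ≤ (N : ℝ) * √(t' / a)) :
    Real.log (t / t') / (4 * π * a) - eO N l a c0 η t' t - 1 / (t' * (N : ℝ) ^ 2) ≤
      vT (t * (l : ℝ) ^ 2) (acl N l b t t) := by
  classical
  have ht : 0 < t := ht'.trans_le h
  have hNp : (0 : ℝ) < (N : ℝ) ^ 2 := by
    have : (0 : ℝ) < N := by exact_mod_cast NeZero.pos N
    positivity
  have h1 := (abs_le.1 (pc_sum (N := N) (l := l) hb hl hc0 hc1 hcb ha ha2 ht' h le_rfl htη hη1 hF
    hfine hlη hN)).1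
  rw [vT_PC hb hl ht]
  have h2 : ∑ k : V (N / l), fO t' t (PC N l b t k) ≤
      (∑ k : V (N / l), if k = 0 then 0 else
        (1 / PC N l b t k - 1 / (t + PC N l b t k))) + 1 / t' := by
    have h3 : (1 / t' : ℝ) = ∑ k : V (N / l), if k = 0 then 1 / t' else 0 := by
      rw [Finset.sum_ite_eq' univ (0 : V (N / l)) fun _ => 1 / t', if_pos (mem_univ _)]
    rw [h3, ← Finset.sum_add_distrib]
    refine Finset.sum_le_sum fun k _ => ?_
    by_cases hk : k = 0
    · rw [if_pos hk, if_pos hk, hk]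
      unfold PC fO
      rw [if_pos rfl, add_zero, add_zero, zero_add]
      have : 0 ≤ 1 / t := by positivity
      linarith
    · rw [if_neg hk, if_neg hk, add_zero]
      have hP := PC_pos (N := N) (l := l) hb hl ht hk
      unfold fO
      have : 1 / (t' + PC N l b t k) ≤ 1 / PC N l b t k :=
        one_div_le_one_div_of_le hP (by linarith)
      linarith
  have h4 := div_le_div_of_nonneg_right h2 hNp.le
  rw [add_div, div_div] at h4
  linarith

/-- **(O2), upper half** -/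
theorem o2_up (hb : 0 < b) (hl : l ∣ N) {a c0 η : ℝ} (hc0 : 0 < c0) (hc1 : c0 ≤ 1)
    (hcb : 3 * b * c0 ≤ 1) (ha : 1 ≤ a) (ha2 : a ≤ 2) (ht' : 0 < t') (h : 2 * t' ≤ t) (htη : t ≤ η)
    (hη1 : η ≤ 1 / 2) (hF : FL b t a η N)
    (hfine : 200 * b * (t * (l : ℝ) ^ 2) * (1 + t * (N : ℝ) ^ 2) ≤ η ^ 2)
    (hlη : t * (l : ℝ) ^ 2 ≤ η) (hN : 1 ≤ (N : ℝ) * √(t' / a)) :
    vT (t * (l : ℝ) ^ 2) (acl N l b t t) ≤
      Real.log (t / t') / (4 * π * a) + eO N l a c0 η t' t +
        (1 + t' * (N : ℝ) ^ 2 / (8 * c0)) * (1 / (4 * π) + eO N l a c0 η t' (2 * t')) := by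
  classical
  have ht : 0 < t := by linarith
  have ha0 : 0 < a := by linarith
  have hNp : (0 : ℝ) < (N : ℝ) ^ 2 := by
    have : (0 : ℝ) < N := by exact_mod_cast NeZero.pos N
    positivity
  have h1 := (abs_le.1 (pc_sum (N := N) (l := l) hb hl hc0 hc1 hcb ha ha2 ht' (by linarith) le_rfl
    htη hη1 hF hfine hlη hN)).2
  have h1' := (abs_le.1 (pc_sum (N := N) (l := l) (t₂ := 2 * t') hb hl hc0 hc1 hcb ha ha2 ht'
    (by linarith) h htη hη1 hF hfine hlη hN)).2
  rw [vT_PC hb hl ht]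
  set C3 : ℝ := 1 + t' * (N : ℝ) ^ 2 / (8 * c0) with hC3
  have hC30 : 0 ≤ C3 := by positivity
  have h2 : (∑ k : V (N / l), if k = 0 then 0 else
        (1 / PC N l b t k - 1 / (t + PC N l b t k))) ≤
      (∑ k : V (N / l), fO t' t (PC N l b t k)) +
        C3 * ∑ k : V (N / l), fO t' (2 * t') (PC N l b t k) := by
    rw [Finset.mul_sum, ← Finset.sum_add_distrib]
    refine Finset.sum_le_sum fun k _ => ?_
    have hP0 : 0 ≤ PC N l b t k := (mul_nonneg hc0.le (EE_nonneg _)).trans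
      (PC_low hb hl ht hcb hc0.le k)
    by_cases hk : k = 0
    · rw [if_pos hk]
      exact add_nonneg (fO_nonneg ht' (by linarith) hP0)
        (mul_nonneg hC30 (fO_nonneg ht' (by linarith) hP0))
    · rw [if_neg hk]
      have hP := PC_pos (N := N) (l := l) hb hl ht hk
      have hg := PC_gap (N := N) (l := l) hb hl ht hcb hc0.le hk
      generalize PC N l b t k = P at hP hg ⊢
      have h5 : 1 / P - 1 / (t' + P) ≤ C3 * fO t' (2 * t') P := by
        have h6 : (2 * t' + P) / P ≤ C3 := by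
          rw [hC3, add_div, div_self hP.ne', add_comm]
          have : 2 * t' / P ≤ t' * (N : ℝ) ^ 2 / (8 * c0) := by
            rw [div_le_div_iff₀ hP (by positivity)]
            rw [div_le_iff₀ hNp] at hg
            nlinarith
          linarith
        have h7 : 1 / P - 1 / (t' + P) = ((2 * t' + P) / P) * fO t' (2 * t') P := by
          unfold fO
          field_simp
          ring
        rw [h7]
        exact mul_le_mul_of_nonneg_right h6 (fO_nonneg ht' (by linarith) hP.le)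
      unfold fO at h5 ⊢
      linarith
  have h4 := div_le_div_of_nonneg_right h2 hNp.le
  rw [add_div, mul_div_assoc] at h4
  have h8 : Real.log (2 * t' / t') / (4 * π * a) ≤ 1 / (4 * π) := by
    rw [mul_div_assoc, div_self ht'.ne', mul_one]
    have h9 : Real.log 2 ≤ 1 := by
      have := Real.log_two_lt_d9
      linarith
    calc Real.log 2 / (4 * π * a) ≤ 1 / (4 * π * a) := by gcongr
      _ ≤ 1 / (4 * π) := by
          apply one_div_le_one_div_of_le (by positivity)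
          have := Real.pi_pos
          nlinarith
  have h10 : (∑ k : V (N / l), fO t' (2 * t') (PC N l b t k)) / (N : ℝ) ^ 2 ≤
      1 / (4 * π) + eO N l a c0 η t' (2 * t') := by linarith
  have h11 := mul_le_mul_of_nonneg_left h10 hC30
  linarith

end gen

end

end Vale.Agent.P159.H197
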