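import Vale.Agent.P159.H197.Ov3

/-!
P159 / variance of one window (helper197, (O1) and (O2) of 846 / 889), part 4: the numbers in the
letters of LIST P_up / VS. `N = 2 ^ r` in `TT n e`, cells `2 ^ s` with `2 ^ s / 2 ^ n <= e ^ C1`.
-/

set_option linter.unusedSectionVars false

namespace Vale.Agent.P159.H197

open Finset Real Matrix Filter Topology
open Vale.Agent.P159.TM.H764 (EE EE_nonneg)
open Vale.Agent.P159.TM.Spec (V)
open Vale.Agent.P159.LNK (vT)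
open Vale.Agent.P159.H363 (acl sn)
open Vale.Agent.P159.H972 (FL Par lg tn_pos)
open Vale.Agent.P159.H37 (small_rpow lg_lo lg_hi)

noncomputable section

/-- the cells are small: the level is large -/
lemma two_n_le {n s : ℕ} {e C1 : ℝ} (he : 0 < e) (he1 : e ≤ 1) (hC : 1 ≤ 2 * C1)
    (hn : n ≤ 2 * s) (hs : (2 : ℝ) ^ s / 2 ^ n ≤ e ^ C1) : ((2 : ℝ) ^ n)⁻¹ ≤ e := by
  have h1 : ((2 : ℝ) ^ n)⁻¹ ≤ ((2 : ℝ) ^ s / 2 ^ n) ^ 2 := by
    rw [div_pow, inv_eq_one_div, div_le_div_iff₀ (by positivity) (by positivity), one_mul,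
      ← pow_mul, ← pow_mul, ← pow_add]
    exact pow_le_pow_right₀ (by norm_num) (by omega)
  have h2 : ((2 : ℝ) ^ s / 2 ^ n) ^ 2 ≤ (e ^ C1) ^ 2 := pow_le_pow_left₀ (by positivity) hs 2
  have h3 : (e ^ C1) ^ 2 = e ^ (2 * C1) := by
    rw [← Real.rpow_natCast, ← Real.rpow_mul he.le]
    congr 1
    push_cast
    ring
  have h4 : e ^ (2 * C1) ≤ e ^ (1 : ℝ) := Real.rpow_le_rpow_of_exponent_ge he he1 hC
  rw [Real.rpow_one] at h4
  linarith

/-- the torus of the next state is large in units of the new length -/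
lemma ratio_of {P : Par} {e e' : ℝ} {m r : ℕ} (he : 0 < e) (he' : 0 < e')
    (hee : e' ≤ e ^ (1 / 2 : ℝ)) (hr : m + P.kE e' ≤ r) :
    e ^ (-(P.th / 2)) ≤ (2 : ℝ) ^ r / 2 ^ m := by
  have h1 : e ^ (-(P.th / 2)) ≤ e' ^ (-P.th) := by
    have h2 : e ^ (-(P.th / 2)) = (e ^ (1 / 2 : ℝ)) ^ (-P.th) := by
      rw [← Real.rpow_mul he.le]
      congr 1
      ring
    rw [h2]
    exact Real.rpow_le_rpow_of_nonpos he' hee (by have := P.th0; linarith)
  have h3 : e' ^ (-P.th) ≤ (2 : ℝ) ^ P.kE e' := lg_lo he'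
  have h4 : (2 : ℝ) ^ P.kE e' ≤ (2 : ℝ) ^ r / 2 ^ m := by
    rw [le_div_iff₀ (by positivity), ← pow_add]
    exact pow_le_pow_right₀ (by norm_num) (by omega)
  linarith

lemma tn_cast (n r : ℕ) : H972.tn n * (((2 ^ r : ℕ) : ℝ)) ^ 2 = (4 : ℝ) ^ r / 4 ^ n := by
  unfold H972.tn
  push_cast
  rw [← pow_mul, mul_comm r 2, pow_mul]
  norm_num
  field_simp

/-- the preconditions of the lattice sums -/
theorem ov_pre {b2 pf th thp C1 A : ℝ} (q0 : ℕ) (hb2 : 0 < b2) (hpf : 0 < pf) (hpf1 : pf ≤ 1)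
    (hA : 1 ≤ A) (hth : 0 < th) (hthp : 0 < thp) (hC1 : pf + th + 4 * q0 * thp < C1) :
    ∃ E, 0 < E ∧ E ≤ 1 ∧ ∀ P : Par, P.th = th → P.thp = thp → P.q0 = q0 →
      ∀ (b e : ℝ) (n r s : ℕ), 0 < b → b ≤ b2 → 0 < e → e ≤ E →
        r ≤ n + P.kE e + P.q0 * (4 * P.w e) → (2 : ℝ) ^ s / 2 ^ n ≤ e ^ C1 →
        ((2 : ℝ) ^ n)⁻¹ ≤ e →
        H972.tn n ≤ A * e ^ pf ∧ A * e ^ pf ≤ 1 / 2 ∧
        200 * b * (H972.tn n * (((2 ^ s : ℕ) : ℝ)) ^ 2) * (1 + H972.tn n * (((2 ^ r : ℕ) : ℝ)) ^ 2) ≤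
          (A * e ^ pf) ^ 2 ∧
        H972.tn n * (((2 ^ s : ℕ) : ℝ)) ^ 2 ≤ A * e ^ pf := by
  obtain ⟨e1, he1, k1⟩ := small_rpow (s := pf) (A := A) (B := 1 / 2) hpf (by norm_num)
  obtain ⟨e2, he2, k2⟩ := small_rpow (s := 2 * (C1 - (pf + th + 4 * q0 * thp)))
    (A := 400 * b2 * 4 ^ (1 + 4 * q0)) (B := 1) (by linarith) one_pos
  refine ⟨min 1 (min e1 e2), by positivity, min_le_left _ _, ?_⟩
  intro P p1 p2 p3 b e n r s hb hbb he hee hr hs hn
  have le1 : e ≤ 1 := hee.trans (min_le_left _ _)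
  have q1 := k1 e he (hee.trans ((min_le_right _ _).trans (min_le_left _ _)))
  have q2 := k2 e he (hee.trans ((min_le_right _ _).trans (min_le_right _ _)))
  have hT0 := fl_tor (P := P) (m := n) he le1 hr
  rw [p1, p2, p3] at hT0
  rw [tn_cast, tn_cast]
  have hq0 : (0 : ℝ) ≤ q0 := Nat.cast_nonneg _
  have hw0 : 0 ≤ 4 * (q0 : ℝ) * thp := by positivity
  have f1 : e ≤ e ^ pf := by
    calc e = e ^ (1 : ℝ) := (Real.rpow_one e).symm
      _ ≤ e ^ pf := Real.rpow_le_rpow_of_exponent_ge he le1 hpf1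
  have f2 : 0 < e ^ pf := Real.rpow_pos_of_pos he _
  have f3 : e ^ pf ≤ A * e ^ pf := le_mul_of_one_le_left f2.le hA
  have f4 : (4 : ℝ) ^ s / 4 ^ n ≤ e ^ (2 * C1) := by
    have g1 : (4 : ℝ) ^ s / 4 ^ n = ((2 : ℝ) ^ s / 2 ^ n) ^ 2 := by
      rw [div_pow, ← pow_mul, ← pow_mul, mul_comm s 2, mul_comm n 2, pow_mul, pow_mul]
      norm_num
    have g2 : e ^ (2 * C1) = (e ^ C1) ^ 2 := by
      rw [← Real.rpow_natCast, ← Real.rpow_mul he.le]
      congr 1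
      push_cast
      ring
    rw [g1, g2]
    exact pow_le_pow_left₀ (by positivity) hs 2
  have f5 : H972.tn n ≤ e := by
    have g1 : H972.tn n = ((2 : ℝ) ^ n)⁻¹ * ((2 : ℝ) ^ n)⁻¹ := by
      unfold H972.tn
      rw [← mul_inv, ← mul_pow]
      norm_num
    rw [g1]
    have g2 : (0 : ℝ) < ((2 : ℝ) ^ n)⁻¹ := by positivity
    nlinarith
  refine ⟨by linarith, q1, ?_, ?_⟩
  · have g1 : (1 : ℝ) + 4 ^ r / 4 ^ n ≤
        2 * (4 ^ (1 + 4 * q0) * e ^ (-(2 * (th + 4 * q0 * thp)))) := by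
      have g2 : (1 : ℝ) ≤ e ^ (-(2 * (th + 4 * q0 * thp))) :=
        Real.one_le_rpow_of_pos_of_le_one_of_nonpos he le1 (by linarith)
      have g3 : (1 : ℝ) ≤ 4 ^ (1 + 4 * q0) := one_le_pow₀ (by norm_num)
      nlinarith
    calc 200 * b * ((4 : ℝ) ^ s / 4 ^ n) * (1 + 4 ^ r / 4 ^ n)
        ≤ 200 * b2 * e ^ (2 * C1) *
          (2 * (4 ^ (1 + 4 * q0) * e ^ (-(2 * (th + 4 * q0 * thp))))) := by gcongr
      _ = (400 * b2 * 4 ^ (1 + 4 * q0)) * (e ^ (2 * C1) * e ^ (-(2 * (th + 4 * q0 * thp)))) := by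
          ring
      _ = (400 * b2 * 4 ^ (1 + 4 * q0)) * (e ^ (2 * (C1 - (pf + th + 4 * q0 * thp))) *
            (e ^ pf) ^ 2) := by
          congr 1
          rw [← Real.rpow_natCast (e ^ pf), ← Real.rpow_mul he.le, ← Real.rpow_add he,
            ← Real.rpow_add he]
          congr 1
          push_cast
          ring
      _ = (400 * b2 * 4 ^ (1 + 4 * q0)) * e ^ (2 * (C1 - (pf + th + 4 * q0 * thp))) *
            (e ^ pf) ^ 2 := by ring
      _ ≤ 1 * (e ^ pf) ^ 2 := by gcongr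
      _ ≤ (A * e ^ pf) ^ 2 := by
          rw [one_mul]
          exact pow_le_pow_left₀ f2.le f3 2
  · refine f4.trans (le_trans ?_ f3)
    exact Real.rpow_le_rpow_of_exponent_ge he le1 (by linarith)

/-- size of the error -/
theorem eO_num {c0 pf q κ th A B : ℝ} (hc0 : 0 < c0) (hpf : 0 < pf) (hpf1 : pf ≤ 1)
    (hA : 1 ≤ A) (hth : 0 < th) (hκ : 0 ≤ κ) (hq : q + κ < pf) (hB : 0 < B) :
    ∃ E, 0 < E ∧ E ≤ 1 ∧ ∀ (a e : ℝ) (n m r s : ℕ), 1 ≤ a → a ≤ 2 → 0 < e → e ≤ E →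
      (m : ℝ) - s ≤ e ^ (-κ) → ((2 : ℝ) ^ n)⁻¹ ≤ e → e ^ (-(th / 2)) ≤ (2 : ℝ) ^ r / 2 ^ m →
      B * eO (2 ^ r) (2 ^ s) a c0 (A * e ^ pf) (H972.tn m) (H972.tn n) ≤ e ^ q ∧
        1 ≤ ((2 ^ r : ℕ) : ℝ) * √(H972.tn m / a) := by
  obtain ⟨e1, he1, k1⟩ := small_rpow (s := pf - κ - q)
    (A := B * (14 * A / c0 ^ 3 * 602 + 20800 * A / c0 ^ 2)) (B := 1 / 3) (by linarith)
    (by norm_num)
  obtain ⟨e2, he2, k2⟩ := small_rpow (s := 1 - q) (A := B) (B := 1 / 3) (by linarith)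
    (by norm_num)
  obtain ⟨e3, he3, k3⟩ := small_sexp (c := 1 / 32) (th := th) (A := B * 1200) (B := 1 / 3)
    (by norm_num) hth q (by norm_num)
  obtain ⟨e4, he4, k4⟩ := small_rpow (s := th / 2) (A := 2) (B := 1) (by linarith) one_pos
  refine ⟨min 1 (min (min e1 e2) (min e3 e4)), by positivity, min_le_left _ _, ?_⟩
  intro a e n m r s ha ha2 he hee hms hn hr
  have le1 : e ≤ 1 := hee.trans (min_le_left _ _)
  have hm2 := hee.trans (min_le_right _ _)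
  have q1 := k1 e he (hm2.trans ((min_le_left _ _).trans (min_le_left _ _)))
  have q2 := k2 e he (hm2.trans ((min_le_left _ _).trans (min_le_right _ _)))
  have q3 := k3 e he (hm2.trans ((min_le_right _ _).trans (min_le_left _ _)))
  have q4 := k4 e he (hm2.trans ((min_le_right _ _).trans (min_le_right _ _)))
  have f2 : 0 < e ^ pf := Real.rpow_pos_of_pos he _
  have fq : 0 < e ^ q := Real.rpow_pos_of_pos he _
  -- the length of the torus
  have e4 : √(e ^ (-th)) = e ^ (-(th / 2)) := by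
    rw [Real.sqrt_eq_rpow, ← Real.rpow_mul he.le]
    congr 1
    ring
  have g1 : (2 : ℝ) ≤ e ^ (-(th / 2)) := by
    have h1 : e ^ (th / 2) * e ^ (-(th / 2)) = 1 := by
      rw [← Real.rpow_add he]
      simp
    have h2 : 0 < e ^ (-(th / 2)) := Real.rpow_pos_of_pos he _
    nlinarith
  have g2 : ((2 ^ r : ℕ) : ℝ) * √(H972.tn m / a) = (2 : ℝ) ^ r / 2 ^ m / √a := by
    unfold H972.tn
    rw [Real.sqrt_div' _ (by linarith)]
    have h3 : √(((4 : ℝ) ^ m)⁻¹) = ((2 : ℝ) ^ m)⁻¹ := by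
      rw [Real.sqrt_eq_iff_mul_self_eq (by positivity) (by positivity), ← mul_inv, ← mul_pow]
      norm_num
    rw [h3]
    push_cast
    ring
  have g3 : √a ≤ 2 := by
    rw [show (2 : ℝ) = √4 by
      rw [show (4 : ℝ) = 2 ^ 2 by norm_num]
      exact (Real.sqrt_sq (by norm_num)).symm]
    exact Real.sqrt_le_sqrt (by linarith)
  have g4 : 0 < √a := Real.sqrt_pos.2 (by linarith)
  have g5 : e ^ (-(th / 2)) / 2 ≤ ((2 ^ r : ℕ) : ℝ) * √(H972.tn m / a) := by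
    rw [g2]
    have h2 : 0 < e ^ (-(th / 2)) := Real.rpow_pos_of_pos he _
    calc e ^ (-(th / 2)) / 2 ≤ e ^ (-(th / 2)) / √a := by gcongr
      _ ≤ _ := by gcongr
  refine ⟨?_, by linarith⟩
  -- the three terms
  have t1 : B * (14 * (A * e ^ pf) / c0 ^ 3 *
      (601 + Real.log (1 / (H972.tn m * (((2 ^ s : ℕ) : ℝ)) ^ 2)) / (4 * π)) +
      20800 * (A * e ^ pf) / c0 ^ 2) ≤ 1 / 3 * e ^ q := by
    have h1 : (1 : ℝ) ≤ e ^ (-κ) :=
      Real.one_le_rpow_of_pos_of_le_one_of_nonpos he le1 (by linarith)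
    have h2 : Real.log (1 / (H972.tn m * (((2 ^ s : ℕ) : ℝ)) ^ 2)) = ((m : ℝ) - s) * Real.log 4 := by
      rw [tn_cast, one_div, inv_div, Real.log_div (by positivity) (by positivity), Real.log_pow,
        Real.log_pow]
      ring
    have h3 : Real.log 4 ≤ 4 * π := by
      have h4 : Real.log 4 ≤ 4 := (Real.log_le_sub_one_of_pos (by norm_num)).trans (by norm_num)
      have := Real.pi_gt_three
      linarith
    have h30 : 0 ≤ Real.log 4 := Real.log_nonneg (by norm_num)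
    have h5 : Real.log (1 / (H972.tn m * (((2 ^ s : ℕ) : ℝ)) ^ 2)) / (4 * π) ≤ e ^ (-κ) := by
      rw [h2, div_le_iff₀ (by positivity)]
      calc ((m : ℝ) - s) * Real.log 4 ≤ e ^ (-κ) * Real.log 4 :=
            mul_le_mul_of_nonneg_right hms h30
        _ ≤ e ^ (-κ) * (4 * π) := mul_le_mul_of_nonneg_left h3 (by positivity)
    have h6 : 601 + Real.log (1 / (H972.tn m * (((2 ^ s : ℕ) : ℝ)) ^ 2)) / (4 * π) ≤
        602 * e ^ (-κ) := by linarith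
    have h7 : e ^ pf ≤ e ^ pf * e ^ (-κ) := le_mul_of_one_le_right f2.le h1
    have h8 : e ^ pf * e ^ (-κ) = e ^ (pf - κ - q) * e ^ q := by
      rw [← Real.rpow_add he, ← Real.rpow_add he]
      congr 1
      ring
    have hA0 : 0 < A := by linarith
    calc B * (14 * (A * e ^ pf) / c0 ^ 3 *
          (601 + Real.log (1 / (H972.tn m * (((2 ^ s : ℕ) : ℝ)) ^ 2)) / (4 * π)) +
          20800 * (A * e ^ pf) / c0 ^ 2)
        ≤ B * (14 * (A * e ^ pf) / c0 ^ 3 * (602 * e ^ (-κ)) +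
          20800 * (A * (e ^ pf * e ^ (-κ))) / c0 ^ 2) := by gcongr
      _ = B * (14 * A / c0 ^ 3 * 602 + 20800 * A / c0 ^ 2) * (e ^ pf * e ^ (-κ)) := by ring
      _ = B * (14 * A / c0 ^ 3 * 602 + 20800 * A / c0 ^ 2) * e ^ (pf - κ - q) * e ^ q := by
          rw [h8]
          ring
      _ ≤ 1 / 3 * e ^ q := by gcongr
  have t2 : B * (√(H972.tn n) / 4) ≤ 1 / 3 * e ^ q := by
    have h3 : √(H972.tn n) = ((2 : ℝ) ^ n)⁻¹ := by
      unfold H972.tn
      rw [Real.sqrt_eq_iff_mul_self_eq (by positivity) (by positivity), ← mul_inv, ← mul_pow]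
      norm_num
    rw [h3]
    calc B * (((2 : ℝ) ^ n)⁻¹ / 4) ≤ B * e := by
          refine mul_le_mul_of_nonneg_left ?_ hB.le
          linarith
      _ = B * (e ^ (1 - q) * e ^ q) := by
          rw [← Real.rpow_add he]
          congr 1
          rw [sub_add_cancel, Real.rpow_one]
      _ = B * e ^ (1 - q) * e ^ q := by ring
      _ ≤ 1 / 3 * e ^ q := by gcongr
  have t3 : B * (1200 * Real.exp (-(((2 ^ r : ℕ) : ℝ) * √(H972.tn m / a) / 16))) ≤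
      1 / 3 * e ^ q := by
    have h1 : Real.exp (-(((2 ^ r : ℕ) : ℝ) * √(H972.tn m / a) / 16)) ≤
        Real.exp (-(1 / 32 * √(e ^ (-th)))) := by
      apply Real.exp_le_exp.2
      rw [e4]
      linarith
    have h2 : (e ^ (-q)) * e ^ q = 1 := by
      rw [← Real.rpow_add he]
      simp
    calc B * (1200 * Real.exp (-(((2 ^ r : ℕ) : ℝ) * √(H972.tn m / a) / 16)))
        ≤ B * (1200 * Real.exp (-(1 / 32 * √(e ^ (-th))))) := by gcongr
      _ = B * 1200 * (e ^ (-q) * e ^ q) * Real.exp (-(1 / 32 * √(e ^ (-th)))) := by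
          rw [h2]
          ring
      _ = (B * 1200 * e ^ (-q) * Real.exp (-(1 / 32 * √(e ^ (-th))))) * e ^ q := by ring
      _ ≤ 1 / 3 * e ^ q := by gcongr
  have : B * eO (2 ^ r) (2 ^ s) a c0 (A * e ^ pf) (H972.tn m) (H972.tn n) =
      B * (14 * (A * e ^ pf) / c0 ^ 3 *
      (601 + Real.log (1 / (H972.tn m * (((2 ^ s : ℕ) : ℝ)) ^ 2)) / (4 * π)) +
      20800 * (A * e ^ pf) / c0 ^ 2) + B * (√(H972.tn n) / 4) +
      B * (1200 * Real.exp (-(((2 ^ r : ℕ) : ℝ) * √(H972.tn m / a) / 16))) := by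
    unfold eO
    ring
  rw [this]
  linarith

/-- **(O1) in numbers** (889's letters): the increment of the typical variance of the window from
level `n` to level `m`, at the cells `2 ^ s`, on the torus `2 ^ r` -/
theorem o1_num {b2 pf q κ th thp C1 A : ℝ} (q0 : ℕ) (hb2 : 0 < b2) (hpf : 0 < pf) (hpf1 : pf ≤ 1)
    (hA : 1 ≤ A) (hth : 0 < th) (hthp : 0 < thp) (hκ : 0 ≤ κ) (hq : q + κ < pf)
    (hC1 : pf + th + 4 * q0 * thp < C1) :
    ∃ E, 0 < E ∧ E ≤ 1 ∧ ∀ P : Par, P.th = th → P.thp = thp → P.q0 = q0 →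
      ∀ (b a e : ℝ) (n m r s : ℕ) [NeZero (2 ^ r / 2 ^ s)], 0 < b → b ≤ b2 → 1 ≤ a → a ≤ 2 →
        0 < e → e ≤ E → P.TT n e r → n < m → s ≤ n → (2 : ℝ) ^ s / 2 ^ n ≤ e ^ C1 →
        (m : ℝ) - s ≤ e ^ (-κ) → ((2 : ℝ) ^ n)⁻¹ ≤ e →
        e ^ (-(P.th / 2)) ≤ (2 : ℝ) ^ r / 2 ^ m → FL b (H972.tn n) a (A * e ^ pf) (2 ^ r) →
        |2 * π ^ 2 * H363.vv (sn (2 ^ s) (H972.tn n) (H972.tn m)) (H972.tn n * (((2 ^ s : ℕ) : ℝ)) ^ 2)
            (acl (2 ^ r) (2 ^ s) b (H972.tn n) (H972.tn n)) - π / a * ((m : ℝ) - n) * Real.log 2| ≤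
          e ^ q := by
  have hc0 : (0 : ℝ) < 1 / (3 * b2 + 1) := by positivity
  obtain ⟨E1, hE1, hE1', K1⟩ := ov_pre q0 hb2 hpf hpf1 hA hth hthp hC1
  obtain ⟨E2, hE2, hE2', K2⟩ := eO_num (B := 2 * π ^ 2) hc0 hpf hpf1 hA hth hκ hq (by positivity)
  refine ⟨min E1 E2, by positivity, (min_le_left _ _).trans hE1', ?_⟩
  intro P p1 p2 p3 b a e n m r s hnz hb hbb ha ha2 he hee hTT hnm hsn hs hms hn hr hF
  obtain ⟨f1, f2, f3, f4⟩ := K1 P p1 p2 p3 b e n r s hb hbb he (hee.trans (min_le_left _ _))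
    hTT.2 hs hn
  rw [p1] at hr
  obtain ⟨g1, g2⟩ := K2 a e n m r s ha ha2 he (hee.trans (min_le_right _ _)) hms hn hr
  have hl : 2 ^ s ∣ 2 ^ r := pow_dvd_pow 2 (by have := hTT.1; omega)
  have htm : H972.tn m < H972.tn n := by
    unfold H972.tn
    exact inv_strictAnti₀ (by positivity) (pow_lt_pow_right₀ (by norm_num) hnm)
  have hcb : 3 * b * (1 / (3 * b2 + 1)) ≤ 1 := by
    rw [mul_one_div, div_le_one (by positivity)]
    linarith
  have hc1 : 1 / (3 * b2 + 1) ≤ 1 := by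
    rw [div_le_one (by positivity)]
    linarith
  have h1 := o1_gen (N := 2 ^ r) (l := 2 ^ s) hb hl hc0 hc1 hcb ha ha2 (tn_pos m) htm f1 f2 hF
    f3 f4 g2
  have h2 : Real.log (H972.tn n / H972.tn m) / (4 * π * a) * (2 * π ^ 2) =
      π / a * ((m : ℝ) - n) * Real.log 2 := by
    have h3 : Real.log (H972.tn n / H972.tn m) = ((m : ℝ) - n) * (2 * Real.log 2) := by
      unfold H972.tn
      rw [Real.log_div (by positivity) (by positivity), Real.log_inv, Real.log_inv, Real.log_pow,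
        Real.log_pow, show (4 : ℝ) = 2 ^ 2 by norm_num, Real.log_pow]
      push_cast
      ring
    rw [h3]
    field_simp
    ring
  rw [← h2]
  have h4 : ∀ x y : ℝ, |2 * π ^ 2 * x - y * (2 * π ^ 2)| = 2 * π ^ 2 * |x - y| := by
    intro x y
    rw [mul_comm y, ← mul_sub, abs_mul, abs_of_pos (by positivity)]
  rw [h4]
  exact (mul_le_mul_of_nonneg_left h1 (by positivity)).trans g1

end

end Vale.Agent.P159.H197
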