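import Vale.Agent.P159.H197.Ov4

/-!
P159 / variance of one window (helper197, (O1) and (O2) of 846 / 889), part 5: the typical variance
in the letters of LIST P_up / VS: `vT = (1 / (2 pi a)) log (N / xi) + O(1)`.
-/

set_option linter.unusedSectionVars false

namespace Vale.Agent.P159.H197

open Finset Real Matrix Filter Topology
open Vale.Agent.P159.TM.H764 (EE EE_nonneg)
open Vale.Agent.P159.TM.Spec (V)
open Vale.Agent.P159.LNK (vT)
open Vale.Agent.P159.H363 (acl sn)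
open Vale.Agent.P159.H972 (FL Par lg tn_pos)
open Vale.Agent.P159.H37 (small_rpow lg_lo lg_hi)

noncomputable section

lemma exp_m8 : 1200 * Real.exp (-8) ≤ 6 / 10 := by
  have h1 : (2000 : ℝ) ≤ Real.exp 8 := by
    have h2 := Real.exp_one_gt_d9
    have h3 : Real.exp 8 = Real.exp 1 ^ 8 := by
      rw [← Real.exp_nat_mul]
      norm_num
    rw [h3]
    calc (2000 : ℝ) ≤ 2.7 ^ 8 := by norm_num
      _ ≤ Real.exp 1 ^ 8 := pow_le_pow_left₀ (by norm_num) (by linarith) 8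
  have h4 : Real.exp (-8) ≤ 1 / 2000 := by
    rw [Real.exp_neg, inv_eq_one_div]
    exact one_div_le_one_div_of_le (by norm_num) h1
  linarith

/-- the mass at which the zero mode takes over -/
def tz (r : ℕ) (a : ℝ) : ℝ := a * 4 ^ 7 / ((2 ^ r : ℕ) : ℝ) ^ 2

lemma tz_pos {r : ℕ} {a : ℝ} (ha : 0 < a) : 0 < tz r a := by
  unfold tz
  have : (0 : ℝ) < ((2 ^ r : ℕ) : ℝ) := by
    push_cast
    positivity
  positivity

lemma tz_mul (r : ℕ) (a : ℝ) : tz r a * ((2 ^ r : ℕ) : ℝ) ^ 2 = a * 4 ^ 7 := by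
  unfold tz
  have : (0 : ℝ) < ((2 ^ r : ℕ) : ℝ) := by
    push_cast
    positivity
  field_simp

lemma tz_len {r : ℕ} {a : ℝ} (ha : 0 < a) : ((2 ^ r : ℕ) : ℝ) * √(tz r a / a) = 128 := by
  have h0 : (0 : ℝ) < ((2 ^ r : ℕ) : ℝ) := by
    push_cast
    positivity
  have h1 : tz r a / a = (128 / ((2 ^ r : ℕ) : ℝ)) ^ 2 := by
    unfold tz
    field_simp
    norm_num
  rw [h1, Real.sqrt_sq (by positivity)]
  field_simp

lemma sq_cast (r : ℕ) : ((2 ^ r : ℕ) : ℝ) ^ 2 = (4 : ℝ) ^ r := by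
  push_cast
  rw [← pow_mul, mul_comm r 2, pow_mul]
  norm_num

lemma tz_le {n r : ℕ} {a : ℝ} (ha0 : 0 < a) (ha2 : a ≤ 2)
    (h : (65536 : ℝ) ≤ 4 ^ r / 4 ^ n) : 2 * tz r a ≤ H972.tn n := by
  unfold tz H972.tn
  rw [sq_cast]
  rw [le_div_iff₀ (by positivity)] at h
  have h4 : (0 : ℝ) < 4 ^ n := by positivity
  generalize (4 : ℝ) ^ r = R at h ⊢
  generalize (4 : ℝ) ^ n = M at h h4 ⊢
  have hR : 0 < R := by linarith
  rw [mul_div_assoc', div_le_iff₀ hR, inv_mul_eq_div, le_div_iff₀ h4]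
  have h5 : a * M ≤ 2 * M := mul_le_mul_of_nonneg_right ha2 h4.le
  linarith

/-- the logarithm of the torus -/
lemma log_tor {pf W0 T0 δ e X : ℝ} (he : 0 < e) (hT0 : 0 < T0) (hδ0 : 0 < δ) (hX : 0 < X)
    (hδ : W0 * δ = pf / 2) (h : X ≤ T0 * e ^ (-W0)) :
    Real.log X ≤ T0 ^ δ / δ * e ^ (-(pf / 2)) := by
  have h7 := Real.log_le_rpow_div (x := X) hX.le hδ0
  have h8 : X ^ δ ≤ (T0 * e ^ (-W0)) ^ δ := Real.rpow_le_rpow hX.le h hδ0.le
  have h9 : (T0 * e ^ (-W0)) ^ δ = T0 ^ δ * e ^ (-(pf / 2)) := by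
    rw [Real.mul_rpow hT0.le (Real.rpow_pos_of_pos he _).le, ← Real.rpow_mul he.le, neg_mul, hδ]
  rw [h9] at h8
  calc Real.log X ≤ X ^ δ / δ := h7
    _ ≤ T0 ^ δ * e ^ (-(pf / 2)) / δ := by gcongr
    _ = _ := by ring

lemma log_cell {n r s : ℕ} {a κ e Z : ℝ} (ha : 1 ≤ a) (he : 0 < e) (hsn : s ≤ n)
    (hns : (n : ℝ) - s ≤ e ^ (-κ)) (hZ : Real.log ((4 : ℝ) ^ r / 4 ^ n) ≤ Z) (hZ0 : 0 ≤ Z) :
    Real.log (1 / (tz r a * (((2 ^ s : ℕ) : ℝ)) ^ 2)) / (4 * π) ≤ 2 * e ^ (-κ) + Z := by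
  have ha0 : 0 < a := by linarith
  have h1 : Real.log (1 / (tz r a * (((2 ^ s : ℕ) : ℝ)) ^ 2)) ≤
      Real.log (4 ^ r / 4 ^ n) + ((n : ℝ) - s) * Real.log 4 := by
    have h2 : ((n : ℝ) - s) * Real.log 4 = Real.log (4 ^ n / 4 ^ s) := by
      rw [Real.log_div (by positivity) (by positivity), Real.log_pow, Real.log_pow]
      ring
    rw [h2, ← Real.log_mul (by positivity) (by positivity)]
    unfold tz
    rw [sq_cast, sq_cast]
    refine Real.log_le_log (by positivity) ?_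
    have h3 : (4 : ℝ) ^ r / 4 ^ n * (4 ^ n / 4 ^ s) = 4 ^ r / 4 ^ s := by field_simp
    have h4 : (1 : ℝ) / (a * 4 ^ 7 / 4 ^ r * 4 ^ s) = (4 ^ r / 4 ^ s) / (a * 4 ^ 7) := by
      field_simp
    rw [h3, h4]
    refine div_le_self (by positivity) ?_
    nlinarith
  have h10 : Real.log 4 ≤ 2 := by
    rw [show (4 : ℝ) = 2 ^ 2 by norm_num, Real.log_pow]
    have := Real.log_two_lt_d9
    push_cast
    linarith
  have h11 : ((n : ℝ) - s) * Real.log 4 ≤ e ^ (-κ) * 2 :=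
    mul_le_mul hns h10 (Real.log_nonneg (by norm_num)) (by positivity)
  have h13 : 0 ≤ 2 * e ^ (-κ) + Z := by positivity
  have h14 : (1 : ℝ) ≤ 4 * π := by
    have := Real.pi_gt_three
    linarith
  rw [div_le_iff₀ (by positivity)]
  calc _ ≤ 2 * e ^ (-κ) + Z := by linarith
    _ ≤ _ := le_mul_of_one_le_right h13 h14

/-- the error of the lattice sums at the mass of the zero mode -/
theorem eOz_num {c0 pf κ th thp A : ℝ} (q0 : ℕ) (hc0 : 0 < c0) (hpf : 0 < pf)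
    (hA : 1 ≤ A) (hth : 0 < th) (hthp : 0 < thp) (hq : κ < pf) :
    ∃ E, 0 < E ∧ E ≤ 1 / 4 ∧ ∀ P : Par, P.th = th → P.thp = thp → P.q0 = q0 →
      ∀ (a e : ℝ) (n r s : ℕ), 1 ≤ a → 0 < e → e ≤ E →
        r ≤ n + P.kE e + P.q0 * (4 * P.w e) → s ≤ n →
        (n : ℝ) - s ≤ e ^ (-κ) → ((2 : ℝ) ^ n)⁻¹ ≤ e →
        ∀ t₂, t₂ ≤ H972.tn n →
          eO (2 ^ r) (2 ^ s) a c0 (A * e ^ pf) (tz r a) t₂ ≤ 9 / 10 := by
  have hq0 : (0 : ℝ) ≤ q0 := Nat.cast_nonneg _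
  obtain ⟨W0, hW0⟩ : ∃ W0 : ℝ, W0 = 2 * (th + 4 * q0 * thp) := ⟨_, rfl⟩
  have hW0p : 0 < W0 := by
    have : 0 ≤ 4 * (q0 : ℝ) * thp := by positivity
    rw [hW0]
    linarith
  obtain ⟨δ, hδ⟩ : ∃ δ : ℝ, δ = pf / 2 / W0 := ⟨_, rfl⟩
  have hδ0 : 0 < δ := by rw [hδ]; positivity
  have hδW : W0 * δ = pf / 2 := by
    rw [hδ]
    field_simp
  obtain ⟨T0, hT0d⟩ : ∃ T0 : ℝ, T0 = 4 ^ (1 + 4 * q0) := ⟨_, rfl⟩
  have hT0p : 0 < T0 := by rw [hT0d]; positivity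
  have hA0 : 0 < A := by linarith
  obtain ⟨e1, he1, k1⟩ := small_rpow (s := pf) (A := 14 * A / c0 ^ 3 * 601 + 20800 * A / c0 ^ 2)
    (B := 1 / 20) hpf (by norm_num)
  obtain ⟨e2, he2, k2⟩ := small_rpow (s := pf - κ) (A := 14 * A / c0 ^ 3 * 2)
    (B := 1 / 20) (by linarith) (by norm_num)
  obtain ⟨e3, he3, k3⟩ := small_rpow (s := pf / 2) (A := 14 * A / c0 ^ 3 * (T0 ^ δ / δ))
    (B := 1 / 20) (by linarith) (by norm_num)
  refine ⟨min (1 / 4) (min e1 (min e2 e3)), by positivity, min_le_left _ _, ?_⟩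
  intro P p1 p2 p3 a e n r s ha he hee hr hsn hns hn t₂ h1
  have hm2 := hee.trans (min_le_right _ _)
  have le4 : e ≤ 1 / 4 := hee.trans (min_le_left _ _)
  have le1 : e ≤ 1 := by linarith
  have q1 := k1 e he (hm2.trans (min_le_left _ _))
  have q2 := k2 e he (hm2.trans ((min_le_right _ _).trans (min_le_left _ _)))
  have q3 := k3 e he (hm2.trans ((min_le_right _ _).trans (min_le_right _ _)))
  have ha0 : 0 < a := by linarith
  have f0 : 0 < e ^ pf := Real.rpow_pos_of_pos he _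
  have h6 := fl_tor (P := P) (m := n) he le1 hr
  rw [p1, p2, p3, ← hW0, ← hT0d] at h6
  have hZ := log_tor (pf := pf) he hT0p hδ0 (by positivity) hδW h6
  have hlog := log_cell ha he hsn hns hZ (by positivity)
  unfold eO
  rw [tz_len ha0]
  have h2 : √t₂ / 4 ≤ 1 / 16 := by
    have h3 : H972.tn n = (((2 : ℝ) ^ n)⁻¹) ^ 2 := by
      unfold H972.tn
      rw [inv_pow, ← pow_mul, mul_comm n 2, pow_mul]
      norm_num
    have h4 : √t₂ ≤ ((2 : ℝ) ^ n)⁻¹ := by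
      rw [h3] at h1
      calc √t₂ ≤ √((((2 : ℝ) ^ n)⁻¹) ^ 2) := Real.sqrt_le_sqrt h1
        _ = _ := Real.sqrt_sq (by positivity)
    linarith
  have h6 : 1200 * Real.exp (-(128 / 16)) ≤ 6 / 10 := by
    rw [show -(128 / 16 : ℝ) = -8 by norm_num]
    exact exp_m8
  have h7 : 14 * (A * e ^ pf) / c0 ^ 3 *
      (601 + Real.log (1 / (tz r a * (((2 ^ s : ℕ) : ℝ)) ^ 2)) / (4 * π)) +
      20800 * (A * e ^ pf) / c0 ^ 2 ≤ 3 / 20 := by
    have g1 : e ^ pf * e ^ (-κ) = e ^ (pf - κ) := by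
      rw [← Real.rpow_add he]
      congr 1
    have g2 : e ^ pf * e ^ (-(pf / 2)) = e ^ (pf / 2) := by
      rw [← Real.rpow_add he]
      congr 1
      ring
    calc 14 * (A * e ^ pf) / c0 ^ 3 *
        (601 + Real.log (1 / (tz r a * (((2 ^ s : ℕ) : ℝ)) ^ 2)) / (4 * π)) +
          20800 * (A * e ^ pf) / c0 ^ 2
        ≤ 14 * (A * e ^ pf) / c0 ^ 3 *
        (601 + (2 * e ^ (-κ) + T0 ^ δ / δ * e ^ (-(pf / 2)))) +
          20800 * (A * e ^ pf) / c0 ^ 2 := by gcongr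
      _ = (14 * A / c0 ^ 3 * 601 + 20800 * A / c0 ^ 2) * e ^ pf +
          14 * A / c0 ^ 3 * 2 * (e ^ pf * e ^ (-κ)) +
          14 * A / c0 ^ 3 * (T0 ^ δ / δ) * (e ^ pf * e ^ (-(pf / 2))) := by ring
      _ ≤ 3 / 20 := by
          rw [g1, g2]
          linarith
  linarith

/-- the logarithm of the ratio of the masses -/
lemma log_tz {n r : ℕ} {a : ℝ} (ha : 1 ≤ a) (ha2 : a ≤ 2) :
    ((r : ℝ) - n) * Real.log 2 / (2 * π * a) - 9 / 10 ≤
        Real.log (H972.tn n / tz r a) / (4 * π * a) ∧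
      Real.log (H972.tn n / tz r a) / (4 * π * a) ≤
        ((r : ℝ) - n) * Real.log 2 / (2 * π * a) := by
  have ha0 : 0 < a := by linarith
  have hL : Real.log (H972.tn n / tz r a) / (4 * π * a) =
      ((r : ℝ) - n) * Real.log 2 / (2 * π * a) - (Real.log a + 14 * Real.log 2) / (4 * π * a) := by
    have h1 : Real.log (H972.tn n / tz r a) =
        ((r : ℝ) - n) * (2 * Real.log 2) - (Real.log a + 14 * Real.log 2) := by
      unfold tz H972.tn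
      rw [sq_cast, Real.log_div (by positivity) (by positivity), Real.log_inv,
        Real.log_div (by positivity) (by positivity),
        Real.log_mul ha0.ne' (by positivity), Real.log_pow, Real.log_pow, Real.log_pow,
        show (4 : ℝ) = 2 ^ 2 by norm_num, Real.log_pow]
      push_cast
      ring
    rw [h1]
    field_simp
    ring
  have hpi := Real.pi_gt_three
  have hs0 : 0 ≤ (Real.log a + 14 * Real.log 2) / (4 * π * a) := by
    have h1 := Real.log_nonneg ha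
    have h2 : 0 ≤ Real.log 2 := Real.log_nonneg (by norm_num)
    positivity
  have hs1 : (Real.log a + 14 * Real.log 2) / (4 * π * a) ≤ 9 / 10 := by
    rw [div_le_iff₀ (by positivity)]
    have h1 : Real.log a ≤ Real.log 2 := Real.log_le_log ha0 ha2
    have h2 := Real.log_two_lt_d9
    have h3 : 12 ≤ 4 * π * a := by nlinarith
    linarith
  constructor <;> linarith

lemma c3_le {a c0 b2 X : ℝ} (ha : 1 ≤ a) (ha2 : a ≤ 2) (hb2 : 0 < b2)
    (hc : c0 = 1 / (3 * b2 + 1)) (hX : X ≤ 9 / 10) :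
    (1 + a * 4 ^ 7 / (8 * c0)) * (1 / (4 * π) + X) ≤ 1 + 4096 * (3 * b2 + 1) := by
  have hc0 : 0 < c0 := by rw [hc]; positivity
  have hpi := Real.pi_gt_three
  have h1 : 1 / (4 * π) ≤ 1 / 10 := one_div_le_one_div_of_le (by norm_num) (by linarith)
  have h2 : 1 / c0 = 3 * b2 + 1 := by rw [hc, one_div_one_div]
  have h3 : 1 + a * 4 ^ 7 / (8 * c0) ≤ 1 + 4096 * (3 * b2 + 1) := by
    have h4 : a * 4 ^ 7 / (8 * c0) = 2048 * a * (1 / c0) := by
      field_simp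
      norm_num
    rw [h4, h2]
    have h5 : 0 ≤ (2 - a) * (3 * b2 + 1) := mul_nonneg (by linarith) (by linarith)
    linarith
  calc _ ≤ (1 + a * 4 ^ 7 / (8 * c0)) * 1 := by
        refine mul_le_mul_of_nonneg_left (by linarith) (by positivity)
    _ ≤ _ := by linarith

/-- **(O2) in numbers** (963's / 889's letters): the typical variance at level `n`, cells `2 ^ s`,
torus `2 ^ r`, is `(1 / (2 pi a)) log (N / xi)` up to constants -/
theorem o2_num {b2 pf κ th thp C1 A : ℝ} (q0 : ℕ) (hb2 : 0 < b2) (hpf : 0 < pf) (hpf1 : pf ≤ 1)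
    (hA : 1 ≤ A) (hth : 0 < th) (hthp : 0 < thp) (hq : κ < pf)
    (hC1 : pf + th + 4 * q0 * thp < C1) :
    ∃ E, 0 < E ∧ E ≤ 1 ∧ ∀ P : Par, P.th = th → P.thp = thp → P.q0 = q0 →
      ∀ (b a e : ℝ) (n r s : ℕ) [NeZero (2 ^ r / 2 ^ s)], 0 < b → b ≤ b2 → 1 ≤ a → a ≤ 2 →
        0 < e → e ≤ E → P.TT n e r → s ≤ n → (2 : ℝ) ^ s / 2 ^ n ≤ e ^ C1 →
        (n : ℝ) - s ≤ e ^ (-κ) → ((2 : ℝ) ^ n)⁻¹ ≤ e → FL b (H972.tn n) a (A * e ^ pf) (2 ^ r) →
        ((r : ℝ) - n) * Real.log 2 / (2 * π * a) - 2 ≤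
            vT (H972.tn n * (((2 ^ s : ℕ) : ℝ)) ^ 2)
              (acl (2 ^ r) (2 ^ s) b (H972.tn n) (H972.tn n)) ∧
          vT (H972.tn n * (((2 ^ s : ℕ) : ℝ)) ^ 2)
              (acl (2 ^ r) (2 ^ s) b (H972.tn n) (H972.tn n)) ≤
            ((r : ℝ) - n) * Real.log 2 / (2 * π * a) + 4100 * (3 * b2 + 1) := by
  obtain ⟨c0, hc0d⟩ : ∃ c0 : ℝ, c0 = 1 / (3 * b2 + 1) := ⟨_, rfl⟩
  have hc0 : (0 : ℝ) < c0 := by rw [hc0d]; positivity
  have hc1 : c0 ≤ 1 := by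
    rw [hc0d, div_le_one (by positivity)]
    linarith
  obtain ⟨E1, hE1, hE1', K1⟩ := ov_pre q0 hb2 hpf hpf1 hA hth hthp hC1
  obtain ⟨E2, hE2, hE2', K2⟩ := eOz_num q0 hc0 hpf hA hth hthp hq
  obtain ⟨e4, he4, k4⟩ := small_rpow (s := th) (A := 256) (B := 1) hth one_pos
  refine ⟨min E1 (min E2 e4), by positivity, (min_le_left _ _).trans hE1', ?_⟩
  intro P p1 p2 p3 b a e n r s hnz hb hbb ha ha2 he hee hTT hsn hs hns hn hF
  have hm2 := hee.trans (min_le_right _ _)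
  obtain ⟨f1, f2, f3, f4⟩ := K1 P p1 p2 p3 b e n r s hb hbb he (hee.trans (min_le_left _ _))
    hTT.2 hs hn
  have hO := K2 P p1 p2 p3 a e n r s ha he (hm2.trans (min_le_left _ _)) hTT.2 hsn hns hn
  have q4 := k4 e he (hm2.trans (min_le_right _ _))
  have ha0 : 0 < a := by linarith
  have hl : 2 ^ s ∣ 2 ^ r := pow_dvd_pow 2 (by have := hTT.1; omega)
  have hcb : 3 * b * c0 ≤ 1 := by
    rw [hc0d, mul_one_div, div_le_one (by positivity)]
    linarith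
  -- the torus is large
  have hrn : (256 : ℝ) ≤ 2 ^ r / 2 ^ n := by
    have h1 : e ^ (-P.th) ≤ (2 : ℝ) ^ P.kE e := lg_lo he
    have h2 : (2 : ℝ) ^ P.kE e ≤ (2 : ℝ) ^ r / 2 ^ n := by
      rw [le_div_iff₀ (by positivity), ← pow_add]
      exact pow_le_pow_right₀ (by norm_num) (by have := hTT.1; omega)
    have h3 : (256 : ℝ) ≤ e ^ (-P.th) := by
      rw [p1]
      have h4 : e ^ th * e ^ (-th) = 1 := by
        rw [← Real.rpow_add he]
        simp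
      have h5 : 0 < e ^ (-th) := Real.rpow_pos_of_pos he _
      nlinarith
    linarith
  have hrn4 : (65536 : ℝ) ≤ 4 ^ r / 4 ^ n := by
    have h1 : (4 : ℝ) ^ r / 4 ^ n = (2 ^ r / 2 ^ n) ^ 2 := by
      rw [div_pow, ← pow_mul, ← pow_mul, mul_comm r 2, mul_comm n 2, pow_mul, pow_mul]
      norm_num
    rw [h1]
    nlinarith
  have hzp := tz_pos (r := r) ha0
  have hz2 := tz_le ha0 ha2 hrn4
  have hlen : 1 ≤ ((2 ^ r : ℕ) : ℝ) * √(tz r a / a) := by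
    rw [tz_len ha0]
    norm_num
  have hO1 := hO (H972.tn n) le_rfl
  have hO2 := hO (2 * tz r a) hz2
  have hlow := o2_low (N := 2 ^ r) (l := 2 ^ s) hb hl hc0 hc1 hcb ha ha2 hzp (by linarith) f1 f2
    hF f3 f4 hlen
  have hup := o2_up (N := 2 ^ r) (l := 2 ^ s) hb hl hc0 hc1 hcb ha ha2 hzp hz2 f1 f2
    hF f3 f4 hlen
  rw [tz_mul] at hlow hup
  obtain ⟨hL1, hL2⟩ := log_tz (n := n) (r := r) ha ha2
  have hc3 := c3_le ha ha2 hb2 hc0d hO2
  have h1 : 1 / (a * 4 ^ 7) ≤ 1 / 10 := by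
    apply one_div_le_one_div_of_le (by norm_num)
    linarith
  generalize vT (H972.tn n * (((2 ^ s : ℕ) : ℝ)) ^ 2)
    (acl (2 ^ r) (2 ^ s) b (H972.tn n) (H972.tn n)) = v at hlow hup ⊢
  exact ⟨by linarith, by linarith⟩

end

end Vale.Agent.P159.H197
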