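import Vale.Agent.P159.H316.St1

/-!
P159 (helper197), START of V, Part 1, the last piece: the state number `0` of the second part from
the data of the last window (`F1`).
-/

set_option linter.unusedSectionVars false

namespace Vale.Agent.P159.H197

open Filter Topology
open Vale.Agent.P159.H864 (yt yt_nonneg)
open Vale.Agent.P159.H972 (Par lg Good YBn)
open Vale.Agent.P159.H37 (small_rpow)
open Vale.Agent.P159.H801 (FLC Ev PS)
open Vale.Agent.P159.H316 (y0 COR YBB DX0 AX CHS CBS S2J yr dJ gJ gB eJ uJ)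
open Vale.Agent.P159.H889 (Cx Cw SV TV lam Lg lam_pos lam_exp)

noncomputable section

/-- **the data of the last window of the first part**: base level `n0`, last window `n -> m` -/
structure F1 (P : Par) (b C1 c1 A1 : ℝ) (n0 n m s : ℕ) (e y : ℝ) (ζ : ℂ) (Δ E : ℝ) : Prop where
  nn : n0 ≤ n
  nm : n ≤ m
  G : Good P b m e
  b1 : P.b1 ≤ b
  b2 : b ≤ P.b2
  e0 : 0 < e
  es : e ≤ P.es
  zg : y0 P b n0 e ^ (47 / 25 : ℝ) ≤ e
  zL : Real.log (1 / y0 P b n0 e) ≤ e ^ (-(c1 / 2))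
  lo : e ^ (1 / 200 : ℝ) * y0 P b n0 e ≤ ‖ζ‖
  hi : ‖ζ‖ ≤ e ^ (-(9 / 10 ^ 4) : ℝ) * y0 P b n0 e
  ym : y0 P b m e ≤ e ^ (-(P.thp / 200)) * ‖ζ‖
  y0 : 0 < y
  ya : e ^ (1 / 200 : ℝ) * y ≤ ‖ζ‖
  yb : e ^ (1 / 200 : ℝ) * ‖ζ‖ ≤ y
  s2 : lam n s ≤ (e * y) ^ (71 / 64 * C1)
  sv : ∀ (s' : ℕ) (y' : ℝ), Cx P b C1 c1 m s' e y' → e ^ (1 / 100 : ℝ) * y ≤ y' →
    e ^ (1 / 100 : ℝ) * y' ≤ y → s ≤ s' → SV P b A1 m s' e ζ Δ E
  Δ0 : 0 ≤ Δ
  E0 : 0 ≤ E
  dv : Δ ≤ ‖ζ‖ * e ^ (P.thp / 2)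
  er : E ≤ ‖ζ‖ * e ^ (48 / 100 : ℝ)

/-- the cells of the level `m` at the number `x`, exponent `β` -/
lemma cell_fl {β x : ℝ} {m : ℕ} (hx : 0 < x)
    (hdx : β * (-Real.log x) ≤ 1 / 4 * m * Real.log 2) (hm : 8 ≤ m) :
    ∃ s' : ℕ, 1 / 2 * x ^ β ≤ lam m s' ∧ lam m s' ≤ x ^ β ∧ m ≤ 2 * s' ∧
      ∀ s : ℕ, (s : ℝ) * Real.log 2 ≤ m * Real.log 2 + β * Real.log x → s ≤ s' := by
  have hl2 := Real.log_two_gt_d9
  have hl20 : 0 < Real.log 2 := by linarith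
  obtain ⟨v, hv⟩ : ∃ v : ℝ, v = m + β * Real.log x / Real.log 2 := ⟨_, rfl⟩
  have hvl : v * Real.log 2 = m * Real.log 2 + β * Real.log x := by
    rw [hv]
    field_simp
  have hm4 : (8 : ℝ) ≤ m := by exact_mod_cast hm
  -- the size of `v`
  have hv1 : 3 / 4 * (m : ℝ) ≤ v := by
    have h4 : 3 / 4 * (m : ℝ) * Real.log 2 ≤ v * Real.log 2 := by
      rw [hvl]
      linarith
    exact le_of_mul_le_mul_right h4 hl20
  have hv0 : 0 ≤ v := by linarith
  -- floor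
  have hf1 : ((⌊v⌋₊ : ℕ) : ℝ) ≤ v := Nat.floor_le hv0
  have hf2 : v < (⌊v⌋₊ : ℝ) + 1 := Nat.lt_floor_add_one v
  have hlam : ∀ (j i : ℕ), Real.log (lam j i) = ((i : ℝ) - j) * Real.log 2 := by
    intro j i
    rw [lam_exp, Real.log_exp]
    unfold Lg
    ring
  refine ⟨⌊v⌋₊, ?_, ?_, ?_, ?_⟩
  · rw [← Real.log_le_log_iff (by positivity) (lam_pos _ _), hlam,
      Real.log_mul (by norm_num) (Real.rpow_pos_of_pos hx _).ne', Real.log_rpow hx, one_div,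
      Real.log_inv]
    have h4 : (v - 1 - m) * Real.log 2 ≤ ((⌊v⌋₊ : ℝ) - m) * Real.log 2 :=
      mul_le_mul_of_nonneg_right (by linarith) hl20.le
    refine le_trans (le_of_eq ?_) h4
    have : (v - 1 - m) * Real.log 2 = v * Real.log 2 - Real.log 2 - m * Real.log 2 := by ring
    rw [this, hvl]
    ring
  · rw [← Real.log_le_log_iff (lam_pos _ _) (Real.rpow_pos_of_pos hx _), hlam,
      Real.log_rpow hx]
    have h4 : ((⌊v⌋₊ : ℝ) - m) * Real.log 2 ≤ (v - m) * Real.log 2 :=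
      mul_le_mul_of_nonneg_right (by linarith) hl20.le
    refine h4.trans (le_of_eq ?_)
    rw [sub_mul, hvl]
    ring
  · have h3 : (m : ℝ) ≤ 2 * (⌊v⌋₊ : ℝ) := by
      have h5 : (m : ℝ) / 2 ≤ v - 1 := by linarith
      have h6 : v - 1 < (⌊v⌋₊ : ℝ) := by linarith
      linarith
    exact_mod_cast h3
  · intro s hs
    refine Nat.le_floor ?_
    rw [← hvl] at hs
    exact le_of_mul_le_mul_right hs hl20

/-- the numbers of the last piece -/
structure N1 (P : Par) (c1 : ℝ) : Prop where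
  thp : P.thp ≤ 1 / 1000
  th : P.th ≤ P.thp / 200
  s1 : ∀ e : ℝ, 0 < e → e ≤ P.es → e ^ (P.thp / 100) ≤ 1 / 2
  s2 : ∀ e : ℝ, 0 < e → e ≤ P.es → Real.log (1 / e) + e ^ (-(c1 / 2)) ≤ e ^ (-c1)

/-- the numbers hold in the order of constants -/
theorem ev_n1 (b1 b2 pf : ℝ) (Q : ℕ) : Ev b1 b2 pf Q fun P c1 => N1 P c1 := by
  apply Ev.of
  refine ⟨0, fun W _ => ⟨1, one_pos, fun ys _ _ => ⟨0, fun X0 _ => ⟨1, one_pos,
    fun x1 hx1 _ => ⟨1 / 1000, by norm_num, fun thp hthp hthp1 => ⟨thp / 200, by positivity,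
    fun th hth hth1 => ⟨0, fun C0 _ => ⟨1, one_pos, fun c1 hc1 _ => ?_⟩⟩⟩⟩⟩⟩⟩⟩
  obtain ⟨e1, he1, h1⟩ := small_rpow (s := thp / 100) (A := 1) (by positivity)
    (show (0 : ℝ) < 1 / 2 by norm_num)
  obtain ⟨e2, he2, h2⟩ := H801.log_small (a := c1) (c := 1 / 2) hc1 (by norm_num)
  obtain ⟨e3, he3, h3⟩ := small_rpow (s := c1 / 2) (A := 1) (by positivity)
    (show (0 : ℝ) < 1 / 2 by norm_num)
  refine ⟨min e1 (min e2 e3), by positivity, fun P hP => ?_⟩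
  have hE1 : P.es ≤ e1 := hP.ees.trans (min_le_left _ _)
  have hE2 : P.es ≤ e2 := hP.ees.trans ((min_le_right _ _).trans (min_le_left _ _))
  have hE3 : P.es ≤ e3 := hP.ees.trans ((min_le_right _ _).trans (min_le_right _ _))
  refine ⟨by rw [hP.ethp]; exact hthp1, by rw [hP.ethp, hP.eth]; exact hth1, ?_, ?_⟩
  · intro e he hes
    rw [hP.ethp]
    have := h1 e he (hes.trans hE1)
    rwa [one_mul] at this
  · intro e he hes
    have k2 := h2 e he (hes.trans hE2)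
    have k3 := h3 e he (hes.trans hE3)
    rw [one_mul] at k3
    have hp : 0 < e ^ (-c1) := Real.rpow_pos_of_pos he _
    have e4 : e ^ c1 * e ^ (-c1) = 1 := by rw [← Real.rpow_add he, add_neg_cancel, Real.rpow_zero]
    have e5 : e ^ (c1 / 2) * e ^ (-c1) = e ^ (-(c1 / 2)) := by
      rw [← Real.rpow_add he]
      congr 1
      ring
    have k4 := mul_le_mul_of_nonneg_right k2 hp.le
    have k5 := mul_le_mul_of_nonneg_right k3 hp.le
    rw [e5] at k5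
    have e6 : e ^ c1 * Real.log (1 / e) * e ^ (-c1) = Real.log (1 / e) := by
      calc e ^ c1 * Real.log (1 / e) * e ^ (-c1) = (e ^ c1 * e ^ (-c1)) * Real.log (1 / e) := by
            ring
        _ = _ := by rw [e4, one_mul]
    rw [e6] at k4
    linarith

/-- the numbers of `F1` in logarithms, `l = log e`, `Z = ‖ζ‖` -/
structure Lg1 (C1 c1 : ℝ) (n0 : ℕ) (e y Z l : ℝ) : Prop where
  l4 : l ≤ -(2 * Real.log 2)
  Z0 : 0 < Z
  a1 : Real.log Z ≤ 531 / 1000 * l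
  a2 : -Real.log Z ≤ e ^ (-c1)
  a3 : -l - Real.log Z ≤ 201 / 200 * (1 / (64 * C1) * n0)
  a4 : 1 / 200 * l + Real.log y ≤ Real.log Z
  a5 : 1 / 200 * l + Real.log Z ≤ Real.log y

variable {P : Par} {b C1 c1 A1 : ℝ} {N0 n0 n m s : ℕ} {e y : ℝ} {ζ : ℂ} {Δ E : ℝ}

lemma F1.lg (hP : P.Adm) (hN : N1 P c1) (hdx : DX0 P b C1 N0) (hn : N0 ≤ n0)
    (h : F1 P b C1 c1 A1 n0 n m s e y ζ Δ E) : Lg1 C1 c1 n0 e y ‖ζ‖ (Real.log e) := by
  have he := h.e0
  have hes := h.es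
  have he1 : e ≤ 1 / 4 := hes.trans hP.es4
  obtain ⟨hz, hd⟩ := hdx n0 e hn he hes h.zg
  have hlo := h.lo
  have hZ : 0 < ‖ζ‖ := lt_of_lt_of_le (by positivity) hlo
  have hy := h.y0
  obtain ⟨z, hzd⟩ : ∃ z, z = H316.y0 P b n0 e := ⟨_, rfl⟩
  have hzg := h.zg
  have hzL := h.zL
  have hhi := h.hi
  rw [← hzd] at hz hd hlo hzg hzL hhi
  obtain ⟨Z, hZd⟩ : ∃ Z, Z = ‖ζ‖ := ⟨_, rfl⟩
  have hya := h.ya
  have hyb := h.yb
  rw [← hZd] at hZ hlo hhi hya hyb ⊢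
  obtain ⟨l, hl⟩ : ∃ l, l = Real.log e := ⟨_, rfl⟩
  rw [← hl]
  have hl2 := Real.log_two_gt_d9
  have hl4 : l ≤ -(2 * Real.log 2) := by
    have h1 := Real.log_le_log he he1
    rw [one_div, Real.log_inv, show (4 : ℝ) = 2 ^ 2 by norm_num, Real.log_pow] at h1
    push_cast at h1
    rw [hl]
    exact h1
  have g1 : 47 / 25 * Real.log z ≤ l := by
    have h1 := Real.log_le_log (Real.rpow_pos_of_pos hz _) hzg
    rwa [Real.log_rpow hz, ← hl] at h1
  have g2 : 1 / 200 * l + Real.log z ≤ Real.log Z := by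
    have h1 := Real.log_le_log (by positivity) hlo
    rwa [Real.log_mul (by positivity) hz.ne', Real.log_rpow he, ← hl] at h1
  have g3 : Real.log Z ≤ -(9 / 10 ^ 4) * l + Real.log z := by
    have h1 := Real.log_le_log hZ hhi
    rwa [Real.log_mul (by positivity) hz.ne', Real.log_rpow he, ← hl] at h1
  have g4 : 1 / 200 * l + Real.log y ≤ Real.log Z := by
    have h1 := Real.log_le_log (by positivity) hya
    rwa [Real.log_mul (by positivity) hy.ne', Real.log_rpow he, ← hl] at h1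
  have g5 : 1 / 200 * l + Real.log Z ≤ Real.log y := by
    have h1 := Real.log_le_log (by positivity) hyb
    rwa [Real.log_mul (by positivity) hZ.ne', Real.log_rpow he, ← hl] at h1
  have g6 : -(l + Real.log z) ≤ 1 / (64 * C1) * n0 := by
    rwa [Real.log_mul he.ne' hz.ne', ← hl] at hd
  have g7 : -Real.log z ≤ e ^ (-(c1 / 2)) := by
    rwa [one_div, Real.log_inv] at hzL
  have g9 : -l + e ^ (-(c1 / 2)) ≤ e ^ (-c1) := by
    have h1 := hN.s2 e he hes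
    rwa [one_div, Real.log_inv, ← hl] at h1
  norm_num at g3
  exact ⟨hl4, hZ, by linarith, by linarith, by linarith, g4, g5⟩

/-- the reference number -/
lemma yr_eq (P : Par) (e : ℝ) (ζ : ℂ) : yr P e ζ = e ^ (-(P.thp / 50)) * ‖ζ‖ := rfl

lemma yr_log (he : 0 < e) (hZ : 0 < ‖ζ‖) :
    Real.log (yr P e ζ) = -(P.thp / 50) * Real.log e + Real.log ‖ζ‖ := by
  rw [yr_eq, Real.log_mul (by positivity) hZ.ne', Real.log_rpow he]

/-- the logarithm of `x = e yr` -/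
lemma F1.xl (hN : N1 P c1) (h : F1 P b C1 c1 A1 n0 n m s e y ζ Δ E)
    (g : Lg1 C1 c1 n0 e y ‖ζ‖ (Real.log e)) : 0 < yr P e ζ ∧
      Real.log (e * yr P e ζ) ≤ 3 / 2 * Real.log e ∧
      -Real.log (e * yr P e ζ) ≤ -Real.log e - Real.log ‖ζ‖ ∧
      Real.log e + Real.log y + 1 / 200 * Real.log e ≤ Real.log (e * yr P e ζ) := by
  have he := h.e0
  have hZ := g.Z0
  have hY : 0 < yr P e ζ := by
    rw [yr_eq]
    positivity
  have hl2 := Real.log_two_gt_d9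
  have hxl : Real.log (e * yr P e ζ) = Real.log e + Real.log (yr P e ζ) :=
    Real.log_mul he.ne' hY.ne'
  rw [yr_log he hZ] at hxl
  obtain ⟨l, hl⟩ : ∃ l, l = Real.log e := ⟨_, rfl⟩
  have g1 := g.l4
  have g2 := g.a1
  have g3 := g.a4
  rw [← hl] at hxl g1 g2 g3 ⊢
  have t1 : P.thp * l ≤ 0 := mul_nonpos_of_nonneg_of_nonpos P.thp0.le (by linarith)
  have t2 : 1 / 1000 * l ≤ P.thp * l := mul_le_mul_of_nonpos_right hN.thp (by linarith)
  refine ⟨hY, ?_, ?_, ?_⟩ <;> rw [hxl] <;> linarith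

/-- the cells -/
lemma F1.cells (hN : N1 P c1) (hC1 : 24 ≤ C1) (hN0 : 16 ≤ N0) (hn : N0 ≤ n0)
    (h : F1 P b C1 c1 A1 n0 n m s e y ζ Δ E) (g : Lg1 C1 c1 n0 e y ‖ζ‖ (Real.log e)) :
    ∃ s' : ℕ, s ≤ s' ∧ 1 / 2 * (e * yr P e ζ) ^ (69 / 64 * C1) ≤ lam m s' ∧
      lam m s' ≤ (e * yr P e ζ) ^ (69 / 64 * C1) ∧ m ≤ 2 * s' := by
  have he := h.e0
  have hy := h.y0
  obtain ⟨hY, k1, k2, k3⟩ := h.xl hN g
  have hx : 0 < e * yr P e ζ := by positivity
  have hl2 := Real.log_two_gt_d9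
  have hnm' : (n0 : ℝ) ≤ m := by exact_mod_cast h.nn.trans h.nm
  have hm8 : 8 ≤ m := by
    have := h.nn
    have := h.nm
    omega
  have hC0 : 0 < C1 := by linarith
  have g3 := g.a3
  have g1 := g.l4
  have g2 := g.a1
  have g4 := g.a4
  have g5 := g.a5
  have d2 : 69 / 64 * C1 * (-Real.log (e * yr P e ζ)) ≤ 1 / 4 * m * Real.log 2 := by
    have h1 := mul_le_mul_of_nonneg_left (k2.trans g3) (show 0 ≤ 69 / 64 * C1 by positivity)
    have h2 : 69 / 64 * C1 * (201 / 200 * (1 / (64 * C1) * (n0 : ℝ))) =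
        69 * 201 / (64 * 200 * 64) * n0 := by
      field_simp
    rw [h2] at h1
    have h3 : (m : ℝ) * 0.69 ≤ m * Real.log 2 :=
      mul_le_mul_of_nonneg_left (by linarith) (Nat.cast_nonneg m)
    have h4 : (0 : ℝ) ≤ n0 := Nat.cast_nonneg n0
    linarith
  obtain ⟨s', c1', c2', c3', c4'⟩ := cell_fl (β := 69 / 64 * C1) hx d2 hm8
  refine ⟨s', ?_, c1', c2', c3'⟩
  refine c4' s ?_
  have h1 := Real.log_le_log (lam_pos n s) h.s2
  have h2 : Real.log (lam n s) = ((s : ℝ) - n) * Real.log 2 := by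
    rw [lam_exp, Real.log_exp]
    unfold Lg
    ring
  rw [h2, Real.log_rpow (by positivity), Real.log_mul he.ne' hy.ne'] at h1
  obtain ⟨l, hl⟩ : ∃ l, l = Real.log e := ⟨_, rfl⟩
  rw [← hl] at h1 k1 k3 g1 g2 g4 g5
  have h4 : 71 / 64 * (l + Real.log y) ≤ 69 / 64 * (l + Real.log y + 1 / 200 * l) := by
    linarith
  have h5 : C1 * (71 / 64 * (l + Real.log y)) ≤ C1 * (69 / 64 * Real.log (e * yr P e ζ)) :=
    mul_le_mul_of_nonneg_left (h4.trans (by linarith)) hC0.le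
  have h6 : (n : ℝ) * Real.log 2 ≤ m * Real.log 2 :=
    mul_le_mul_of_nonneg_right (by exact_mod_cast h.nm) (by linarith)
  have h7 : ((s : ℝ) - n) * Real.log 2 = s * Real.log 2 - n * Real.log 2 := by ring
  rw [h7] at h1
  linarith

/-- the background -/
lemma F1.vz (hN : N1 P c1) (hcor : COR P b c1 N0) (hn : N0 ≤ n0)
    (h : F1 P b C1 c1 A1 n0 n m s e y ζ Δ E) (g : Lg1 C1 c1 n0 e y ‖ζ‖ (Real.log e)) :
    ∀ r, m + P.kE e ≤ r → yt (2 ^ r) b (4 * H972.tn m) ≤ e ^ (-(P.thp / 100)) * ‖ζ‖ := by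
  intro r hr
  have he := h.e0
  have hZ := g.Z0
  have hl2 := Real.log_two_gt_d9
  have hth := hN.th
  have hyy : 0 < e ^ (-(P.thp / 200)) * ‖ζ‖ := by positivity
  have hyl : Real.log (e ^ (-(P.thp / 200)) * ‖ζ‖) =
      -(P.thp / 200) * Real.log e + Real.log ‖ζ‖ := by
    rw [Real.log_mul (by positivity) hZ.ne', Real.log_rpow he]
  have he1 : e ≤ 1 := h.es.trans (P.es1.trans (by norm_num))
  have g1 := g.l4
  have g2 := g.a1
  have g3 := g.a2
  obtain ⟨l, hl⟩ : ∃ l, l = Real.log e := ⟨_, rfl⟩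
  rw [← hl] at hyl g1 g2
  have t1 : P.thp * l ≤ 0 := mul_nonpos_of_nonneg_of_nonpos P.thp0.le (by linarith)
  have t2 : 1 / 1000 * l ≤ P.thp * l := mul_le_mul_of_nonpos_right hN.thp (by linarith)
  have h1 := hcor m e (e ^ (-(P.thp / 200)) * ‖ζ‖) (hn.trans (h.nn.trans h.nm)) he h.es h.G hyy
    (by
      have h2 : e ^ (-(P.thp / 200)) * ‖ζ‖ ≤ e ^ (1 / 4 : ℝ) := by
        rw [← Real.log_le_log_iff hyy (by positivity), hyl, Real.log_rpow he, ← hl]
        linarith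
      have h3 : 0 < e ^ (1 / 4 : ℝ) := by positivity
      linarith)
    (by
      rw [one_div, Real.log_inv, hyl]
      have : 0 < e ^ (-c1) := by positivity
      linarith) h.ym r hr
  refine h1.trans ?_
  rw [← mul_assoc, ← Real.rpow_add he]
  refine mul_le_mul_of_nonneg_right ?_ hZ.le
  exact Real.rpow_le_rpow_of_exponent_ge he he1 (by linarith)

lemma F1.vY (h : F1 P b C1 c1 A1 n0 n m s e y ζ Δ E)
    (hvz : ∀ r, m + P.kE e ≤ r → yt (2 ^ r) b (4 * H972.tn m) ≤ e ^ (-(P.thp / 100)) * ‖ζ‖) :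
    ∀ r, P.TT m e r → yt (2 ^ r) b (4 * H972.tn m) ≤ e ^ (-(P.thp / 20)) * yr P e ζ := by
  intro r hr
  have he := h.e0
  have he1 : e ≤ 1 := h.es.trans (P.es1.trans (by norm_num))
  have hthp0 := P.thp0
  refine (hvz r hr.1).trans ?_
  rw [yr_eq, ← mul_assoc, ← Real.rpow_add he]
  refine mul_le_mul_of_nonneg_right ?_ (norm_nonneg _)
  exact Real.rpow_le_rpow_of_exponent_ge he he1 (by linarith)

lemma F1.Y1 (hN : N1 P c1) (h : F1 P b C1 c1 A1 n0 n m s e y ζ Δ E)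
    (g : Lg1 C1 c1 n0 e y ‖ζ‖ (Real.log e)) : yr P e ζ ^ (39 / 20 : ℝ) ≤ e := by
  have he := h.e0
  have hZ := g.Z0
  have hl2 := Real.log_two_gt_d9
  obtain ⟨hY, -⟩ := h.xl hN g
  rw [← Real.log_le_log_iff (Real.rpow_pos_of_pos hY _) he, Real.log_rpow hY, yr_log he hZ]
  have g1 := g.l4
  have g2 := g.a1
  obtain ⟨l, hl⟩ : ∃ l, l = Real.log e := ⟨_, rfl⟩
  rw [← hl] at g1 g2 ⊢
  have t2 : 1 / 1000 * l ≤ P.thp * l := mul_le_mul_of_nonpos_right hN.thp (by linarith)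
  linarith

/-- the level at the reference number -/
lemma F1.cx (hN : N1 P c1) (hC1 : 24 ≤ C1)
    (h : F1 P b C1 c1 A1 n0 n m s e y ζ Δ E) (g : Lg1 C1 c1 n0 e y ‖ζ‖ (Real.log e))
    (hvz : ∀ r, m + P.kE e ≤ r → yt (2 ^ r) b (4 * H972.tn m) ≤ e ^ (-(P.thp / 100)) * ‖ζ‖)
    {s' : ℕ} (k1 : 1 / 2 * (e * yr P e ζ) ^ (69 / 64 * C1) ≤ lam m s')
    (k2 : lam m s' ≤ (e * yr P e ζ) ^ (69 / 64 * C1)) (k3 : m ≤ 2 * s') :
    Cx P b C1 c1 m s' e (yr P e ζ) := by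
  have he := h.e0
  have hZ := g.Z0
  have hl2 := Real.log_two_gt_d9
  obtain ⟨hY, x1, x2, x3⟩ := h.xl hN g
  have hx : 0 < e * yr P e ζ := by positivity
  have g1 := g.l4
  have hx1 : e * yr P e ζ ≤ 1 := by
    have h1 : Real.log (e * yr P e ζ) ≤ Real.log 1 := by
      rw [Real.log_one]
      linarith
    exact (Real.log_le_log_iff hx one_pos).1 h1
  exact
    { G := h.G
      b1 := h.b1
      b2 := h.b2
      e0 := he
      es := h.es
      y0 := hY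
      y1 := h.Y1 hN g
      yL := by
        rw [one_div, Real.log_inv, yr_log he hZ]
        have g2 := g.a2
        have t1 : P.thp * Real.log e ≤ 0 :=
          mul_nonpos_of_nonneg_of_nonpos P.thp0.le (by linarith)
        linarith
      vy := h.vY hvz
      s1 := by
        refine le_trans ?_ k1
        have h1 : (e * yr P e ζ) ^ (9 / 8 * C1) =
            (e * yr P e ζ) ^ (3 / 64 * C1) * (e * yr P e ζ) ^ (69 / 64 * C1) := by
          rw [← Real.rpow_add hx]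
          congr 1
          ring
        rw [h1]
        refine mul_le_mul_of_nonneg_right ?_ (Real.rpow_nonneg hx.le _)
        rw [← Real.log_le_log_iff (Real.rpow_pos_of_pos hx _) (by norm_num), Real.log_rpow hx,
          one_div, Real.log_inv]
        have h2 : 3 / 64 * C1 * Real.log (e * yr P e ζ) ≤
            3 / 64 * 24 * Real.log (e * yr P e ζ) := by
          have h3 : Real.log (e * yr P e ζ) ≤ 0 := by linarith
          have h4 : 3 / 64 * 24 ≤ 3 / 64 * C1 := by linarith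
          exact mul_le_mul_of_nonpos_right h4 h3
        linarith
      s2 := k2.trans (Real.rpow_le_rpow_of_exponent_ge hx hx1 (by linarith))
      ns := k3 }

/-- `CH2` at the level -/
lemma F1.ch (hN : N1 P c1) (hchs : CHS P b c1)
    (h : F1 P b C1 c1 A1 n0 n m s e y ζ Δ E) (g : Lg1 C1 c1 n0 e y ‖ζ‖ (Real.log e))
    (hvz : ∀ r, m + P.kE e ≤ r → yt (2 ^ r) b (4 * H972.tn m) ≤ e ^ (-(P.thp / 100)) * ‖ζ‖) :
    H889.CH2 P b m e (yr P e ζ) := by
  have he := h.e0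
  have hZ := g.Z0
  have hl2 := Real.log_two_gt_d9
  have hq : 0 < e ^ (P.thp / 25) * ‖ζ‖ := by positivity
  have h1 := hchs.2 m e (e ^ (P.thp / 25) * ‖ζ‖) he h.es hq (by
    rw [← Real.log_le_log_iff (Real.rpow_pos_of_pos hq _) he, Real.log_rpow hq,
      Real.log_mul (by positivity) hZ.ne', Real.log_rpow he]
    have g1 := g.l4
    have g2 := g.a1
    have t1 : P.thp * Real.log e ≤ 0 :=
      mul_nonpos_of_nonneg_of_nonpos P.thp0.le (by linarith)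
    linarith) (by
    intro r hr
    refine (hvz r hr.1).trans (le_of_eq ?_)
    rw [← mul_assoc, ← Real.rpow_add he]
    congr 2
    ring)
  refine H415.CH2.mono h1 ?_
  have h2 := hN.s1 e he h.es
  have e1 : e ^ (-(P.thp / 20)) * (e ^ (P.thp / 25) * ‖ζ‖) =
      e ^ (P.thp / 100) * (e ^ (-(P.thp / 50)) * ‖ζ‖) := by
    rw [← mul_assoc, ← mul_assoc, ← Real.rpow_add he, ← Real.rpow_add he]
    congr 2
    ring
  rw [e1, ← yr_eq]
  obtain ⟨hY, -⟩ := h.xl hN g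
  have h3 := mul_le_mul_of_nonneg_right h2 hY.le
  linarith

lemma gJ_zero (P : Par) : gJ P 0 = 0 := by
  unfold gJ
  rw [Nat.cast_zero, zero_mul]
  exact min_eq_right (by norm_num)

lemma gB_zero (P : Par) : gB P 0 = -(P.thp / 10) := by
  unfold gB
  rw [Nat.cast_zero, zero_mul, zero_sub]
  have := P.thp0
  exact min_eq_right (by linarith)

lemma dJ_zero (P : Par) (h : P.thp ≤ 1) : dJ P 0 = P.thp / 2 := by
  unfold dJ
  rw [Nat.cast_zero, zero_mul, add_zero]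
  exact min_eq_right (by linarith)

lemma eJ_zero (P : Par) : eJ P 0 = 48 / 100 := by
  unfold eJ
  rw [Nat.cast_zero, zero_mul, add_zero]
  exact min_eq_right (by norm_num)

lemma uJ_zero (P : Par) : uJ P 0 = 531 / 1000 := by
  unfold uJ
  rw [Nat.cast_zero, zero_mul, sub_zero]

/-- **the last piece of the first part** -/
theorem fin1 (hP : P.Adm) (hN : N1 P c1) (hC1 : 24 ≤ C1)
    (hb : 0 < b) (hN0 : 16 ≤ N0) (hcor : COR P b c1 N0) (hchs : CHS P b c1) (hcbs : CBS P b c1)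
    (hdx : DX0 P b C1 N0) (hn : N0 ≤ n0)
    (h : F1 P b C1 c1 A1 n0 n m s e y ζ Δ E) : ∃ s' : ℕ, S2J P b C1 c1 A1 0 m s' e ζ Δ E := by
  have he := h.e0
  have hes := h.es
  have hy := h.y0
  have g := h.lg hP hN hdx hn
  have hZ := g.Z0
  obtain ⟨s', hss, k1, k2, k3⟩ := h.cells hN hC1 hN0 hn g
  have hvz := h.vz hN hcor hn g
  have hcx := h.cx hN hC1 g hvz k1 k2 k3
  obtain ⟨hY, -⟩ := h.xl hN g
  have hl2 := Real.log_two_gt_d9
  have g1 := g.l4
  have t1 : P.thp * Real.log e ≤ 0 := mul_nonpos_of_nonneg_of_nonpos P.thp0.le (by linarith)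
  have t2 : 1 / 1000 * Real.log e ≤ P.thp * Real.log e :=
    mul_le_mul_of_nonpos_right hN.thp (by linarith)
  have hr1 : e ^ (1 / 100 : ℝ) * y ≤ yr P e ζ := by
    rw [← Real.log_le_log_iff (by positivity) hY, Real.log_mul (by positivity) hy.ne',
      Real.log_rpow he, yr_log he hZ]
    have g4 := g.a4
    linarith
  have hr2 : e ^ (1 / 100 : ℝ) * yr P e ζ ≤ y := by
    rw [← Real.log_le_log_iff (by positivity) hy, Real.log_mul (by positivity) hY.ne',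
      Real.log_rpow he, yr_log he hZ]
    have g5 := g.a5
    linarith
  refine ⟨s', h.G, he, hes, norm_pos_iff.1 hZ, ?_, ?_, hvz, k1, k2, ?_, ?_, ?_,
    h.sv s' _ hcx hr1 hr2 hss, h.Δ0, h.E0, ?_, ?_⟩
  · rw [uJ_zero, ← Real.log_le_log_iff hZ (by positivity), Real.log_rpow he]
    exact g.a1
  · rw [one_div, Real.log_inv]
    exact g.a2
  · rw [Real.log_mul he.ne' hZ.ne']
    have hnm' : (n0 : ℝ) ≤ m := by exact_mod_cast h.nn.trans h.nm
    have hC0 : 0 < C1 := by linarith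
    have h1 : 1 / (16 * C1) * (m : ℝ) = 4 * (1 / (64 * C1) * m) := by
      field_simp
      ring
    have h2 : 1 / (64 * C1) * (n0 : ℝ) ≤ 1 / (64 * C1) * m :=
      mul_le_mul_of_nonneg_left hnm' (by positivity)
    have h3 : 0 ≤ 1 / (64 * C1) * (n0 : ℝ) := by positivity
    have g3 := g.a3
    rw [h1]
    linarith
  · rw [gJ_zero, Real.rpow_zero, mul_one]
    exact h.ch hN hchs g hvz
  · rw [gB_zero]
    exact hcbs.2 m e _ hb he hes hY (h.Y1 hN g) (h.vY hvz)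
  · rw [dJ_zero P hP.thp1]
    exact h.dv
  · rw [eJ_zero]
    exact h.er

/-- **the last piece of the first part**, in the order of constants -/
theorem fin1_ev (b1 b2 pf : ℝ) (Q : ℕ) : Ev b1 b2 pf Q fun P c1 => ∀ C1, 24 ≤ C1 →
    ∀ b, 0 < b → ∀ (A1 : ℝ) (N0 : ℕ), 16 ≤ N0 → COR P b c1 N0 → CHS P b c1 → CBS P b c1 →
      DX0 P b C1 N0 → ∀ (n0 n m s : ℕ) (e y : ℝ) (ζ : ℂ) (Δ E : ℝ), N0 ≤ n0 →
        F1 P b C1 c1 A1 n0 n m s e y ζ Δ E → ∃ s' : ℕ, S2J P b C1 c1 A1 0 m s' e ζ Δ E :=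
  (ev_n1 b1 b2 pf Q).mono fun _ _ hA hN _ hC1 _ hb _ _ hN0 h1 h2 h3 h4 _ _ _ _ _ _ _ _ _ hn h =>
    fin1 hA hN hC1 hb hN0 h1 h2 h3 h4 hn h

end

end Vale.Agent.P159.H197
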