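import Mathlib

/-!
P159 (helper197), START of V, Part 1: the real recursion of the windows (numbers asked by helper363).
-/

namespace Vale.Agent.P159.H197.Rc

variable {u g μ v : ℝ}

lemma up (hub : (10 : ℝ) ^ 6 ≤ u ^ (1 / 2000 : ℝ)) (hu1 : 1 ≤ u) {a b : ℝ}
    (h : a + 1 / 2000 ≤ b) : (10 : ℝ) ^ 6 * u ^ a ≤ u ^ b := by
  have hu : 0 < u := by linarith
  calc (10 : ℝ) ^ 6 * u ^ a ≤ u ^ (1 / 2000 : ℝ) * u ^ a :=
        mul_le_mul_of_nonneg_right hub (Real.rpow_nonneg hu.le _)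
    _ = u ^ (1 / 2000 + a) := by rw [← Real.rpow_add hu]
    _ ≤ u ^ b := Real.rpow_le_rpow_of_exponent_le hu1 (by linarith)

/-- the first window -/
theorem rc0 (hub : (10 : ℝ) ^ 6 ≤ u ^ (1 / 2000 : ℝ)) (hu1 : 1 ≤ u) (hv : 0 < v)
    (_hg1 : u ^ (-(1 / 10 ^ 6) : ℝ) ≤ g) (hg2 : g ≤ u ^ (1 / 10 ^ 6 : ℝ))
    (_hμ0 : 0 ≤ μ) (hμ : μ ≤ u ^ (-(100 : ℝ))) {Δ0 Δ1 z1 : ℝ}
    (_hΔ0 : 0 ≤ Δ0) (hΔ : Δ0 ≤ u ^ (1001 / 1000 : ℝ) * v)
    (hz : |z1 - v * g| ≤ 2 * u ^ (1 / 10 : ℝ) * Δ0 + μ * v)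
    (hd : Δ1 ≤ u ^ (-(3 / 4) : ℝ) * Δ0 + μ * v) :
    z1 + Δ1 ≤ u ^ (13 / 10 : ℝ) * v ∧ 2 * Δ1 ≤ u ^ (253 / 1000 : ℝ) * v := by
  have hu : 0 < u := by linarith
  have e1 : u ^ (1 / 10 : ℝ) * u ^ (1001 / 1000 : ℝ) = u ^ (1101 / 1000 : ℝ) := by
    rw [← Real.rpow_add hu]
    norm_num
  have e2 : u ^ (-(3 / 4) : ℝ) * u ^ (1001 / 1000 : ℝ) = u ^ (251 / 1000 : ℝ) := by
    rw [← Real.rpow_add hu]
    norm_num
  have h1 : u ^ (1 / 10 : ℝ) * Δ0 ≤ u ^ (1101 / 1000 : ℝ) * v := by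
    have := mul_le_mul_of_nonneg_left hΔ (Real.rpow_nonneg hu.le (1 / 10 : ℝ))
    rwa [← mul_assoc, e1] at this
  have h2 : u ^ (-(3 / 4) : ℝ) * Δ0 ≤ u ^ (251 / 1000 : ℝ) * v := by
    have := mul_le_mul_of_nonneg_left hΔ (Real.rpow_nonneg hu.le (-(3 / 4) : ℝ))
    rwa [← mul_assoc, e2] at this
  have h3 : μ * v ≤ u ^ (-(100 : ℝ)) * v := mul_le_mul_of_nonneg_right hμ hv.le
  have h4 : v * g ≤ u ^ (1 / 10 ^ 6 : ℝ) * v := by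
    rw [mul_comm]
    exact mul_le_mul_of_nonneg_right hg2 hv.le
  have k1 := mul_le_mul_of_nonneg_right (up hub hu1 (a := 1 / 10 ^ 6) (b := 13 / 10)
    (by norm_num)) hv.le
  have k2 := mul_le_mul_of_nonneg_right (up hub hu1 (a := 1101 / 1000) (b := 13 / 10)
    (by norm_num)) hv.le
  have k3 := mul_le_mul_of_nonneg_right (up hub hu1 (a := -(100 : ℝ)) (b := 13 / 10)
    (by norm_num)) hv.le
  have k4 := mul_le_mul_of_nonneg_right (up hub hu1 (a := 251 / 1000) (b := 13 / 10)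
    (by norm_num)) hv.le
  have k5 := mul_le_mul_of_nonneg_right (up hub hu1 (a := 251 / 1000) (b := 253 / 1000)
    (by norm_num)) hv.le
  have k6 := mul_le_mul_of_nonneg_right (up hub hu1 (a := -(100 : ℝ)) (b := 253 / 1000)
    (by norm_num)) hv.le
  have p1 : 0 < u ^ (1 / 10 ^ 6 : ℝ) * v := by positivity
  have p2 : 0 < u ^ (1101 / 1000 : ℝ) * v := by positivity
  have p3 : 0 < u ^ (-(100 : ℝ)) * v := by positivity
  have p4 : 0 < u ^ (251 / 1000 : ℝ) * v := by positivity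
  have h5 := (abs_le.1 hz).2
  constructor <;> linarith

/-- the second window -/
theorem rc1 (hub : (10 : ℝ) ^ 6 ≤ u ^ (1 / 2000 : ℝ)) (hu1 : 1 ≤ u) (hv : 0 < v)
    (_hg1 : u ^ (-(1 / 10 ^ 6) : ℝ) ≤ g) (hg2 : g ≤ u ^ (1 / 10 ^ 6 : ℝ))
    (_hμ0 : 0 ≤ μ) (hμ : μ ≤ u ^ (-(100 : ℝ))) {z z' Δ Δ' : ℝ}
    (hz0 : 0 ≤ z) (hz1 : z ≤ u ^ (13 / 10 : ℝ) * v) (_hΔ0 : 0 ≤ Δ)
    (hΔ : Δ ≤ u ^ (253 / 1000 : ℝ) * v)
    (hz : |z' - z * g| ≤ 2 * u ^ (1 / 10 : ℝ) * Δ + μ * v)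
    (hd : Δ' ≤ u ^ (-(3 / 4) : ℝ) * Δ + μ * v) :
    z' ≤ u ^ (14 / 10 : ℝ) * v ∧ Δ' ≤ u ^ (-(49 / 100) : ℝ) * v := by
  have hu : 0 < u := by linarith
  have e1 : u ^ (1 / 10 : ℝ) * u ^ (253 / 1000 : ℝ) = u ^ (353 / 1000 : ℝ) := by
    rw [← Real.rpow_add hu]
    norm_num
  have e2 : u ^ (-(3 / 4) : ℝ) * u ^ (253 / 1000 : ℝ) = u ^ (-(497 / 1000) : ℝ) := by
    rw [← Real.rpow_add hu]
    norm_num
  have e3 : u ^ (1 / 10 ^ 6 : ℝ) * u ^ (13 / 10 : ℝ) = u ^ (1300001 / 1000000 : ℝ) := by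
    rw [← Real.rpow_add hu]
    norm_num
  have h1 : u ^ (1 / 10 : ℝ) * Δ ≤ u ^ (353 / 1000 : ℝ) * v := by
    have := mul_le_mul_of_nonneg_left hΔ (Real.rpow_nonneg hu.le (1 / 10 : ℝ))
    rwa [← mul_assoc, e1] at this
  have h2 : u ^ (-(3 / 4) : ℝ) * Δ ≤ u ^ (-(497 / 1000) : ℝ) * v := by
    have := mul_le_mul_of_nonneg_left hΔ (Real.rpow_nonneg hu.le (-(3 / 4) : ℝ))
    rwa [← mul_assoc, e2] at this
  have h3 : μ * v ≤ u ^ (-(100 : ℝ)) * v := mul_le_mul_of_nonneg_right hμ hv.le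
  have h4 : z * g ≤ u ^ (1300001 / 1000000 : ℝ) * v := by
    calc z * g ≤ z * u ^ (1 / 10 ^ 6 : ℝ) := mul_le_mul_of_nonneg_left hg2 hz0
      _ ≤ (u ^ (13 / 10 : ℝ) * v) * u ^ (1 / 10 ^ 6 : ℝ) :=
        mul_le_mul_of_nonneg_right hz1 (Real.rpow_nonneg hu.le _)
      _ = (u ^ (1 / 10 ^ 6 : ℝ) * u ^ (13 / 10 : ℝ)) * v := by ring
      _ = _ := by rw [e3]
  have k1 := mul_le_mul_of_nonneg_right (up hub hu1 (a := 1300001 / 1000000) (b := 14 / 10)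
    (by norm_num)) hv.le
  have k2 := mul_le_mul_of_nonneg_right (up hub hu1 (a := 353 / 1000) (b := 14 / 10)
    (by norm_num)) hv.le
  have k3 := mul_le_mul_of_nonneg_right (up hub hu1 (a := -(100 : ℝ)) (b := 14 / 10)
    (by norm_num)) hv.le
  have k5 := mul_le_mul_of_nonneg_right (up hub hu1 (a := -(497 / 1000)) (b := -(49 / 100))
    (by norm_num)) hv.le
  have k6 := mul_le_mul_of_nonneg_right (up hub hu1 (a := -(100 : ℝ)) (b := -(49 / 100))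
    (by norm_num)) hv.le
  have p1 : 0 < u ^ (1300001 / 1000000 : ℝ) * v := by positivity
  have p2 : 0 < u ^ (353 / 1000 : ℝ) * v := by positivity
  have p3 : 0 < u ^ (-(100 : ℝ)) * v := by positivity
  have p4 : 0 < u ^ (-(497 / 1000) : ℝ) * v := by positivity
  have h5 := (abs_le.1 hz).2
  constructor <;> linarith

/-- the other windows -/
theorem rc2 (hub : (10 : ℝ) ^ 6 ≤ u ^ (1 / 2000 : ℝ)) (hu1 : 1 ≤ u) (hv : 0 < v)
    (hg1 : u ^ (-(1 / 10 ^ 6) : ℝ) ≤ g) (hg2 : g ≤ u ^ (1 / 10 ^ 6 : ℝ))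
    (_hμ0 : 0 ≤ μ) (hμ : μ ≤ u ^ (-(100 : ℝ))) {z z' Δ Δ' : ℝ} (c : ℝ)
    (hc : 33 / 100 ≤ c) (hc1 : c ≤ 13) (hz0 : 0 < z) (hz1 : u ^ (-(1 : ℝ)) * v ≤ z)
    (_hΔ0 : 0 ≤ Δ) (hΔ : Δ ≤ u ^ (-c) * z)
    (hz : |z' - z * g| ≤ 2 * u ^ (1 / 10 : ℝ) * Δ + μ * v)
    (hd : Δ' ≤ u ^ (-(3 / 4) : ℝ) * Δ + μ * v) :
    u ^ (-(1 / 1000) : ℝ) * z ≤ z' ∧ z' ≤ u ^ (1 / 1000 : ℝ) * z ∧
      Δ' ≤ u ^ (-(c + 7 / 10)) * z' := by
  have hu : 0 < u := by linarith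
  -- the small error
  have h3 : μ * v ≤ u ^ (-(99 : ℝ)) * z := by
    have h6 : v ≤ u * z := by
      have h7 := mul_le_mul_of_nonneg_left hz1 hu.le
      rw [← mul_assoc, Real.rpow_neg hu.le, Real.rpow_one, mul_inv_cancel₀ hu.ne', one_mul] at h7
      exact h7
    calc μ * v ≤ u ^ (-(100 : ℝ)) * (u * z) := mul_le_mul hμ h6 hv.le (Real.rpow_nonneg hu.le _)
      _ = (u ^ (-(100 : ℝ)) * u ^ (1 : ℝ)) * z := by rw [Real.rpow_one]; ring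
      _ = u ^ (-(99 : ℝ)) * z := by
        rw [← Real.rpow_add hu]
        norm_num
  have hcc : u ^ (-c) ≤ u ^ (-(33 / 100) : ℝ) :=
    Real.rpow_le_rpow_of_exponent_le hu1 (by linarith)
  have e1 : u ^ (1 / 10 : ℝ) * u ^ (-(33 / 100) : ℝ) = u ^ (-(23 / 100) : ℝ) := by
    rw [← Real.rpow_add hu]
    norm_num
  have h1 : u ^ (1 / 10 : ℝ) * Δ ≤ u ^ (-(23 / 100) : ℝ) * z := by
    have h6 : Δ ≤ u ^ (-(33 / 100) : ℝ) * z := hΔ.trans (mul_le_mul_of_nonneg_right hcc hz0.le)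
    have := mul_le_mul_of_nonneg_left h6 (Real.rpow_nonneg hu.le (1 / 10 : ℝ))
    rwa [← mul_assoc, e1] at this
  have h4 : z * g ≤ u ^ (1 / 10 ^ 6 : ℝ) * z := by
    rw [mul_comm]
    exact mul_le_mul_of_nonneg_right hg2 hz0.le
  have h4' : u ^ (-(1 / 10 ^ 6) : ℝ) * z ≤ z * g := by
    rw [mul_comm z g]
    exact mul_le_mul_of_nonneg_right hg1 hz0.le
  have h5 := abs_le.1 hz
  have k1 := mul_le_mul_of_nonneg_right (up hub hu1 (a := 1 / 10 ^ 6) (b := 1 / 1000)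
    (by norm_num)) hz0.le
  have k2 := mul_le_mul_of_nonneg_right (up hub hu1 (a := -(23 / 100)) (b := 1 / 1000)
    (by norm_num)) hz0.le
  have k3 := mul_le_mul_of_nonneg_right (up hub hu1 (a := -(99 : ℝ)) (b := 1 / 1000)
    (by norm_num)) hz0.le
  have k4 := mul_le_mul_of_nonneg_right (up hub hu1 (a := -(1 / 1000)) (b := -(1 / 10 ^ 6))
    (by norm_num)) hz0.le
  have k5 := mul_le_mul_of_nonneg_right (up hub hu1 (a := -(23 / 100)) (b := -(1 / 10 ^ 6))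
    (by norm_num)) hz0.le
  have k6 := mul_le_mul_of_nonneg_right (up hub hu1 (a := -(99 : ℝ)) (b := -(1 / 10 ^ 6))
    (by norm_num)) hz0.le
  have p1 : 0 < u ^ (1 / 10 ^ 6 : ℝ) * z := by positivity
  have p2 : 0 < u ^ (-(23 / 100) : ℝ) * z := by positivity
  have p3 : 0 < u ^ (-(99 : ℝ)) * z := by positivity
  have p4 : 0 < u ^ (-(1 / 1000) : ℝ) * z := by positivity
  have q1 : u ^ (-(1 / 1000) : ℝ) * z ≤ z' := by linarith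
  have q2 : z' ≤ u ^ (1 / 1000 : ℝ) * z := by linarith
  refine ⟨q1, q2, ?_⟩
  -- the deviation
  have hz' : z ≤ u ^ (1 / 1000 : ℝ) * z' := by
    have h7 := mul_le_mul_of_nonneg_left q1 (Real.rpow_nonneg hu.le (1 / 1000 : ℝ))
    rw [← mul_assoc, ← Real.rpow_add hu, add_neg_cancel, Real.rpow_zero, one_mul] at h7
    exact h7
  have hz'0 : 0 < z' := lt_of_lt_of_le p4 q1
  have h8 : u ^ (-(3 / 4) : ℝ) * Δ ≤ u ^ (-(3 / 4) - c) * z := by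
    have := mul_le_mul_of_nonneg_left hΔ (Real.rpow_nonneg hu.le (-(3 / 4) : ℝ))
    rwa [← mul_assoc, ← Real.rpow_add hu, ← sub_eq_add_neg] at this
  have h9 : u ^ (-(3 / 4) - c) * z ≤ u ^ (-(3 / 4) - c + 1 / 1000) * z' := by
    have := mul_le_mul_of_nonneg_left hz' (Real.rpow_nonneg hu.le (-(3 / 4) - c))
    rwa [← mul_assoc, ← Real.rpow_add hu] at this
  have h10 : u ^ (-(99 : ℝ)) * z ≤ u ^ (-(99 : ℝ) + 1 / 1000) * z' := by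
    have := mul_le_mul_of_nonneg_left hz' (Real.rpow_nonneg hu.le (-(99 : ℝ)))
    rwa [← mul_assoc, ← Real.rpow_add hu] at this
  have k7 := mul_le_mul_of_nonneg_right (up hub hu1 (a := -(3 / 4) - c + 1 / 1000)
    (b := -(c + 7 / 10)) (by linarith)) hz'0.le
  have k8 := mul_le_mul_of_nonneg_right (up hub hu1 (a := -(99 : ℝ) + 1 / 1000)
    (b := -(c + 7 / 10)) (by linarith)) hz'0.le
  have p5 : 0 < u ^ (-(3 / 4) - c + 1 / 1000) * z' := by positivity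
  have p6 : 0 < u ^ (-(99 : ℝ) + 1 / 1000) * z' := by positivity
  linarith

end Vale.Agent.P159.H197.Rc
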