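import Vale.Agent.P159.H767.Nr12
import Vale.Agent.P159.H462.In3

/-!
P159 / (S) of 462's row 7015 (helper197): the step kernel of the cells outside a window.
-/

set_option linter.unusedSectionVars false

namespace Vale.Agent.P159.H197

open Finset Matrix
open Vale.Agent.P159.TM.Spec (V)
open Vale.Agent.P159.TM.H459 (sn)
open Vale.Agent.P159.H864 (yt)
open Vale.Agent.P159.H767 (Sk Sg Jc s0 Ref)
open Vale.Agent.P159.H801 (Ev PS)
open Vale.Agent.P159.H972 (Par lg tn_pos Good)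

noncomputable section

section gen

variable {N l : ℕ} [NeZero N] [NeZero (N / l)] {b τ κ C1 : ℝ}

lemma sn_of_out {v : V (N / l)} {D : ℕ} (h : v ∉ H462.box (0 : V (N / l)) D) :
    (D : ℝ) ≤ sn v := by
  by_contra h1
  push Not at h1
  apply h
  rw [H462.mem_box, sub_zero]
  have h2 : sn v < D := by exact_mod_cast h1
  rw [H733.Torg.sn_eq] at h2
  have h3 := max_lt_iff.1 h2
  exact ⟨h3.1.le, h3.2.le⟩

lemma Jc_sum_le (hl : l ∣ N) (s : Finset (V (N / l))) : ∑ v ∈ s, Jc N l 0 v ≤ 1 := by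
  have hlp : (0 : ℝ) < l := by exact_mod_cast H864.l_pos hl
  have hNp : (0 : ℝ) < N := by exact_mod_cast NeZero.pos N
  have h1 : ∀ v : V (N / l), 0 ≤ Jc N l 0 v := fun v => by
    unfold Vale.Agent.P159.H767.Jc
    rw [Matrix.of_apply]
    positivity
  refine (Finset.sum_le_sum_of_subset_of_nonneg (Finset.subset_univ s)
    fun v _ _ => h1 v).trans (le_of_eq ?_)
  unfold Vale.Agent.P159.H767.Jc
  simp only [Matrix.of_apply, Finset.sum_const, nsmul_eq_mul]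
  have h2 : ((univ : Finset (V (N / l))).card : ℝ) = ((N / l : ℕ) : ℝ) ^ 2 := by
    rw [Finset.card_univ]
    exact TM.H764.card_V
  rw [h2, Nat.cast_div hl hlp.ne']
  field_simp

/-- the mass of the averaged kernel is positive as soon as its form vanishes at zero -/
lemma s0_pos_of {c : ℝ} (hb : 0 ≤ b) (hl : l ∣ N) (hτ : 0 < τ)
    (hD : H462.Dom (H767.A3 N l b τ) (τ * (l : ℝ) ^ 2) c) : 0 < s0 N b τ := by
  have h0 : 0 ≤ s0 N b τ := by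
    unfold Vale.Agent.P159.H767.s0
    exact mul_nonneg hτ.le (Finset.sum_nonneg fun z _ => H612.GA_nonneg hb hτ 0 z)
  rcases h0.lt_or_eq with h | h
  · exact h
  · exfalso
    have h1 : H767.A3 N l b τ = (τ * (l : ℝ) ^ 2) • (1 : Matrix (V (N / l)) (V (N / l)) ℝ) := by
      unfold Vale.Agent.P159.H767.A3 Vale.Agent.P159.H767.Sg
      rw [← h, div_zero, zero_smul, sub_zero]
    have h2 := hD.zero
    rw [h1, H864.sym_smul, H864.sym_one] at h2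
    have h3 := hD.hν
    linarith

/-- **the step kernel outside a window** -/
theorem sk_out (hb : 0 ≤ b) (hl : l ∣ N) (hτ : 0 < τ) (hs : 0 < s0 N b τ)
    (hs1 : s0 N b τ ≤ 1) (hκ : 0 ≤ κ)
    (hm : ∑ z, Sg N l b τ 0 z * Real.exp (κ * sn z) ≤ C1) (D : ℕ) :
    ∑ v ∈ (H462.box (0 : V (N / l)) D)ᶜ, Sk N l b τ 0 v ≤
      C1 * Real.exp (-(κ * D)) + (1 - s0 N b τ) := by
  have h0 : ∀ v, 0 ≤ Sg N l b τ 0 v := fun v => H767.Sg_nonneg hb hτ hs.le 0 v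
  have h1 : ∑ v ∈ (H462.box (0 : V (N / l)) D)ᶜ, Sg N l b τ 0 v ≤
      C1 * Real.exp (-(κ * D)) := by
    have h2 : ∀ v ∈ (H462.box (0 : V (N / l)) D)ᶜ, Sg N l b τ 0 v ≤
        Sg N l b τ 0 v * Real.exp (κ * sn v) * Real.exp (-(κ * D)) := by
      intro v hv
      rw [Finset.mem_compl] at hv
      rw [mul_assoc, ← Real.exp_add]
      refine le_mul_of_one_le_right (h0 v) (Real.one_le_exp ?_)
      have := mul_le_mul_of_nonneg_left (sn_of_out hv) hκ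
      linarith
    refine (Finset.sum_le_sum h2).trans ?_
    rw [← Finset.sum_mul]
    refine mul_le_mul_of_nonneg_right (le_trans ?_ hm) (Real.exp_pos _).le
    exact Finset.sum_le_sum_of_subset_of_nonneg (Finset.subset_univ _)
      fun v _ _ => mul_nonneg (h0 v) (Real.exp_pos _).le
  have h3 := Jc_sum_le hl (H462.box (0 : V (N / l)) D)ᶜ
  rw [H767.Sk_split hb hl hτ hs]
  simp only [Matrix.add_apply, Matrix.smul_apply, smul_eq_mul]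
  rw [Finset.sum_add_distrib, ← Finset.mul_sum, ← Finset.mul_sum]
  have h4 : 0 ≤ ∑ v ∈ (H462.box (0 : V (N / l)) D)ᶜ, Sg N l b τ 0 v :=
    Finset.sum_nonneg fun v _ => h0 v
  have h5 : s0 N b τ * ∑ v ∈ (H462.box (0 : V (N / l)) D)ᶜ, Sg N l b τ 0 v ≤
      1 * ∑ v ∈ (H462.box (0 : V (N / l)) D)ᶜ, Sg N l b τ 0 v :=
    mul_le_mul_of_nonneg_right hs1 h4
  have h6 : (1 - s0 N b τ) * ∑ v ∈ (H462.box (0 : V (N / l)) D)ᶜ, Jc N l 0 v ≤
      (1 - s0 N b τ) * 1 := mul_le_mul_of_nonneg_left h3 (by linarith)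
  linarith

end gen

/-- **(S) of 7015, order of constants**: any real mass in `[t_n, 4 t_n]`, any window -/
theorem sk_out_ev {b1 : ℝ} (hb1 : 0 < b1) {b2 : ℝ} (hb2 : 0 < b2) :
    ∃ cm Cm : ℝ, 0 < cm ∧ 0 < Cm ∧ ∀ (pf : ℝ) (Q : ℕ), Ev b1 b2 pf Q fun P c1 =>
      0 < c1 ∧ c1 ≤ P.th / 5 ∧
      ∀ (b : ℝ) (n s r : ℕ) (e τ Y : ℝ) [NeZero (2 ^ r / 2 ^ s)],
      0 < b → 0 < e → e ≤ P.es → Good P b n e → P.TT n e r → H972.tn n ≤ τ → τ ≤ 4 * H972.tn n →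
      s ≤ n → ((n - s : ℕ) : ℝ) ≤ e ^ (-(2 * c1)) →
      yt (2 ^ r) b (4 * H972.tn n) ≤ Y → 16 * Y ^ 2 ≤ e → ∀ D : ℕ,
      ∑ v ∈ (H462.box (0 : V (2 ^ r / 2 ^ s)) D)ᶜ, Sk (2 ^ r) (2 ^ s) b τ 0 v ≤
        Cm * Real.exp (-(cm * (2 ^ s / 2 ^ n) * D)) + 64 * (2 ^ r / 2 ^ n : ℝ) ^ 2 * Y ^ 2 := by
  obtain ⟨cm, Cm, hcm, hCm, H⟩ := H767.ref_ev hb1 hb2
  refine ⟨cm, Cm, hcm, hCm, fun pf Q => ?_⟩
  refine ((H (1 / 2) (by norm_num) (by norm_num) pf Q)).mono fun P c1 hA h => ?_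
  obtain ⟨h1, h2, h3, h4⟩ := h
  refine ⟨h1, h2, ?_⟩
  intro b n s r e τ Y hnz hb he hes hG hT hτ1 hτ2 hsn hns hY hYe D
  obtain ⟨R, -⟩ := h4 b n s r r e τ Y he hes hG hT hT hτ1 hτ2 hsn hns hY hY hYe dvd_rfl dvd_rfl
  have htn := tn_pos n
  have hτ : 0 < τ := htn.trans_le hτ1
  have hsr : s ≤ r := by
    have := hT.1
    omega
  have hl : 2 ^ s ∣ 2 ^ r := pow_dvd_pow 2 hsr
  have hyt : yt (2 ^ r) b τ ≤ 4 * Y := by
    have h5 := H767.yt_mass4 (N := 2 ^ r) hb hτ hτ2 (by linarith)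
    linarith
  have hy0 : 0 ≤ yt (2 ^ r) b τ := H864.yt_nonneg hb.le hτ
  have hlow := H767.s0_low (N := 2 ^ r) hb.le hτ
  have hs1 := H767.s0_le_one (N := 2 ^ r) hb.le hτ
  have hN : τ * (((2 ^ r : ℕ) : ℝ)) ^ 2 ≤ 4 * (2 ^ r / 2 ^ n : ℝ) ^ 2 := by
    have h6 : H972.tn n * (((2 ^ r : ℕ) : ℝ)) ^ 2 = (2 ^ r / 2 ^ n : ℝ) ^ 2 := by
      unfold H972.tn
      push_cast
      rw [div_pow, ← pow_mul 2 n 2, mul_comm n 2, pow_mul 2 2 n]
      norm_num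
      field_simp
    calc τ * (((2 ^ r : ℕ) : ℝ)) ^ 2 ≤ 4 * H972.tn n * (((2 ^ r : ℕ) : ℝ)) ^ 2 :=
          mul_le_mul_of_nonneg_right hτ2 (by positivity)
      _ = 4 * (H972.tn n * (((2 ^ r : ℕ) : ℝ)) ^ 2) := by ring
      _ = _ := by rw [h6]
  have hq : τ * (((2 ^ r : ℕ) : ℝ)) ^ 2 * yt (2 ^ r) b τ ^ 2 ≤
      64 * (2 ^ r / 2 ^ n : ℝ) ^ 2 * Y ^ 2 := by
    calc τ * (((2 ^ r : ℕ) : ℝ)) ^ 2 * yt (2 ^ r) b τ ^ 2
        ≤ 4 * (2 ^ r / 2 ^ n : ℝ) ^ 2 * (4 * Y) ^ 2 :=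
          mul_le_mul hN (pow_le_pow_left₀ hy0 hyt 2) (sq_nonneg _) (by positivity)
      _ = _ := by ring
  have hpos := s0_pos_of (N := 2 ^ r) (l := 2 ^ s) hb.le hl hτ R.two.dom2
  have hst := H767.step_A3 (b := b) (τ := τ) hl hτ
  have hmom : ∑ z, Sg (2 ^ r) (2 ^ s) b τ 0 z * Real.exp (cm * (2 ^ s / 2 ^ n) * sn z) ≤ Cm := by
    rw [← hst]
    exact R.two.mom
  have := sk_out hb.le hl hτ hpos hs1 (by positivity) hmom D
  linarith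

end

end Vale.Agent.P159.H197
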