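import Vale.Agent.P159.H197.Sb1
import Vale.Agent.P159.H358.Up1
import Vale.Agent.P159.H889.Vloc

/-!
P159 / (O2) of 462's row 7502 (helper197): the form of the cells outside a window, in mean square
under the typical law. The constant part is exact.
-/

set_option linter.unusedSectionVars false

namespace Vale.Agent.P159.H197

open Finset Matrix MeasureTheory
open Vale.Agent.P159.H37 (gau qf)
open Vale.Agent.P159.TM.Spec (V)
open Vale.Agent.P159.H864 (yt TI sym)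
open Vale.Agent.P159.H767 (Sk Sg Jc s0 Ref)
open Vale.Agent.P159.H462 (Dom)
open Vale.Agent.P159.H363 (acl pin Cz row_Cz qf_pin_le n2 n2_add_le n2_sub_le n2_sum_le n2_const_mul
  n2_le n2_sq n2_nonneg memLp_lin n2_lin vecMul_sq)
open Vale.Agent.P159.H358 (cutm av card_box_pos vm_sq_le)
open Vale.Agent.P159.H889 (tl tl_eq)

noncomputable section

section vec

variable {K : ℕ} [NeZero K]

/-- weights of the mean over a box -/
def bw (D : ℕ) (x : V K) : V K → ℝ := fun w =>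
  if w ∈ H462.box x D then ((H462.box x D).card : ℝ)⁻¹ else 0

lemma bw_dot (D : ℕ) (x : V K) (F : V K → ℝ) : bw D x ⬝ᵥ F = av D x F := by
  unfold bw av dotProduct
  simp only [ite_mul, zero_mul]
  rw [Finset.sum_ite_mem, Finset.univ_inter, Finset.mul_sum]

lemma bw_nonneg (D : ℕ) (x w : V K) : 0 ≤ bw D x w := by
  unfold bw
  split_ifs
  · positivity
  · exact le_rfl

lemma bw_sum (D : ℕ) (x : V K) : ∑ w, bw D x w = 1 := by
  have hc := card_box_pos D x
  unfold bw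
  rw [Finset.sum_ite_mem, Finset.univ_inter, Finset.sum_const, nsmul_eq_mul]
  exact mul_inv_cancel₀ hc.ne'

lemma bw_abs (D : ℕ) (x : V K) : ∑ w, |bw D x w| = 1 := by
  rw [← bw_sum D x]
  exact Finset.sum_congr rfl fun w _ => abs_of_nonneg (bw_nonneg D x w)

lemma bw_sq {D : ℕ} (hD : 2 * D < K) (x : V K) :
    ∑ w, bw D x w ^ 2 = ((2 * (D : ℝ) + 1) ^ 2)⁻¹ := by
  have hc := card_box_pos D x
  have h3 : ((H462.box x D).card : ℝ) = (2 * (D : ℝ) + 1) ^ 2 := by
    rw [H358.card_box_eq hD, H733.Vt.card_zb]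
  unfold bw
  simp only [ite_pow]
  rw [← h3]
  simp only [ne_eq, OfNat.ofNat_ne_zero, not_false_eq_true, zero_pow]
  rw [Finset.sum_ite_mem, Finset.univ_inter, Finset.sum_const, nsmul_eq_mul, pow_two, ← mul_assoc,
    mul_inv_cancel₀ hc.ne', one_mul]

/-- the mean over a window under the typical law -/
lemma var_av {A : Matrix (V K) (V K) ℝ} {ν c : ℝ} (h : Dom A ν c) {D : ℕ} (hD : 2 * D < K)
    (x : V K) :
    ∑ i, (bw D x ᵥ* pin A) i ^ 2 ≤
      1 / (ν * (2 * (D : ℝ) + 1) ^ 2) + 50 * c⁻¹ * (1 + Real.log (1 + (K : ℝ) ^ 2)) := by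
  have hν := h.hν
  have hc := h.hc
  have h1 := qf_pin_le h (bw D x)
  rw [H37.qf_eq, ← vecMul_sq, bw_sq hD] at h1
  have h2 := vm_sq_le (Cz K) (fun v => row_Cz v) (bw D x)
  rw [bw_abs] at h2
  have h3 := mul_le_mul_of_nonneg_left h2 (inv_pos.2 hc).le
  refine h1.trans ?_
  have e1 : 1 / (ν * (2 * (D : ℝ) + 1) ^ 2) = ν⁻¹ * ((2 * (D : ℝ) + 1) ^ 2)⁻¹ := by
    rw [one_div, mul_inv]
  rw [e1]
  refine (add_le_add le_rfl h3).trans (le_of_eq ?_)
  ring

/-- the typical field has mean zero -/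
lemma sum_pin {A : Matrix (V K) (V K) ℝ} {ν c : ℝ} (h : Dom A ν c) (g : V K → ℝ) :
    ∑ v, (pin A *ᵥ g) v = 0 := by
  have tp : TI (pin A) := H363.ti_pin A
  have e1 : ∑ v, (pin A *ᵥ g) v = ∑ y, (∑ v, pin A v y) * g y := by
    simp only [Matrix.mulVec, dotProduct]
    rw [Finset.sum_comm]
    exact Finset.sum_congr rfl fun y _ => by rw [Finset.sum_mul]
  rw [e1]
  refine Finset.sum_eq_zero fun y _ => ?_
  have e2 : ∑ v, pin A v y = ∑ v, pin A y v := by
    refine Finset.sum_congr rfl fun v _ => ?_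
    have := congrFun (congrFun tp.transpose y) v
    rw [Matrix.transpose_apply] at this
    exact this
  rw [e2, H340.row_sum tp, H363.sym_pin A, h.zero]
  simp

end vec

section main

variable {N l : ℕ} [NeZero N] [NeZero (N / l)] {b T : ℝ}

/-- the split of the step kernel, no condition on the mass -/
lemma Sk_split' (hb : 0 ≤ b) (hl : l ∣ N) (hT : 0 < T) :
    Sk N l b T = s0 N b T • Sg N l b T + (1 - s0 N b T) • Jc N l := by
  have h0 : 0 ≤ s0 N b T := by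
    unfold Vale.Agent.P159.H767.s0
    exact mul_nonneg hT.le (Finset.sum_nonneg fun z _ => H612.GA_nonneg hb hT 0 z)
  rcases h0.lt_or_eq with h | h
  · exact H767.Sk_split hb hl hT h
  · have hlp : (0 : ℝ) < l := by exact_mod_cast H864.l_pos hl
    have h1 : ∑ z, H612.GA N b T 0 z = 0 := by
      unfold Vale.Agent.P159.H767.s0 at h
      rcases mul_eq_zero.1 h.symm with h2 | h2
      · exact absurd h2 hT.ne'
      · exact h2
    have h2 : ∀ x z, H612.GA N b T x z = 0 := by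
      intro x z
      have h3 : ∑ z, H612.GA N b T x z = 0 := by
        rw [H340.row_sum (H612.ti_GA hb hT), ← h1, H340.row_sum (H612.ti_GA hb hT)]
      exact (Finset.sum_eq_zero_iff_of_nonneg fun z _ => H612.GA_nonneg hb hT x z).1 h3 z
        (Finset.mem_univ z)
    have h3 : H612.GA N b T = 0 := by
      ext x z
      exact h2 x z
    rw [H767.Sk_Gc hl hT, H612.Sn_eq hb hT, h3, ← h]
    simp only [Matrix.zero_apply, Finset.sum_const_zero, mul_zero, sub_zero, smul_zero, zero_add,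
      zero_smul, one_smul]
    ext x y
    rw [H864.Gc_apply]
    unfold H612.Jm Vale.Agent.P159.H767.Jc
    simp only [Matrix.of_apply, Finset.sum_const, nsmul_eq_mul, H640.card_cl hl]
    field_simp

/-- the difference of the form at a field and at the cut field -/
lemma cut_form (hb : 0 ≤ b) (hl : l ∣ N) (hT : 0 < T) (D : ℕ) (x : V (N / l))
    (F : V (N / l) → ℝ) (hF : ∑ v, F v = 0) :
    (acl N l b T T *ᵥ cutm D x F) x - (acl N l b T T *ᵥ F) x =
      T * (l : ℝ) ^ 2 * (s0 N b T * ∑ v ∈ (H462.box x D)ᶜ, Sg N l b T x v * (F v - av D x F)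
        - (1 - s0 N b T) * av D x F) := by
  have hlp : (0 : ℝ) < l := by exact_mod_cast H864.l_pos hl
  have hNp : (0 : ℝ) < N := by exact_mod_cast NeZero.pos N
  have hν : 0 < T * (l : ℝ) ^ 2 := by positivity
  have eA : acl N l b T T = (T * (l : ℝ) ^ 2) • (1 - Sk N l b T) := by
    unfold Vale.Agent.P159.H767.Sk
    rw [sub_sub_cancel, smul_smul, mul_inv_cancel₀ hν.ne', one_smul]
  set H : V (N / l) → ℝ := fun v => F v - cutm D x F v with hH
  have e1 : (acl N l b T T *ᵥ cutm D x F) x - (acl N l b T T *ᵥ F) x =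
      -(acl N l b T T *ᵥ H) x := by
    simp only [Matrix.mulVec, dotProduct, hH, mul_sub, Finset.sum_sub_distrib]
    ring
  have hx : x ∈ H462.box x D := H889.self_mem_box x D
  have hHx : H x = 0 := by
    simp only [hH, cutm, if_pos hx, sub_self]
  have e2 : (acl N l b T T *ᵥ H) x = T * (l : ℝ) ^ 2 * (H x - (Sk N l b T *ᵥ H) x) := by
    rw [eA, Matrix.smul_mulVec, Pi.smul_apply, smul_eq_mul, Matrix.sub_mulVec, Pi.sub_apply,
      Matrix.one_mulVec]
  have hHo : ∀ v, v ∉ H462.box x D → H v = F v - av D x F := by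
    intro v hv
    simp only [hH, cutm, if_neg hv]
  have hHi : ∀ v ∈ H462.box x D, H v = 0 := by
    intro v hv
    simp only [hH, cutm, if_pos hv, sub_self]
  have e3 : ∑ v, H v = -(((N / l : ℕ) : ℝ) ^ 2 * av D x F) := by
    have h1 : ∑ v, cutm D x F v = ∑ _v : V (N / l), av D x F := by
      rw [← sub_eq_zero, ← Finset.sum_sub_distrib,
        ← Finset.sum_add_sum_compl (H462.box x D)]
      have h2 : ∑ v ∈ (H462.box x D)ᶜ, (cutm D x F v - av D x F) = 0 := by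
        refine Finset.sum_eq_zero fun v hv => ?_
        rw [Finset.mem_compl] at hv
        simp only [cutm, if_neg hv, sub_self]
      have h3 : ∑ v ∈ H462.box x D, (cutm D x F v - av D x F) =
          ∑ v ∈ H462.box x D, (F v - av D x F) := by
        refine Finset.sum_congr rfl fun v hv => ?_
        simp only [cutm, if_pos hv]
      rw [h2, h3, H358.sum_sub_av, add_zero]
    have h4 : ((univ : Finset (V (N / l))).card : ℝ) = ((N / l : ℕ) : ℝ) ^ 2 := by
      rw [Finset.card_univ]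
      exact TM.H764.card_V
    simp only [hH]
    rw [Finset.sum_sub_distrib, hF, h1, Finset.sum_const, nsmul_eq_mul, h4]
    ring
  have e4 : (Jc N l *ᵥ H) x = -av D x F := by
    have h1 : (Jc N l *ᵥ H) x = (l : ℝ) ^ 2 / (N : ℝ) ^ 2 * ∑ v, H v := by
      unfold Vale.Agent.P159.H767.Jc
      simp only [Matrix.mulVec, dotProduct, Matrix.of_apply]
      rw [← Finset.mul_sum]
    rw [h1, e3, Nat.cast_div hl hlp.ne']
    field_simp
  have e5 : (Sg N l b T *ᵥ H) x = ∑ v ∈ (H462.box x D)ᶜ, Sg N l b T x v * (F v - av D x F) := by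
    simp only [Matrix.mulVec, dotProduct]
    have h1 : ∑ v ∈ H462.box x D, Sg N l b T x v * H v = 0 :=
      Finset.sum_eq_zero fun v hv => by rw [hHi v hv, mul_zero]
    rw [← Finset.sum_add_sum_compl (H462.box x D) (fun v => Sg N l b T x v * H v), h1, zero_add]
    refine Finset.sum_congr rfl fun v hv => ?_
    rw [Finset.mem_compl] at hv
    rw [hHo v hv]
  have e6 : (Sk N l b T *ᵥ H) x = s0 N b T * (Sg N l b T *ᵥ H) x +
      (1 - s0 N b T) * (Jc N l *ᵥ H) x := by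
    rw [Sk_split' hb hl hT, Matrix.add_mulVec, Pi.add_apply, Matrix.smul_mulVec,
      Matrix.smul_mulVec, Pi.smul_apply, Pi.smul_apply, smul_eq_mul, smul_eq_mul]
  rw [e1, e2, hHx, e6, e5, e4]
  ring

/-- the size of the form outside the window -/
def epsA (N l : ℕ) [NeZero N] [NeZero (N / l)] (b T c : ℝ) (D : ℕ) : ℝ :=
  (1 - s0 N b T) * √(1 / (T * (l : ℝ) ^ 2 * (2 * (D : ℝ) + 1) ^ 2) +
      50 * c⁻¹ * (1 + Real.log (1 + ((N / l : ℕ) : ℝ) ^ 2))) +
    2 * (∑ v ∈ (H462.box (0 : V (N / l)) D)ᶜ, Sg N l b T 0 v) * H889.sg (acl N l b T T)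

/-- **(O2) of 7502** -/
theorem out_form (hb : 0 ≤ b) (hl : l ∣ N) (hT : 0 < T) {c : ℝ}
    (hA : Dom (acl N l b T T) (T * (l : ℝ) ^ 2) c) {D : ℕ} (hD : 2 * D < N / l)
    (x : V (N / l)) :
    ∫ g, ((acl N l b T T *ᵥ cutm D x (pin (acl N l b T T) *ᵥ g)) x -
      (acl N l b T T *ᵥ (pin (acl N l b T T) *ᵥ g)) x) ^ 2 ∂(gau (V (N / l))) ≤
        (T * (l : ℝ) ^ 2 * epsA N l b T c D) ^ 2 := by
  have hlp : (0 : ℝ) < l := by exact_mod_cast H864.l_pos hl
  have hν : 0 < T * (l : ℝ) ^ 2 := by positivity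
  set A := acl N l b T T with hAdef
  set B := pin A with hB
  set μ := gau (V (N / l)) with hμ
  have hs0 : 0 ≤ s0 N b T := by
    unfold Vale.Agent.P159.H767.s0
    exact mul_nonneg hT.le (Finset.sum_nonneg fun z _ => H612.GA_nonneg hb hT 0 z)
  have hs1 := H767.s0_le_one (N := N) hb hT
  have hSg : ∀ u v, 0 ≤ Sg N l b T u v := fun u v => H767.Sg_nonneg hb hT hs0 u v
  -- the mean
  have eav : ∀ g, av D x (B *ᵥ g) = (bw D x ᵥ* B) ⬝ᵥ g := by
    intro g
    rw [← bw_dot, dotProduct_mulVec]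
  have esv : ∀ v g, (B *ᵥ g) v = B v ⬝ᵥ g := fun v g => rfl
  have m0 : MemLp (fun g : V (N / l) → ℝ => ((av D x (B *ᵥ g) : ℝ) : ℂ)) 2 μ := by
    simp only [eav]
    exact memLp_lin _
  have n0 : n2 μ (fun g : V (N / l) → ℝ => ((av D x (B *ᵥ g) : ℝ) : ℂ)) ≤
      √(1 / (T * (l : ℝ) ^ 2 * (2 * (D : ℝ) + 1) ^ 2) +
      50 * c⁻¹ * (1 + Real.log (1 + ((N / l : ℕ) : ℝ) ^ 2))) := by
    simp only [eav]
    rw [hμ, n2_lin]
    exact Real.sqrt_le_sqrt (var_av hA hD x)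
  have mv : ∀ v, MemLp (fun g : V (N / l) → ℝ => (((B *ᵥ g) v : ℝ) : ℂ)) 2 μ := by
    intro v
    simp only [esv]
    exact memLp_lin _
  have nv : ∀ v, n2 μ (fun g : V (N / l) → ℝ => (((B *ᵥ g) v : ℝ) : ℂ)) ≤ H889.sg A := by
    intro v
    simp only [esv]
    rw [hμ, n2_lin]
    refine (Real.sqrt_le_sqrt (H889.sg_row A v)).trans (le_of_eq ?_)
    exact Real.sqrt_sq (H889.sg_nonneg A)
  have na : n2 μ (fun g : V (N / l) → ℝ => ((av D x (B *ᵥ g) : ℝ) : ℂ)) ≤ H889.sg A := by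
    have h1 := H363.n2_comb_le (μ := μ) (H462.box x D)
      (u := fun v (g : V (N / l) → ℝ) => (((B *ᵥ g) v : ℝ) : ℂ)) (fun v _ => mv v)
      (fun _ => (((H462.box x D).card : ℝ)⁻¹ : ℝ)) (fun v _ => nv v)
    have hc := card_box_pos D x
    have e1 : ∑ _i ∈ H462.box x D, ‖((((H462.box x D).card : ℝ)⁻¹ : ℝ) : ℂ)‖ = 1 := by
      rw [Finset.sum_const, nsmul_eq_mul, Complex.norm_real, Real.norm_eq_abs,
        abs_of_pos (inv_pos.2 hc)]
      exact mul_inv_cancel₀ hc.ne'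
    rw [e1, one_mul] at h1
    refine le_trans (le_of_eq ?_) h1
    refine H363.n2_congr fun g => ?_
    unfold av
    push_cast
    rw [Finset.mul_sum]
  have md : ∀ v, MemLp (fun g : V (N / l) → ℝ =>
      (((B *ᵥ g) v : ℝ) : ℂ) - ((av D x (B *ᵥ g) : ℝ) : ℂ)) 2 μ := fun v => (mv v).sub m0
  have nd : ∀ v, n2 μ (fun g : V (N / l) → ℝ =>
      (((B *ᵥ g) v : ℝ) : ℂ) - ((av D x (B *ᵥ g) : ℝ) : ℂ)) ≤ 2 * H889.sg A := by
    intro v
    refine (n2_sub_le (mv v) m0).trans ?_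
    have := nv v
    linarith
  -- the sum outside the window
  have hsum := H363.n2_comb_le (μ := μ) (H462.box x D)ᶜ (u := fun v (g : V (N / l) → ℝ) =>
      (((B *ᵥ g) v : ℝ) : ℂ) - ((av D x (B *ᵥ g) : ℝ) : ℂ)) (fun v _ => md v)
      (fun v => ((Sg N l b T x v : ℝ) : ℂ)) (fun v _ => nd v)
  have msum := H363.memLp_sum (μ := μ) (H462.box x D)ᶜ (u := fun v (g : V (N / l) → ℝ) =>
      ((Sg N l b T x v : ℝ) : ℂ) * ((((B *ᵥ g) v : ℝ) : ℂ) - ((av D x (B *ᵥ g) : ℝ) : ℂ)))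
      (fun v _ => (md v).const_mul _)
  have e2 : ∑ v ∈ (H462.box x D)ᶜ, ‖((Sg N l b T x v : ℝ) : ℂ)‖ =
      ∑ v ∈ (H462.box (0 : V (N / l)) D)ᶜ, Sg N l b T 0 v := by
    have h1 := tl_eq (H767.ti_Sg hb hl hT) x D
    unfold tl at h1
    have h2 : ∀ v, ‖((Sg N l b T x v : ℝ) : ℂ)‖ = |Sg N l b T x v| := fun v => by
      rw [Complex.norm_real, Real.norm_eq_abs]
    simp only [h2]
    rw [h1]
    exact Finset.sum_congr rfl fun v _ => abs_of_nonneg (hSg 0 v)
  rw [e2] at hsum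
  set S := ∑ v ∈ (H462.box (0 : V (N / l)) D)ᶜ, Sg N l b T 0 v with hS
  have hS0 : 0 ≤ S := Finset.sum_nonneg fun v _ => hSg 0 v
  set q := √(1 / (T * (l : ℝ) ^ 2 * (2 * (D : ℝ) + 1) ^ 2) +
      50 * c⁻¹ * (1 + Real.log (1 + ((N / l : ℕ) : ℝ) ^ 2))) with hq
  -- the total
  have ms1 := msum.const_mul (((T * (l : ℝ) ^ 2 * s0 N b T : ℝ)) : ℂ)
  have ms2 := m0.const_mul (((T * (l : ℝ) ^ 2 * (1 - s0 N b T) : ℝ)) : ℂ)
  have hn := n2_sub_le ms1 ms2
  rw [n2_const_mul, n2_const_mul, Complex.norm_real, Complex.norm_real, Real.norm_eq_abs,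
    Real.norm_eq_abs, abs_of_nonneg (by positivity : (0 : ℝ) ≤ T * (l : ℝ) ^ 2 * s0 N b T),
    abs_of_nonneg (mul_nonneg hν.le (by linarith : (0 : ℝ) ≤ 1 - s0 N b T))] at hn
  have hq0 : 0 ≤ q := Real.sqrt_nonneg _
  have hsg := H889.sg_nonneg A
  have hfin : n2 μ (fun g : V (N / l) → ℝ => (((T * (l : ℝ) ^ 2 * s0 N b T : ℝ)) : ℂ) *
      (∑ v ∈ (H462.box x D)ᶜ, ((Sg N l b T x v : ℝ) : ℂ) *
        ((((B *ᵥ g) v : ℝ) : ℂ) - ((av D x (B *ᵥ g) : ℝ) : ℂ))) -
      (((T * (l : ℝ) ^ 2 * (1 - s0 N b T) : ℝ)) : ℂ) * ((av D x (B *ᵥ g) : ℝ) : ℂ)) ≤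
      T * (l : ℝ) ^ 2 * epsA N l b T c D := by
    refine hn.trans ?_
    unfold epsA
    rw [← hS, ← hq]
    have k1 := mul_le_mul_of_nonneg_left hsum
      (by positivity : (0 : ℝ) ≤ T * (l : ℝ) ^ 2 * s0 N b T)
    have k2 := mul_le_mul_of_nonneg_left n0
      (mul_nonneg hν.le (by linarith : (0 : ℝ) ≤ 1 - s0 N b T))
    have k3 : T * (l : ℝ) ^ 2 * s0 N b T * (S * (2 * H889.sg A)) ≤
        T * (l : ℝ) ^ 2 * (S * (2 * H889.sg A)) := by
      have : 0 ≤ T * (l : ℝ) ^ 2 * (S * (2 * H889.sg A)) := by positivity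
      calc T * (l : ℝ) ^ 2 * s0 N b T * (S * (2 * H889.sg A)) =
          T * (l : ℝ) ^ 2 * (S * (2 * H889.sg A)) * s0 N b T := by ring
        _ ≤ T * (l : ℝ) ^ 2 * (S * (2 * H889.sg A)) * 1 := mul_le_mul_of_nonneg_left hs1 this
        _ = _ := mul_one _
    calc _ ≤ T * (l : ℝ) ^ 2 * (S * (2 * H889.sg A)) + T * (l : ℝ) ^ 2 * (1 - s0 N b T) * q :=
          add_le_add (k1.trans k3) k2
      _ = _ := by ring
  have hsg2 : 0 ≤ T * (l : ℝ) ^ 2 * epsA N l b T c D := (n2_nonneg _).trans hfin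
  have hres := (n2_le (ms1.sub ms2) hsg2).1 hfin
  refine le_trans (le_of_eq ?_) hres
  refine integral_congr_ae (Filter.Eventually.of_forall fun g => ?_)
  simp only [Pi.sub_apply]
  rw [hAdef, cut_form hb hl hT D x (B *ᵥ g) (sum_pin hA g)]
  rw [← sq_abs, ← Real.norm_eq_abs, ← Complex.norm_real]
  congr 2
  push_cast
  ring

end main

end

end Vale.Agent.P159.H197
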