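import Vale.Agent.P159.H197.Sb2

/-!
P159 / (O2) of 462's row 7502 (helper197): numbers of the form outside a window.
-/

set_option linter.unusedSectionVars false

namespace Vale.Agent.P159.H197

open Finset Matrix MeasureTheory
open Vale.Agent.P159.H37 (gau qf)
open Vale.Agent.P159.TM.Spec (V)
open Vale.Agent.P159.TM.H459 (sn)
open Vale.Agent.P159.H864 (yt TI sym)
open Vale.Agent.P159.H767 (Sk Sg Jc s0 Ref)
open Vale.Agent.P159.H801 (Ev PS)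
open Vale.Agent.P159.H972 (Par lg tn_pos Good)
open Vale.Agent.P159.H462 (Dom)
open Vale.Agent.P159.H363 (acl pin Cz row_Cz qf_pin_le vecMul_sq)
open Vale.Agent.P159.H358 (cutm av vm_sq_le)

noncomputable section

section gen

variable {K : ℕ} [NeZero K]

/-- the variance of one cell -/
lemma sg_le {A : Matrix (V K) (V K) ℝ} {ν c : ℝ} (h : Dom A ν c) :
    H889.sg A ≤ √(ν⁻¹ + 50 * c⁻¹ * (1 + Real.log (1 + (K : ℝ) ^ 2))) := by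
  have hc := h.hc
  unfold H889.sg
  refine Real.sqrt_le_sqrt ?_
  have e1 : ∀ i, (Pi.single (0 : V K) (1 : ℝ) ᵥ* pin A) i = pin A 0 i := by
    intro i
    rw [Matrix.single_one_vecMul]
    rfl
  have h1 := qf_pin_le h (Pi.single (0 : V K) (1 : ℝ))
  rw [H37.qf_eq, ← vecMul_sq] at h1
  simp only [e1] at h1
  have h2 : ∑ v, (Pi.single (0 : V K) (1 : ℝ) : V K → ℝ) v ^ 2 = 1 := by
    simp [Pi.single_apply]
  have e2 : ∀ i, (Pi.single (0 : V K) (1 : ℝ) ᵥ* Cz K) i = Cz K 0 i := by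
    intro i
    rw [Matrix.single_one_vecMul]
    rfl
  simp only [e2] at h1
  rw [h2] at h1
  have h3 := mul_le_mul_of_nonneg_left (row_Cz (N := K) 0) (inv_pos.2 hc).le
  linarith

variable {N l : ℕ} [NeZero N] [NeZero (N / l)] {b τ κ C1 : ℝ}

/-- tail of the averaged kernel -/
lemma sg_tail (hb : 0 ≤ b) (hτ : 0 < τ) (hs : 0 ≤ s0 N b τ) (hκ : 0 ≤ κ)
    (hm : ∑ z, Sg N l b τ 0 z * Real.exp (κ * sn z) ≤ C1) (D : ℕ) :
    ∑ v ∈ (H462.box (0 : V (N / l)) D)ᶜ, Sg N l b τ 0 v ≤ C1 * Real.exp (-(κ * D)) := by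
  have h0 : ∀ v, 0 ≤ Sg N l b τ 0 v := fun v => H767.Sg_nonneg hb hτ hs 0 v
  have h2 : ∀ v ∈ (H462.box (0 : V (N / l)) D)ᶜ, Sg N l b τ 0 v ≤
      Sg N l b τ 0 v * Real.exp (κ * sn v) * Real.exp (-(κ * D)) := by
    intro v hv
    rw [Finset.mem_compl] at hv
    rw [mul_assoc, ← Real.exp_add]
    refine le_mul_of_one_le_right (h0 v) (Real.one_le_exp ?_)
    have := mul_le_mul_of_nonneg_left (sn_of_out hv) hκ
    linarith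
  refine (Finset.sum_le_sum h2).trans ?_
  rw [← Finset.sum_mul]
  refine mul_le_mul_of_nonneg_right (le_trans ?_ hm) (Real.exp_pos _).le
  exact Finset.sum_le_sum_of_subset_of_nonneg (Finset.subset_univ _)
    fun v _ _ => mul_nonneg (h0 v) (Real.exp_pos _).le

/-- the size of the form outside a window, general numbers -/
lemma epsA_le {c d L L' : ℝ} {D : ℕ} (hb : 0 ≤ b) (hτ : 0 < τ)
    (hA : Dom (acl N l b τ τ) (τ * (l : ℝ) ^ 2) c)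
    (hm : ∑ z, Sg N l b τ 0 z * Real.exp (κ * sn z) ≤ C1) (hκ : 0 ≤ κ)
    (hd : 1 - s0 N b τ ≤ d)
    (h1 : 1 / (τ * (l : ℝ) ^ 2 * (2 * (D : ℝ) + 1) ^ 2) +
      50 * c⁻¹ * (1 + Real.log (1 + ((N / l : ℕ) : ℝ) ^ 2)) ≤ L)
    (h2 : (τ * (l : ℝ) ^ 2)⁻¹ + 50 * c⁻¹ * (1 + Real.log (1 + ((N / l : ℕ) : ℝ) ^ 2)) ≤ L') :
    epsA N l b τ c D ≤ d * √L + 2 * (C1 * Real.exp (-(κ * D))) * √L' := by
  have hs0 : 0 ≤ s0 N b τ := by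
    unfold Vale.Agent.P159.H767.s0
    exact mul_nonneg hτ.le (Finset.sum_nonneg fun z _ => H612.GA_nonneg hb hτ 0 z)
  have hs1 := H767.s0_le_one (N := N) hb hτ
  have h3 := sg_tail (l := l) hb hτ hs0 hκ hm D
  have h4 : 0 ≤ ∑ v ∈ (H462.box (0 : V (N / l)) D)ᶜ, Sg N l b τ 0 v :=
    Finset.sum_nonneg fun v _ => H767.Sg_nonneg hb hτ hs0 0 v
  have h5 := (sg_le hA).trans (Real.sqrt_le_sqrt h2)
  unfold epsA
  refine add_le_add ?_ ?_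
  · exact mul_le_mul hd (Real.sqrt_le_sqrt h1) (Real.sqrt_nonneg _) (by linarith)
  · refine mul_le_mul (by linarith) h5 (H889.sg_nonneg _) (by linarith)

end gen

/-- `1 + log (1 + 4 ^ k)` -/
lemma log_four_pow (k : ℕ) : 1 + Real.log (1 + ((2 : ℝ) ^ k) ^ 2) ≤ 2 * (1 + k) := by
  have h1 : (1 : ℝ) ≤ ((2 : ℝ) ^ k) ^ 2 := one_le_pow₀ (one_le_pow₀ (by norm_num))
  have h2 : Real.log (1 + ((2 : ℝ) ^ k) ^ 2) ≤ Real.log (2 * ((2 : ℝ) ^ k) ^ 2) :=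
    Real.log_le_log (by positivity) (by linarith)
  have h3 : Real.log (2 * ((2 : ℝ) ^ k) ^ 2) = (1 + 2 * k) * Real.log 2 := by
    rw [Real.log_mul (by norm_num) (by positivity), Real.log_pow, Real.log_pow]
    push_cast
    ring
  have h4 : Real.log 2 ≤ 0.7 := by
    have := Real.log_two_lt_d9
    linarith
  have h5 : (1 + 2 * (k : ℝ)) * Real.log 2 ≤ (1 + 2 * k) * 0.7 :=
    mul_le_mul_of_nonneg_left h4 (by positivity)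
  have hk : (0 : ℝ) ≤ k := Nat.cast_nonneg k
  linarith

/-- **(O2), order of constants**: the size of the form outside a window -/
theorem epsA_ev {b1 : ℝ} (hb1 : 0 < b1) {b2 : ℝ} (hb2 : 0 < b2) :
    ∃ cm Cm : ℝ, 0 < cm ∧ 0 < Cm ∧ ∀ (pf : ℝ) (Q : ℕ), Ev b1 b2 pf Q fun P c1 =>
      0 < c1 ∧ c1 ≤ P.th / 5 ∧
      ∀ (b : ℝ) (n s r : ℕ) (e τ Y : ℝ) [NeZero (2 ^ r / 2 ^ s)],
      0 < b → 0 < e → e ≤ P.es → Good P b n e → P.TT n e r → H972.tn n ≤ τ → τ ≤ 4 * H972.tn n →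
      s ≤ n → ((n - s : ℕ) : ℝ) ≤ e ^ (-(2 * c1)) →
      yt (2 ^ r) b (4 * H972.tn n) ≤ Y → 16 * Y ^ 2 ≤ e →
      Dom (acl (2 ^ r) (2 ^ s) b τ τ) (τ * ((2 ^ s : ℕ) : ℝ) ^ 2) (1 / (2 * b2)) ∧
      ∀ D : ℕ, 2 ^ n ≤ 2 ^ s * D →
      epsA (2 ^ r) (2 ^ s) b τ (1 / (2 * b2)) D ≤
        64 * (2 ^ r / 2 ^ n : ℝ) ^ 2 * Y ^ 2 * √(1 + 200 * b2 * (1 + ((r : ℝ) - s))) +
        2 * (Cm * Real.exp (-(cm * (2 ^ s / 2 ^ n) * D))) *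
          √((2 ^ n / 2 ^ s) ^ 2 + 200 * b2 * (1 + ((r : ℝ) - s))) := by
  obtain ⟨cm, Cm, hcm, hCm, H⟩ := H767.ref_ev hb1 hb2
  refine ⟨cm, Cm, hcm, hCm, fun pf Q => ?_⟩
  refine ((H (1 / 2) (by norm_num) (by norm_num) pf Q)).mono fun P c1 hA h => ?_
  obtain ⟨h1, h2, h3, h4⟩ := h
  refine ⟨h1, h2, ?_⟩
  intro b n s r e τ Y hnz hb he hes hG hT hτ1 hτ2 hsn hns hY hYe
  obtain ⟨R, -⟩ := h4 b n s r r e τ Y he hes hG hT hT hτ1 hτ2 hsn hns hY hY hYe dvd_rfl dvd_rfl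
  refine ⟨R.dom, fun D hD => ?_⟩
  have htn := tn_pos n
  have hτ : 0 < τ := htn.trans_le hτ1
  have hsr : s ≤ r := by
    have := hT.1
    omega
  have hl : 2 ^ s ∣ 2 ^ r := pow_dvd_pow 2 hsr
  have hyt : yt (2 ^ r) b τ ≤ 4 * Y := by
    have h5 := H767.yt_mass4 (N := 2 ^ r) hb hτ hτ2 (by linarith)
    linarith
  have hy0 : 0 ≤ yt (2 ^ r) b τ := H864.yt_nonneg hb.le hτ
  have hlow := H767.s0_low (N := 2 ^ r) hb.le hτ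
  have hN : τ * (((2 ^ r : ℕ) : ℝ)) ^ 2 ≤ 4 * (2 ^ r / 2 ^ n : ℝ) ^ 2 := by
    have h6 : H972.tn n * (((2 ^ r : ℕ) : ℝ)) ^ 2 = (2 ^ r / 2 ^ n : ℝ) ^ 2 := by
      unfold H972.tn
      push_cast
      rw [div_pow, ← pow_mul 2 n 2, mul_comm n 2, pow_mul 2 2 n]
      norm_num
      field_simp
    calc τ * (((2 ^ r : ℕ) : ℝ)) ^ 2 ≤ 4 * H972.tn n * (((2 ^ r : ℕ) : ℝ)) ^ 2 :=
          mul_le_mul_of_nonneg_right hτ2 (by positivity)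
      _ = 4 * (H972.tn n * (((2 ^ r : ℕ) : ℝ)) ^ 2) := by ring
      _ = _ := by rw [h6]
  have hq : τ * (((2 ^ r : ℕ) : ℝ)) ^ 2 * yt (2 ^ r) b τ ^ 2 ≤
      64 * (2 ^ r / 2 ^ n : ℝ) ^ 2 * Y ^ 2 := by
    calc τ * (((2 ^ r : ℕ) : ℝ)) ^ 2 * yt (2 ^ r) b τ ^ 2
        ≤ 4 * (2 ^ r / 2 ^ n : ℝ) ^ 2 * (4 * Y) ^ 2 :=
          mul_le_mul hN (pow_le_pow_left₀ hy0 hyt 2) (sq_nonneg _) (by positivity)
      _ = _ := by ring
  have hst := H767.step_A3 (b := b) (τ := τ) hl hτ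
  have hmom : ∑ z, Sg (2 ^ r) (2 ^ s) b τ 0 z * Real.exp (cm * (2 ^ s / 2 ^ n) * sn z) ≤ Cm := by
    rw [← hst]
    exact R.two.mom
  -- the mass of one cell
  have hνlow : ((2 : ℝ) ^ n / 2 ^ s) ^ 2 * (τ * ((2 ^ s : ℕ) : ℝ) ^ 2) ≥ 1 := by
    have h6 : ((2 : ℝ) ^ n / 2 ^ s) ^ 2 * (H972.tn n * ((2 ^ s : ℕ) : ℝ) ^ 2) = 1 := by
      unfold H972.tn
      push_cast
      rw [div_pow, ← pow_mul 2 n 2, mul_comm n 2, pow_mul 2 2 n]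
      norm_num
      field_simp
    calc ((2 : ℝ) ^ n / 2 ^ s) ^ 2 * (τ * ((2 ^ s : ℕ) : ℝ) ^ 2) ≥
        ((2 : ℝ) ^ n / 2 ^ s) ^ 2 * (H972.tn n * ((2 ^ s : ℕ) : ℝ) ^ 2) := by gcongr
      _ = 1 := h6
  have hνp : 0 < τ * ((2 ^ s : ℕ) : ℝ) ^ 2 := by positivity
  have hinv : (τ * ((2 ^ s : ℕ) : ℝ) ^ 2)⁻¹ ≤ ((2 : ℝ) ^ n / 2 ^ s) ^ 2 := by
    rw [inv_eq_one_div, div_le_iff₀ hνp]
    exact hνlow
  have hbox : 1 / (τ * ((2 ^ s : ℕ) : ℝ) ^ 2 * (2 * (D : ℝ) + 1) ^ 2) ≤ 1 := by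
    rw [div_le_one (by positivity)]
    have h7 : ((2 : ℝ) ^ n / 2 ^ s) ^ 2 ≤ (2 * (D : ℝ) + 1) ^ 2 := by
      refine pow_le_pow_left₀ (by positivity) ?_ 2
      rw [div_le_iff₀ (by positivity)]
      have h8 : (2 : ℝ) ^ n ≤ 2 ^ s * D := by exact_mod_cast hD
      have h9 : (0 : ℝ) ≤ D := Nat.cast_nonneg D
      nlinarith [show (0 : ℝ) < 2 ^ s by positivity]
    calc (1 : ℝ) ≤ ((2 : ℝ) ^ n / 2 ^ s) ^ 2 * (τ * ((2 ^ s : ℕ) : ℝ) ^ 2) := hνlow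
      _ ≤ (2 * (D : ℝ) + 1) ^ 2 * (τ * ((2 ^ s : ℕ) : ℝ) ^ 2) :=
          mul_le_mul_of_nonneg_right h7 hνp.le
      _ = _ := by ring
  have hKlog : 50 * (1 / (2 * b2))⁻¹ * (1 + Real.log (1 + ((2 ^ r / 2 ^ s : ℕ) : ℝ) ^ 2)) ≤
      200 * b2 * (1 + ((r : ℝ) - s)) := by
    have h8 : ((2 ^ r / 2 ^ s : ℕ) : ℝ) = 2 ^ (r - s) := by
      rw [Nat.pow_div hsr (by norm_num)]
      push_cast
      rfl
    have h9 := log_four_pow (r - s)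
    have h10 : ((r - s : ℕ) : ℝ) = (r : ℝ) - s := Nat.cast_sub hsr
    rw [h8]
    rw [h10] at h9
    have h11 : 50 * (1 / (2 * b2))⁻¹ = 100 * b2 := by
      rw [one_div, inv_inv]
      ring
    rw [h11]
    calc 100 * b2 * (1 + Real.log (1 + ((2 : ℝ) ^ (r - s)) ^ 2)) ≤
        100 * b2 * (2 * (1 + ((r : ℝ) - s))) := mul_le_mul_of_nonneg_left h9 (by positivity)
      _ = _ := by ring
  refine epsA_le hb.le hτ R.dom hmom (by positivity) (by linarith) ?_ ?_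
  · linarith
  · linarith

end

end Vale.Agent.P159.H197
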