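import Vale.Agent.P159.H197.Sb3

/-!
P159 / (O2) of 462's row 7502 (helper197): the form outside a window is at most `y ^ (2 - x1)`.
-/

set_option linter.unusedSectionVars false

namespace Vale.Agent.P159.H197

open Finset Matrix MeasureTheory
open Vale.Agent.P159.TM.Spec (V)
open Vale.Agent.P159.H864 (yt)
open Vale.Agent.P159.H801 (Ev PS)
open Vale.Agent.P159.H972 (Par lg tn_pos Good)
open Vale.Agent.P159.H462 (Dom)
open Vale.Agent.P159.H363 (acl)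

noncomputable section

/-- the scalar part -/
lemma epsA_sc {cm Cm b2 x1 th A0 y Y u v rs : ℝ} {D : ℝ} (hb2 : 0 < b2) (hCm : 0 < Cm)
    (hx1 : 0 < x1) (hx1' : x1 ≤ 1) (hth : 0 < th) (hth8 : 8 * th ≤ x1) (hy : 0 < y) (hy1 : y ≤ 1)
    (hY0 : 0 ≤ Y) (hY : Y ≤ y ^ (1 - x1 / 8)) (hv0 : 0 < v) (hv : v ≤ 2 * y ^ (-(2 * th)))
    (hu : 0 < u) (huy : u ≤ y) (hrs0 : 0 ≤ rs) (hrs : rs ≤ 3 * y ^ (-(2 * th)))
    (hexp : Real.exp (-(cm * u * D)) ≤ u ^ 4)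
    (hE1 : 256 * √(1 + 800 * b2) * y ^ (x1 / 8) ≤ 1 / 2)
    (hE2 : 4 * Cm * √(1 + 800 * b2) * y ^ (1 / 2 : ℝ) ≤ 1 / 2) :
    64 * v ^ 2 * Y ^ 2 * √(1 + 200 * b2 * (1 + rs)) +
      2 * (Cm * Real.exp (-(cm * u * D))) * √((1 / u) ^ 2 + 200 * b2 * (1 + rs)) ≤
      y ^ (2 - x1) := by
  set B := √(1 + 800 * b2) with hB
  have hB1 : 1 ≤ B := by
    rw [hB]
    exact Real.one_le_sqrt.2 (by linarith)
  have hp1 : (1 : ℝ) ≤ y ^ (-(2 * th)) :=
    Real.one_le_rpow_of_pos_of_le_one_of_nonpos hy hy1 (by linarith)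
  have hpt : 0 < y ^ (-th) := Real.rpow_pos_of_pos hy _
  have hpt1 : (1 : ℝ) ≤ y ^ (-th) :=
    Real.one_le_rpow_of_pos_of_le_one_of_nonpos hy hy1 (by linarith)
  have hsq : (y ^ (-th)) ^ 2 = y ^ (-(2 * th)) := by
    rw [← Real.rpow_natCast, ← Real.rpow_mul hy.le]
    congr 1
    push_cast
    ring
  have h1 : 1 + 200 * b2 * (1 + rs) ≤ (1 + 800 * b2) * y ^ (-(2 * th)) := by
    have h2 : 1 + rs ≤ 4 * y ^ (-(2 * th)) := by linarith
    have h3 : 200 * b2 * (1 + rs) ≤ 200 * b2 * (4 * y ^ (-(2 * th))) :=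
      mul_le_mul_of_nonneg_left h2 (by positivity)
    nlinarith
  have h4 : √(1 + 200 * b2 * (1 + rs)) ≤ B * y ^ (-th) := by
    have : √(1 + 200 * b2 * (1 + rs)) ≤ √((1 + 800 * b2) * y ^ (-(2 * th))) :=
      Real.sqrt_le_sqrt h1
    refine this.trans (le_of_eq ?_)
    rw [← hsq, Real.sqrt_mul (by positivity), Real.sqrt_sq hpt.le]
  have h5 : √((1 / u) ^ 2 + 200 * b2 * (1 + rs)) ≤ 1 / u * (B * y ^ (-th)) * 1 := by
    have hu1 : 1 ≤ 1 / u := by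
      rw [le_div_iff₀ hu]
      linarith
    have h6 : (1 / u) ^ 2 + 200 * b2 * (1 + rs) ≤ (1 / u) ^ 2 * (1 + 200 * b2 * (1 + rs)) := by
      have : 1 ≤ (1 / u) ^ 2 := one_le_pow₀ hu1
      have h7 : 0 ≤ 200 * b2 * (1 + rs) := by positivity
      nlinarith
    refine (Real.sqrt_le_sqrt h6).trans ?_
    rw [Real.sqrt_mul (by positivity), Real.sqrt_sq (by positivity), mul_one]
    exact mul_le_mul_of_nonneg_left h4 (by positivity)
  -- first term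
  have t1 : 64 * v ^ 2 * Y ^ 2 * √(1 + 200 * b2 * (1 + rs)) ≤ 1 / 2 * y ^ (2 - x1) := by
    have k1 : v ^ 2 ≤ 4 * y ^ (-(4 * th)) := by
      have := pow_le_pow_left₀ hv0.le hv 2
      refine this.trans (le_of_eq ?_)
      rw [mul_pow, ← Real.rpow_natCast (y ^ (-(2 * th))), ← Real.rpow_mul hy.le]
      have : -(2 * th) * ((2 : ℕ) : ℝ) = -(4 * th) := by
        push_cast
        ring
      rw [this]
      norm_num
    have k2 : Y ^ 2 ≤ y ^ (2 - x1 / 4) := by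
      have := pow_le_pow_left₀ hY0 hY 2
      refine this.trans (le_of_eq ?_)
      rw [← Real.rpow_natCast (y ^ (1 - x1 / 8)), ← Real.rpow_mul hy.le]
      congr 1
      push_cast
      ring
    have k3 : v ^ 2 * Y ^ 2 ≤ 4 * y ^ (-(4 * th)) * y ^ (2 - x1 / 4) :=
      mul_le_mul k1 k2 (sq_nonneg _) (by positivity)
    have k4 : v ^ 2 * Y ^ 2 * √(1 + 200 * b2 * (1 + rs)) ≤
        4 * y ^ (-(4 * th)) * y ^ (2 - x1 / 4) * (B * y ^ (-th)) :=
      mul_le_mul k3 h4 (Real.sqrt_nonneg _) (by positivity)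
    have k5 : y ^ (-(4 * th)) * y ^ (2 - x1 / 4) * y ^ (-th) ≤ y ^ (x1 / 8) * y ^ (2 - x1) := by
      rw [← Real.rpow_add hy, ← Real.rpow_add hy, ← Real.rpow_add hy]
      refine Real.rpow_le_rpow_of_exponent_ge hy hy1 ?_
      linarith
    have k6 : 0 < y ^ (2 - x1) := Real.rpow_pos_of_pos hy _
    calc 64 * v ^ 2 * Y ^ 2 * √(1 + 200 * b2 * (1 + rs)) =
        64 * (v ^ 2 * Y ^ 2 * √(1 + 200 * b2 * (1 + rs))) := by ring
      _ ≤ 64 * (4 * y ^ (-(4 * th)) * y ^ (2 - x1 / 4) * (B * y ^ (-th))) := by linarith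
      _ = 256 * B * (y ^ (-(4 * th)) * y ^ (2 - x1 / 4) * y ^ (-th)) := by ring
      _ ≤ 256 * B * (y ^ (x1 / 8) * y ^ (2 - x1)) :=
          mul_le_mul_of_nonneg_left k5 (by positivity)
      _ = 256 * B * y ^ (x1 / 8) * y ^ (2 - x1) := by ring
      _ ≤ 1 / 2 * y ^ (2 - x1) := mul_le_mul_of_nonneg_right hE1 k6.le
  -- second term
  have t2 : 2 * (Cm * Real.exp (-(cm * u * D))) * √((1 / u) ^ 2 + 200 * b2 * (1 + rs)) ≤
      1 / 2 * y ^ (2 - x1) := by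
    have k1 : 2 * (Cm * Real.exp (-(cm * u * D))) * √((1 / u) ^ 2 + 200 * b2 * (1 + rs)) ≤
        2 * (Cm * u ^ 4) * (1 / u * (B * y ^ (-th)) * 1) := by
      refine mul_le_mul ?_ h5 (Real.sqrt_nonneg _) (by positivity)
      have := mul_le_mul_of_nonneg_left hexp hCm.le
      linarith
    have k2 : 2 * (Cm * u ^ 4) * (1 / u * (B * y ^ (-th)) * 1) =
        2 * Cm * B * (u ^ 3 * y ^ (-th)) := by
      field_simp
    have k3 : u ^ 3 * y ^ (-th) ≤ y ^ (1 / 2 : ℝ) * y ^ (2 - x1) := by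
      have k4 : u ^ 3 ≤ y ^ (3 : ℝ) := by
        have := pow_le_pow_left₀ hu.le huy 3
        refine this.trans (le_of_eq ?_)
        rw [← Real.rpow_natCast]
        norm_num
      refine (mul_le_mul_of_nonneg_right k4 hpt.le).trans ?_
      rw [← Real.rpow_add hy, ← Real.rpow_add hy]
      refine Real.rpow_le_rpow_of_exponent_ge hy hy1 ?_
      linarith
    have k6 : 0 < y ^ (2 - x1) := Real.rpow_pos_of_pos hy _
    rw [k2] at k1
    refine k1.trans ?_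
    calc 2 * Cm * B * (u ^ 3 * y ^ (-th)) ≤ 2 * Cm * B * (y ^ (1 / 2 : ℝ) * y ^ (2 - x1)) :=
          mul_le_mul_of_nonneg_left k3 (by positivity)
      _ ≤ 4 * Cm * B * (y ^ (1 / 2 : ℝ) * y ^ (2 - x1)) := by
          refine mul_le_mul_of_nonneg_right ?_ (by positivity)
          nlinarith [mul_pos hCm (by linarith : 0 < B)]
      _ = 4 * Cm * B * y ^ (1 / 2 : ℝ) * y ^ (2 - x1) := by ring
      _ ≤ 1 / 2 * y ^ (2 - x1) := mul_le_mul_of_nonneg_right hE2 k6.le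
  linarith

/-- **(O2), final numbers** -/
theorem epsA_fin {b1 : ℝ} (hb1 : 0 < b1) {b2 : ℝ} (hb2 : 0 < b2) :
    ∃ A00 : ℝ, 2 ≤ A00 ∧ ∀ (pf : ℝ) (Q : ℕ), Ev b1 b2 pf Q fun P c1 =>
      0 < c1 ∧ c1 ≤ P.th / 5 ∧ ∀ x : ℝ, P.x1 ≤ x → x ≤ 1 → ∃ E : ℝ, 0 < E ∧ E ≤ 1 / 2 ∧
      ∀ (b : ℝ) (n s r D : ℕ) (e τ Y y : ℝ) [NeZero (2 ^ r / 2 ^ s)],
      0 < b → 0 < e → e ≤ P.es → Good P b n e → P.TT n e r → H972.tn n ≤ τ → τ ≤ 4 * H972.tn n →
      s ≤ n → ((n - s : ℕ) : ℝ) ≤ e ^ (-(2 * c1)) →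
      yt (2 ^ r) b (4 * H972.tn n) ≤ Y → 16 * Y ^ 2 ≤ e →
      0 < y → y ≤ E → y ^ 2 ≤ e → Y ≤ y ^ (1 - x / 8) →
      (2 : ℝ) ^ r / 2 ^ n ≤ 2 * y ^ (-(2 * P.th)) → (2 : ℝ) ^ s / 2 ^ n ≤ y →
      A00 * (((n : ℝ) - s) * Real.log 2) ≤ (2 ^ s / 2 ^ n : ℝ) * D →
      Dom (acl (2 ^ r) (2 ^ s) b τ τ) (τ * ((2 ^ s : ℕ) : ℝ) ^ 2) (1 / (2 * b2)) ∧
      epsA (2 ^ r) (2 ^ s) b τ (1 / (2 * b2)) D ≤ y ^ (2 - x) := by
  obtain ⟨cm, Cm, hcm, hCm, H⟩ := epsA_ev hb1 hb2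
  refine ⟨max 2 (4 / cm), le_max_left _ _, fun pf Q => ?_⟩
  refine (H pf Q).mono fun P c1 hA h => ?_
  obtain ⟨hc1, hc1t, h⟩ := h
  have hx := hA.hx
  have hth : 0 < P.th := by linarith
  have hthp : P.th ≤ P.thp := hA.hth
  refine ⟨hc1, hc1t, fun x hx1p hx1' => ?_⟩
  have hx1 : 0 < x := by linarith
  obtain ⟨E1, hE1, hE1'⟩ := H640.sm_rpow (s := x / 8) (A := 256 * √(1 + 800 * b2))
    (B := 1 / 2) (by positivity) (by norm_num)
  obtain ⟨E2, hE2, hE2'⟩ := H640.sm_rpow (s := 1 / 2) (A := 4 * Cm * √(1 + 800 * b2))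
    (B := 1 / 2) (by positivity) (by norm_num)
  refine ⟨min (1 / 2) (min E1 E2), by positivity, min_le_left _ _, ?_⟩
  intro b n s r D e τ Y y hnz hb he hes hG hT hτ1 hτ2 hsn hns hY hYe hy hyE hye hYy hv huy hD
  have hy2 : y ≤ 1 / 2 := hyE.trans (min_le_left _ _)
  have hyE1 : y ≤ E1 := hyE.trans ((min_le_right _ _).trans (min_le_left _ _))
  have hyE2 : y ≤ E2 := hyE.trans ((min_le_right _ _).trans (min_le_right _ _))
  obtain ⟨hdom, hle⟩ := h b n s r e τ Y hb he hes hG hT hτ1 hτ2 hsn hns hY hYe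
  refine ⟨hdom, ?_⟩
  have hnr : n ≤ r := by
    have := hT.1
    omega
  have hu : (0 : ℝ) < 2 ^ s / 2 ^ n := by positivity
  have hl2 : (0.69 : ℝ) < Real.log 2 := by
    have := Real.log_two_gt_d9
    linarith
  have hns1 : (1 : ℝ) ≤ (n : ℝ) - s := by
    have h1 : s ≠ n := by
      intro h1
      rw [h1, div_self (by positivity)] at huy
      linarith
    have h2 : s + 1 ≤ n := by omega
    have h3 : ((s : ℝ) + 1) ≤ n := by exact_mod_cast h2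
    linarith
  have hexp0 : (2 : ℝ) ^ s / 2 ^ n = Real.exp (-(((n : ℝ) - s) * Real.log 2)) := by
    have h1 : -(((n : ℝ) - s) * Real.log 2) = (s : ℝ) * Real.log 2 - n * Real.log 2 := by ring
    rw [h1, Real.exp_sub, ← Real.log_pow, ← Real.log_pow, Real.exp_log (by positivity),
      Real.exp_log (by positivity)]
  have hL0 : 0 ≤ ((n : ℝ) - s) * Real.log 2 := by
    have : 0 ≤ (n : ℝ) - s := by linarith
    positivity
  have hDn : 2 ^ n ≤ 2 ^ s * D := by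
    have h1 : (1 : ℝ) ≤ (2 ^ s / 2 ^ n : ℝ) * D := by
      have h2 : (2 : ℝ) * (((n : ℝ) - s) * Real.log 2) ≤ max 2 (4 / cm) *
          (((n : ℝ) - s) * Real.log 2) := mul_le_mul_of_nonneg_right (le_max_left _ _) hL0
      nlinarith
    have h3 : (2 : ℝ) ^ n ≤ 2 ^ s * D := by
      have h4 : (2 : ℝ) ^ s / 2 ^ n * D = (2 ^ s * D) / 2 ^ n := by ring
      rw [h4, le_div_iff₀ (by positivity)] at h1
      linarith
    exact_mod_cast h3
  have hexp : Real.exp (-(cm * (2 ^ s / 2 ^ n) * D)) ≤ ((2 : ℝ) ^ s / 2 ^ n) ^ 4 := by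
    have h5 : ((2 : ℝ) ^ s / 2 ^ n) ^ 4 = Real.exp (4 * -(((n : ℝ) - s) * Real.log 2)) := by
      rw [hexp0, ← Real.exp_nat_mul]
      norm_num
    rw [h5]
    refine Real.exp_le_exp.2 ?_
    have h1 : 4 / cm * (((n : ℝ) - s) * Real.log 2) ≤ (2 ^ s / 2 ^ n : ℝ) * D :=
      (mul_le_mul_of_nonneg_right (le_max_right _ _) hL0).trans hD
    have h2 := mul_le_mul_of_nonneg_left h1 hcm.le
    have h3 : cm * (4 / cm * (((n : ℝ) - s) * Real.log 2)) = 4 * (((n : ℝ) - s) * Real.log 2) := by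
      field_simp
    rw [h3] at h2
    linarith
  have hrs : (r : ℝ) - s ≤ 3 * y ^ (-(2 * P.th)) := by
    have h1 : (r : ℝ) - n ≤ 2 * y ^ (-(2 * P.th)) := by
      refine le_trans ?_ hv
      have h2 : (r - n : ℕ) < 2 ^ (r - n) := Nat.lt_two_pow_self
      have h3 : ((r - n : ℕ) : ℝ) ≤ 2 ^ (r - n) := by exact_mod_cast h2.le
      rw [Nat.cast_sub hnr] at h3
      rwa [pow_sub₀ (2 : ℝ) (by norm_num) hnr, ← div_eq_mul_inv] at h3
    have h2 : (n : ℝ) - s ≤ y ^ (-(2 * P.th)) := by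
      rw [Nat.cast_sub hsn] at hns
      refine hns.trans ?_
      have h3 : e ^ (-(2 * c1)) ≤ (y ^ 2) ^ (-(2 * c1)) :=
        Real.rpow_le_rpow_of_nonpos (by positivity) hye (by linarith)
      refine h3.trans ?_
      have h4 : (y ^ 2) ^ (-(2 * c1)) = y ^ (-(4 * c1)) := by
        rw [← Real.rpow_natCast y 2, ← Real.rpow_mul hy.le]
        congr 1
        push_cast
        ring
      rw [h4]
      exact Real.rpow_le_rpow_of_exponent_ge hy (by linarith) (by linarith)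
    linarith
  have hrs0 : 0 ≤ (r : ℝ) - s := by
    have : (n : ℝ) ≤ r := by exact_mod_cast hnr
    linarith
  have hY0 : 0 ≤ Y := (H864.yt_nonneg hb.le (by have := tn_pos n; positivity)).trans hY
  have hinv : (1 : ℝ) / (2 ^ s / 2 ^ n) = 2 ^ n / 2 ^ s := by
    field_simp
  have hsc := epsA_sc (cm := cm) (D := (D : ℝ)) hb2 hCm hx1 hx1' hth (by linarith) hy
    (by linarith) hY0 hYy (v := 2 ^ r / 2 ^ n) (by positivity) hv hu huy hrs0 hrs hexp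
    (hE1' y hy hyE1) (hE2' y hy hyE2) (A0 := 0)
  rw [hinv] at hsc
  exact (hle D hDn).trans hsc

end

end Vale.Agent.P159.H197
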