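import Vale.Agent.P159.H197.Sb4
import Vale.Agent.P159.H801.Sp1
import Vale.Agent.P159.H846.Ev3

/-!
P159 / P6 at the states `SS` (helper197): field `out` of helper462's `P6h` on the base torus of the
second run (helper801's `Base`).
-/

set_option linter.unusedSectionVars false

namespace Vale.Agent.P159.H197

open Finset Matrix MeasureTheory
open Vale.Agent.P159.H37 (gau)
open Vale.Agent.P159.TM.Spec (V)
open Vale.Agent.P159.H864 (yt)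
open Vale.Agent.P159.H801 (Ev PS Base)
open Vale.Agent.P159.H972 (Par lg tn_pos Good)
open Vale.Agent.P159.H462 (Dom)
open Vale.Agent.P159.H363 (acl pin)
open Vale.Agent.P159.H358 (cutm)
open Vale.Agent.P159.H846.Two (Ev2)

noncomputable section

lemma epsA_nonneg {N l : ℕ} [NeZero N] [NeZero (N / l)] {b T c : ℝ} (hb : 0 ≤ b) (hT : 0 < T)
    (D : ℕ) : 0 ≤ epsA N l b T c D := by
  have hs0 : 0 ≤ H767.s0 N b T := by
    unfold Vale.Agent.P159.H767.s0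
    exact mul_nonneg hT.le (Finset.sum_nonneg fun z _ => H612.GA_nonneg hb hT 0 z)
  have hs1 := H767.s0_le_one (N := N) hb hT
  have h4 : 0 ≤ ∑ v ∈ (H462.box (0 : V (N / l)) D)ᶜ, H767.Sg N l b T 0 v :=
    Finset.sum_nonneg fun v _ => H767.Sg_nonneg hb hT hs0 0 v
  have h5 := H889.sg_nonneg (acl N l b T T)
  have h6 : 0 ≤ 1 - H767.s0 N b T := by linarith
  unfold epsA
  positivity

/-- **field `out` of `P6h` on the base torus** -/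
theorem out_ev2 {b1 : ℝ} (hb1 : 0 < b1) {b2 : ℝ} (hb2 : 0 < b2) :
    ∃ A00 : ℝ, 2 ≤ A00 ∧ ∀ (pf : ℝ) (Q : ℕ), Ev2 b1 b2 pf Q fun P P' c1 =>
      ∃ E : ℝ, 0 < E ∧ E ≤ 1 / 2 ∧
      ∀ (b an : ℝ) (n j r1 D0 : ℕ) (ε y e1 T : ℝ) [NeZero (2 ^ r1 / 2 ^ j)],
      0 < b → Base P P' b an (P.x1 / 100) n ε y e1 r1 → e1 = y ^ (2 - P.x1 / 10) → y ≤ E →
      H972.tn n ≤ T → T ≤ 4 * H972.tn n →
      j ≤ n → ((n - j : ℕ) : ℝ) ≤ ε ^ (-(2 * c1)) → (2 : ℝ) ^ j / 2 ^ n ≤ y →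
      A00 * (((n : ℝ) - j) * Real.log 2) ≤ (2 ^ j / 2 ^ n : ℝ) * D0 → 2 * D0 < 2 ^ r1 / 2 ^ j →
      Dom (acl (2 ^ r1) (2 ^ j) b T T) (T * ((2 ^ j : ℕ) : ℝ) ^ 2) (1 / (2 * b2)) ∧
      0 ≤ y ^ (2 - P.x1) ∧
      ∀ x : V (2 ^ r1 / 2 ^ j), ∫ g, ((acl (2 ^ r1) (2 ^ j) b T T *ᵥ
          cutm D0 x (pin (acl (2 ^ r1) (2 ^ j) b T T) *ᵥ g)) x -
        (acl (2 ^ r1) (2 ^ j) b T T *ᵥ (pin (acl (2 ^ r1) (2 ^ j) b T T) *ᵥ g)) x) ^ 2
          ∂(gau (V (2 ^ r1 / 2 ^ j))) ≤ (T * ((2 ^ j : ℕ) : ℝ) ^ 2 * y ^ (2 - P.x1)) ^ 2 := by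
  obtain ⟨A00, hA00, H⟩ := epsA_fin hb1 hb2
  refine ⟨A00, hA00, fun pf Q => ?_⟩
  have h1 := H846.Two.Ev.to2x (b1 := b1) (b2 := b2) (pf := pf) (Q := Q) (fun _ _ => H pf Q)
  have h2 := H846.Two.Ev2.x1_le (b1 := b1) (b2 := b2) (pf := pf) (Q := Q) (r := 1)
    (g := fun x => x) one_pos (fun x hx => hx)
  refine (h1.and h2).mono fun P P' c1 hQ hc1 h => ?_
  obtain ⟨⟨-, hc1t, h⟩, hx11, hx1⟩ := h
  have hx0 := hQ.x1
  obtain ⟨E0, hE0, hE02, h⟩ := h P.x1 hx1 hx11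
  obtain ⟨E1, hE1, hE1'⟩ := H640.sm_rpow (s := 3 * P.x1 / 50) (A := 16) (B := 1) (by positivity)
    one_pos
  refine ⟨min E0 E1, lt_min hE0 hE1, (min_le_left _ _).trans hE02, ?_⟩
  intro b an n j r1 D0 ε y e1 T hnz hb hB he1 hyE hT1 hT2 hjn hnj hjy hD hD2
  have hyE0 := hyE.trans (min_le_left _ _)
  have hyE1 := hyE.trans (min_le_right _ _)
  have hy := hB.y0
  have hy1 := hB.y1
  have hε := hB.ε0
  have he10 := hB.e10
  have htn := tn_pos n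
  have hT : 0 < T := htn.trans_le hT1
  have hnr : n ≤ r1 := by
    rw [hB.er1]
    omega
  have hjr : j ≤ r1 := hjn.trans hnr
  have hl : 2 ^ j ∣ 2 ^ r1 := pow_dvd_pow 2 hjr
  have hy2 : y ^ 2 ≤ e1 := by
    have h3 := hB.y2
    rwa [show (2 : ℝ) = ((2 : ℕ) : ℝ) by norm_num, Real.rpow_natCast] at h3
  have hGood : Good P' b n e1 := by
    obtain ⟨τ, a', t1, t2, -, hG⟩ := hB.gp
    exact ⟨τ, a', t1, t2, hG⟩
  -- the activity
  have hY : ε ^ (-(P.x1 / 100)) * y ≤ y ^ (1 - P.x1 / 50) := by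
    have h3 : ε ^ (-(P.x1 / 100)) ≤ (y ^ (2 : ℝ)) ^ (-(P.x1 / 100)) :=
      Real.rpow_le_rpow_of_nonpos (Real.rpow_pos_of_pos hy _) (hB.y2.trans hB.e1ε) (by linarith)
    rw [← Real.rpow_mul hy.le] at h3
    calc ε ^ (-(P.x1 / 100)) * y ≤ y ^ (2 * -(P.x1 / 100)) * y :=
          mul_le_mul_of_nonneg_right h3 hy.le
      _ = y ^ (2 * -(P.x1 / 100)) * y ^ (1 : ℝ) := by rw [Real.rpow_one]
      _ = y ^ (1 - P.x1 / 50) := by
          rw [← Real.rpow_add hy]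
          congr 1
          ring
  have hY0 : 0 ≤ ε ^ (-(P.x1 / 100)) * y := mul_nonneg (Real.rpow_nonneg hε.le _) hy.le
  have hY2 : 16 * (ε ^ (-(P.x1 / 100)) * y) ^ 2 ≤ e1 := by
    have h3 : (ε ^ (-(P.x1 / 100)) * y) ^ 2 ≤ y ^ (2 - P.x1 / 25) := by
      refine (pow_le_pow_left₀ hY0 hY 2).trans (le_of_eq ?_)
      rw [← Real.rpow_natCast, ← Real.rpow_mul hy.le]
      congr 1
      push_cast
      ring
    have h4 := hE1' y hy hyE1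
    have h5 : y ^ (2 - P.x1 / 25) = y ^ (3 * P.x1 / 50) * y ^ (2 - P.x1 / 10) := by
      rw [← Real.rpow_add hy]
      congr 1
      ring
    rw [he1]
    calc 16 * (ε ^ (-(P.x1 / 100)) * y) ^ 2 ≤ 16 * y ^ (2 - P.x1 / 25) := by linarith
      _ = 16 * y ^ (3 * P.x1 / 50) * y ^ (2 - P.x1 / 10) := by
          rw [h5]
          ring
      _ ≤ 1 * y ^ (2 - P.x1 / 10) :=
          mul_le_mul_of_nonneg_right h4 (Real.rpow_nonneg hy.le _)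
      _ = _ := one_mul _
  have hY8 : ε ^ (-(P.x1 / 100)) * y ≤ y ^ (1 - P.x1 / 8) :=
    hY.trans (Real.rpow_le_rpow_of_exponent_ge hy hy1 (by linarith))
  have hnj' : ((n - j : ℕ) : ℝ) ≤ e1 ^ (-(2 * c1)) :=
    hnj.trans (Real.rpow_le_rpow_of_nonpos he10 hB.e1ε (by linarith))
  have hKy : (2 : ℝ) ^ r1 / 2 ^ n ≤ 2 * y ^ (-(2 * P'.th)) := by
    have h3 := hB.Ky
    rw [pow_sub₀ (2 : ℝ) (by norm_num) hnr, ← div_eq_mul_inv] at h3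
    rw [hQ.th]
    exact h3
  obtain ⟨hdom, hle⟩ := h b n j r1 D0 e1 T _ y hb he10 hB.e1es hGood hB.tt' hT1 hT2 hjn hnj'
    (hB.yt4 r1 le_rfl) hY2 hy hyE0 hy2 hY8 hKy hjy hD
  refine ⟨hdom, Real.rpow_nonneg hy.le _, fun x => ?_⟩
  have h3 := out_form hb.le hl hT hdom hD2 x
  refine h3.trans (pow_le_pow_left₀ ?_ ?_ 2)
  · exact mul_nonneg (by positivity) (epsA_nonneg hb.le hT D0)
  · exact mul_le_mul_of_nonneg_left hle (by positivity)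

end

end Vale.Agent.P159.H197
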