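import Vale.Agent.P159.H197.Form8
import Vale.Agent.P159.H30.Sand

/-!
P159, START (ST8): the remainder `R` of the free energy is small on the torus of side `2^i₁ ξ`,
`ξ = 2^m` large, for every cell function with cells of side `ξ / 2^s`, at every `b` with
`2 / π ≤ helicity b` (in particular at the critical point).
-/

open Finset Filter Topology

namespace Vale.Agent.P159.H197

open Vale.Agent.P159 Vale.Agent.P159.TM Vale.Agent.P159.H37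

noncomputable section

/-- **(ST8)**: `R(tF) ≤ η + C 4^i₁ e^{-c 2^i₁} Λ²` for all cell functions `|F| ≤ Λ` -/
theorem st8 {b : ℝ} (hb : 0 < b) (hY : 2 / Real.pi ≤ helicity b) :
    ∃ c C : ℝ, 0 < c ∧ 0 < C ∧ ∀ i₁ : ℕ, 3 ≤ i₁ → ∀ s : ℕ, ∀ Λ η : ℝ, 0 < η →
      ∃ m₀ : ℕ, s ≤ m₀ ∧ ∀ m : ℕ, m₀ ≤ m → ∀ F : SpecC.Tor (2 ^ (i₁ + m)) → ℝ, (∀ x, |F x| ≤ Λ) →
        (∀ x y : SpecC.Tor (2 ^ (i₁ + m)), x.1.val / 2 ^ (m - s) = y.1.val / 2 ^ (m - s) →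
          x.2.val / 2 ^ (m - s) = y.2.val / 2 ^ (m - s) → F x = F y) →
        Rs (wt (2 ^ (i₁ + m)) b (1 / ((2 ^ m : ℕ) : ℝ) ^ 2))
            ((1 / ((2 ^ m : ℕ) : ℝ) ^ 2) • F) ≤
          η + C * Real.exp (-(c * 2 ^ i₁)) * (4 ^ i₁ * Λ ^ 2) := by
  have hY0 : 0 < helicity b := (by positivity : (0 : ℝ) < 2 / Real.pi).trans_le hY
  obtain ⟨c, C, hc, hC, h⟩ := start_formt hb hY
  refine ⟨c, C, hc, hC, fun i₁ hi₁ s Λ η hη => ?_⟩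
  obtain ⟨δ, hδ0, hδ⟩ : ∃ δ : ℝ, 0 < δ ∧ δ * (4 ^ i₁ * Λ ^ 2) / 2 ≤ η / 2 := by
    refine ⟨η / (4 ^ i₁ * Λ ^ 2 + 1), by positivity, ?_⟩
    have h1 : η / (4 ^ i₁ * Λ ^ 2 + 1) * (4 ^ i₁ * Λ ^ 2) ≤ η := by
      rw [div_mul_eq_mul_div, div_le_iff₀ (by positivity)]
      nlinarith [hη]
    linarith
  obtain ⟨m₁, hm₁⟩ := h i₁ hi₁ δ hδ0
  obtain ⟨X, hX⟩ := H30.sand_R hb hY0 (κ := (2 : ℝ) ^ i₁) (by positivity)
    (n0 := 2 ^ (i₁ + s)) (by positivity) Λ (half_pos hη)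
  refine ⟨max m₁ (X + s), le_trans (Nat.le_add_left s X) (le_max_right _ _), fun m hm F hF hc' => ?_⟩
  have h1 : m₁ ≤ m := (le_max_left _ _).trans hm
  have h2 : X + s ≤ m := (le_max_right _ _).trans hm
  have hsm : s ≤ m := by omega
  have hl : X ≤ 2 ^ (m - s) := by
    have : m - s < 2 ^ (m - s) := Nat.lt_two_pow_self
    omega
  have hN : 2 ^ (i₁ + m) = 2 ^ (i₁ + s) * 2 ^ (m - s) := by
    rw [← pow_add]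
    congr 1
    omega
  have ht : 1 / ((2 ^ m : ℕ) : ℝ) ^ 2 = ((2 : ℝ) ^ i₁) ^ 2 / ((2 ^ (i₁ + m) : ℕ) : ℝ) ^ 2 := by
    push_cast
    rw [pow_add]
    field_simp
  have hq := hm₁ m h1
  have h3 := hX (2 ^ (m - s)) hl (2 ^ (i₁ + m)) hN _ ht (C * Real.exp (-(c * 2 ^ i₁)) + δ)
    (by positivity) hq F hF hc'
  refine h3.trans ?_
  have h4 : ((2 : ℝ) ^ i₁) ^ 2 = 4 ^ i₁ := by
    rw [← pow_mul, mul_comm, pow_mul]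
    norm_num
  rw [h4]
  have h5 : 0 ≤ C * Real.exp (-(c * 2 ^ i₁)) * (4 ^ i₁ * Λ ^ 2) := by positivity
  have h6 : (C * Real.exp (-(c * 2 ^ i₁)) + δ) * (4 ^ i₁ * Λ ^ 2) / 2 =
      C * Real.exp (-(c * 2 ^ i₁)) * (4 ^ i₁ * Λ ^ 2) / 2 + δ * (4 ^ i₁ * Λ ^ 2) / 2 := by ring
  rw [h6]
  linarith

/-- **(ST8)** in the form `R ≤ η`: the side `2^i₁ ξ` depends on `Λ` and `η` only -/
theorem st8' {b : ℝ} (hb : 0 < b) (hY : 2 / Real.pi ≤ helicity b) {Λ η : ℝ} (hη : 0 < η) :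
    ∃ i₀ : ℕ, ∀ i₁ : ℕ, i₀ ≤ i₁ → ∀ s : ℕ,
      ∃ m₀ : ℕ, s ≤ m₀ ∧ ∀ m : ℕ, m₀ ≤ m → ∀ F : SpecC.Tor (2 ^ (i₁ + m)) → ℝ, (∀ x, |F x| ≤ Λ) →
        (∀ x y : SpecC.Tor (2 ^ (i₁ + m)), x.1.val / 2 ^ (m - s) = y.1.val / 2 ^ (m - s) →
          x.2.val / 2 ^ (m - s) = y.2.val / 2 ^ (m - s) → F x = F y) →
        Rs (wt (2 ^ (i₁ + m)) b (1 / ((2 ^ m : ℕ) : ℝ) ^ 2))
            ((1 / ((2 ^ m : ℕ) : ℝ) ^ 2) • F) ≤ η := by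
  obtain ⟨c, C, hc, hC, h⟩ := st8 hb hY
  have t1 : Tendsto (fun x : ℝ => x ^ 2 * Real.exp (-x)) atTop (𝓝 0) :=
    Real.tendsto_pow_mul_exp_neg_atTop_nhds_zero 2
  have t2 : Tendsto (fun i : ℕ => c * (2 : ℝ) ^ i) atTop atTop :=
    (tendsto_pow_atTop_atTop_of_one_lt (by norm_num)).const_mul_atTop hc
  have t3 := ((t1.comp t2).const_mul (C * Λ ^ 2 / c ^ 2))
  rw [mul_zero] at t3
  obtain ⟨i₀, hi₀⟩ := ((t3.eventually (ge_mem_nhds (half_pos hη))).and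
    (eventually_ge_atTop 3)).exists_forall_of_atTop
  refine ⟨i₀, fun i₁ hi₁ s => ?_⟩
  obtain ⟨h5, h6⟩ := hi₀ i₁ hi₁
  obtain ⟨m₀, hs, hm₀⟩ := h i₁ h6 s Λ (η / 2) (half_pos hη)
  refine ⟨m₀, hs, fun m hm F hF hcell => (hm₀ m hm F hF hcell).trans ?_⟩
  have h7 : C * Λ ^ 2 / c ^ 2 * ((fun x : ℝ => x ^ 2 * Real.exp (-x)) ∘
      fun i : ℕ => c * (2 : ℝ) ^ i) i₁ = C * Real.exp (-(c * 2 ^ i₁)) * (4 ^ i₁ * Λ ^ 2) := by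
    simp only [Function.comp]
    have h4 : (4 : ℝ) ^ i₁ = (2 ^ i₁) ^ 2 := by
      rw [← pow_mul, mul_comm, pow_mul]
      norm_num
    rw [h4]
    field_simp
  rw [h7] at h5
  linarith

end

end Vale.Agent.P159.H197
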