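import Vale.Agent.P159.H197.Hyp5

/-!
P159, START (ST5): THE WINDOW ON EVERY FIXED TORUS. For a fixed side `n = 2^i₁` (in units of `ξ`) and
all large dyadic `ξ` the massive kernel on the torus of side `n ξ` dominates the Gaussian one, for
ALL wave numbers, with the error `C e^{-cn} + δ`.
-/

open Finset

namespace Vale.Agent.P159.H197

open Vale.Agent.P159 Vale.Agent.P159.TM
open Vale.Agent.P159.TM.H764 (Gh cN sN QK Hyp EE pw DD)
open Vale.Agent.P159.TM.H705 (TT Near)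
open Vale.Agent.P159.TM.H41 (G)

noncomputable section

/-- high modes -/
lemma high_mode {N : ℕ} [NeZero N] {ξ K Y δ : ℝ} {J : ℕ} (hξ : 0 < ξ) (hK : 0 < K) (hY : 0 < Y)
    (hδ : 0 < δ) (hN : (N : ℝ) = K * ξ) (hJ0 : 0 < J) (hJ : K ^ 2 * Y / (16 * δ) ≤ (J : ℝ) ^ 2)
    (k : ZMod N × ZMod N) (hk : J < k.1.valMinAbs.natAbs ∨ J < k.2.valMinAbs.natAbs) :
    1 / (1 + ξ ^ 2 * EE k / Y) ≤ δ := by
  have hπ := Real.pi_pos
  have hJ' : (0 : ℝ) < J := by exact_mod_cast hJ0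
  have h1 := EE_ge k
  have key : ∀ j : ZMod N, J < j.valMinAbs.natAbs → (2 * Real.pi * J / (K * ξ)) ^ 2 ≤ pw j ^ 2 := by
    intro j hj
    rw [← sq_abs (pw j)]
    refine pow_le_pow_left₀ (by positivity) ?_ 2
    unfold pw
    have h4 : |(j.valMinAbs : ℝ)| = (j.valMinAbs.natAbs : ℝ) := by
      rw [← Int.cast_abs, Nat.cast_natAbs]
    have h5 : (J : ℝ) ≤ (j.valMinAbs.natAbs : ℝ) := by exact_mod_cast hj.le
    rw [abs_div, abs_mul, abs_of_pos (by positivity : (0 : ℝ) < 2 * Real.pi), hN,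
      abs_of_pos (by positivity : 0 < K * ξ), h4]
    gcongr
  have h2 : (2 * Real.pi * J / (K * ξ)) ^ 2 ≤ pw k.1 ^ 2 + pw k.2 ^ 2 := by
    rcases hk with h | h
    · have := key _ h
      nlinarith [sq_nonneg (pw k.2)]
    · have := key _ h
      nlinarith [sq_nonneg (pw k.1)]
  have h3 : 16 * (J : ℝ) ^ 2 / K ^ 2 ≤ ξ ^ 2 * EE k := by
    have h4 : 4 / Real.pi ^ 2 * (2 * Real.pi * J / (K * ξ)) ^ 2 ≤ EE k :=
      (mul_le_mul_of_nonneg_left h2 (by positivity)).trans h1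
    have h5 := mul_le_mul_of_nonneg_left h4 (by positivity : 0 ≤ ξ ^ 2)
    refine le_trans (le_of_eq ?_) h5
    field_simp
    ring
  have h6 : 0 < 16 * (J : ℝ) ^ 2 / K ^ 2 / Y := by positivity
  have h7 : 16 * (J : ℝ) ^ 2 / K ^ 2 / Y ≤ ξ ^ 2 * EE k / Y := by gcongr
  have h8 : 1 / (1 + ξ ^ 2 * EE k / Y) ≤ 1 / (16 * (J : ℝ) ^ 2 / K ^ 2 / Y) := by
    refine one_div_le_one_div_of_le h6 ?_
    linarith
  refine h8.trans ?_
  rw [div_le_iff₀ (by positivity)] at hJ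
  rw [div_div, one_div_div, div_le_iff₀ (by positivity)]
  linarith

/-- low modes: lattice symbol against the continuum symbol -/
lemma low_mode {N : ℕ} [NeZero N] {ξ K Y δ : ℝ} {J : ℕ} (hξ : 1 ≤ ξ) (hK : 0 < K) (hY : 0 < Y)
    (hδ : 0 < δ) (hN : (N : ℝ) = K * ξ)
    (hξδ : (2 * Real.pi * J / K) ^ 4 / (6 * Y) / δ ≤ ξ)
    (k : ZMod N × ZMod N) (h1 : k.1.valMinAbs.natAbs ≤ J) (h2 : k.2.valMinAbs.natAbs ≤ J) :
    1 / (1 + ξ ^ 2 * EE k / Y) - δ ≤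
      1 / (1 + ((2 * Real.pi * (k.1.valMinAbs.natAbs : ℝ) / K) ^ 2 +
        (2 * Real.pi * (k.2.valMinAbs.natAbs : ℝ) / K) ^ 2) / Y) := by
  have hπ := Real.pi_pos
  have hξ0 : 0 < ξ := by linarith
  have key : ∀ j : ZMod N, pw j ^ 2 * ξ ^ 2 = (2 * Real.pi * (j.valMinAbs.natAbs : ℝ) / K) ^ 2 := by
    intro j
    have h4 : (j.valMinAbs.natAbs : ℝ) ^ 2 = (j.valMinAbs : ℝ) ^ 2 := by
      rw [Nat.cast_natAbs, Int.cast_abs, sq_abs]
    unfold pw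
    rw [hN, div_pow, mul_pow, div_pow, mul_pow, mul_pow (2 * Real.pi) (j.valMinAbs.natAbs : ℝ), h4]
    field_simp
  have key4 : ∀ j : ZMod N, j.valMinAbs.natAbs ≤ J → pw j ^ 4 * ξ ^ 2 ≤
      (2 * Real.pi * J / K) ^ 4 / ξ ^ 2 := by
    intro j hj
    have h5 : pw j ^ 4 * ξ ^ 2 = (2 * Real.pi * (j.valMinAbs.natAbs : ℝ) / K) ^ 4 / ξ ^ 2 := by
      rw [eq_div_iff (by positivity)]
      have : pw j ^ 4 * ξ ^ 2 * ξ ^ 2 = (pw j ^ 2 * ξ ^ 2) ^ 2 := by ring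
      rw [this, key]
      ring
    rw [h5]
    have h6 : (j.valMinAbs.natAbs : ℝ) ≤ J := by exact_mod_cast hj
    gcongr
  have hE := EE_ge' k
  have hE0 := H764.EE_nonneg k
  set A := ((2 * Real.pi * (k.1.valMinAbs.natAbs : ℝ) / K) ^ 2 +
        (2 * Real.pi * (k.2.valMinAbs.natAbs : ℝ) / K) ^ 2) / Y with hA
  set B := ξ ^ 2 * EE k / Y with hB
  have hB0 : 0 ≤ B := by positivity
  have hA0 : 0 ≤ A := by positivity
  have hAB : A - B ≤ δ := by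
    have h7 : A - B ≤ (pw k.1 ^ 4 * ξ ^ 2 + pw k.2 ^ 4 * ξ ^ 2) / 12 / Y := by
      rw [hA, hB, ← key, ← key, ← sub_div]
      refine div_le_div_of_nonneg_right ?_ hY.le
      have := mul_le_mul_of_nonneg_left hE (by positivity : 0 ≤ ξ ^ 2)
      nlinarith
    have h8 := key4 _ h1
    have h9 := key4 _ h2
    have h10 : (pw k.1 ^ 4 * ξ ^ 2 + pw k.2 ^ 4 * ξ ^ 2) / 12 / Y ≤
        (2 * Real.pi * J / K) ^ 4 / (6 * Y) / ξ ^ 2 := by
      have : (2 * Real.pi * J / K) ^ 4 / (6 * Y) / ξ ^ 2 =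
          ((2 * Real.pi * J / K) ^ 4 / ξ ^ 2 + (2 * Real.pi * J / K) ^ 4 / ξ ^ 2) / 12 / Y := by
        field_simp
        ring
      rw [this]
      gcongr
    refine h7.trans (h10.trans ?_)
    rw [div_le_iff₀ (by positivity)]
    rw [div_le_iff₀ hδ] at hξδ
    have h13 : ξ ≤ ξ ^ 2 := by nlinarith
    have := mul_le_mul_of_nonneg_right h13 hδ.le
    linarith
  have h11 : 1 / (1 + B) - 1 / (1 + A) = (A - B) / ((1 + B) * (1 + A)) := by
    field_simp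
    ring
  have h12 : (A - B) / ((1 + B) * (1 + A)) ≤ δ := by
    rw [div_le_iff₀ (by positivity)]
    have : 1 ≤ (1 + B) * (1 + A) := by nlinarith
    nlinarith
  linarith

/-- **(ST5)** -/
theorem start_win {b : ℝ} (hb : 0 < b) (hY : 2 / Real.pi ≤ helicity b) :
    ∃ c C : ℝ, 0 < c ∧ 0 < C ∧ ∀ i₁ : ℕ, 3 ≤ i₁ → ∀ δ : ℝ, 0 < δ → ∃ m₀ : ℕ, ∀ m : ℕ, m₀ ≤ m →
      ∀ k : ZMod (2 ^ (i₁ + m)) × ZMod (2 ^ (i₁ + m)),
        (1 / (1 + ((2 ^ m : ℕ) : ℝ) ^ 2 * EE k / helicity b) - C * Real.exp (-(c * 2 ^ i₁)) - δ) *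
          ((2 ^ m : ℕ) : ℝ) ^ 2 ≤ Gh (G b (2 ^ (i₁ + m)) ((2 ^ m : ℕ) : ℝ)) k := by
  have hπ := Real.pi_pos
  have hπ4 := Real.pi_lt_four
  have hY0 : 0 < helicity b := (by positivity : (0 : ℝ) < 2 / Real.pi).trans_le hY
  have haY : 1 / helicity b < 2 := by
    rw [div_lt_iff₀ hY0]
    rw [div_le_iff₀ hπ] at hY
    nlinarith
  obtain ⟨W₀, hTA⟩ := H352.thmA hb b 2
  obtain ⟨c, C, ys, X, hc, hC, hys, hX, hTA⟩ := hTA W₀ le_rfl
  obtain ⟨C2, c2, hC2, hc2, i₀, hw⟩ := win2 hb hY0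
  set Y := helicity b with hYd
  have hK2 := H265.K2_pos (C := C) hc
  refine ⟨c / 32, 2 * (√C * Real.exp c * (8 / c) + H265.K2 c C), by positivity, by positivity,
    fun i₁ hi₁ δ hδ => ?_⟩
  set C3 : ℝ := 2 * (1 + 2 * (2 + 80 * 2) * (1 + 2 / c)) with hC3
  have hC30 : 0 < C3 := by positivity
  have h2i : (0 : ℝ) < 2 ^ i₁ := by positivity
  obtain ⟨y, hy, hyc, hyK, hyys, hyδ⟩ : ∃ y : ℝ, 0 < y ∧ y ≤ c ∧ y ≤ 2 * c / 2 ^ i₁ ∧ y ≤ ys ∧
      y ≤ δ / (4 * C3) := by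
    refine ⟨min (min c (2 * c / 2 ^ i₁)) (min ys (δ / (4 * C3))), ?_, ?_, ?_, ?_, ?_⟩
    · refine lt_min (lt_min hc (by positivity)) (lt_min hys (by positivity))
    · exact (min_le_left _ _).trans (min_le_left _ _)
    · exact (min_le_left _ _).trans (min_le_right _ _)
    · exact (min_le_right _ _).trans (min_le_left _ _)
    · exact (min_le_right _ _).trans (min_le_right _ _)
  obtain ⟨J, hJ0, hJ⟩ : ∃ J : ℕ, 0 < J ∧ (2 ^ i₁ : ℝ) ^ 2 * Y / (16 * δ) ≤ (J : ℝ) ^ 2 := by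
    obtain ⟨J, hJ⟩ := exists_nat_ge ((2 ^ i₁ : ℝ) ^ 2 * Y / (16 * δ) + 1)
    have hJ1 : (1 : ℝ) ≤ J := by
      have : 0 ≤ (2 ^ i₁ : ℝ) ^ 2 * Y / (16 * δ) := by positivity
      linarith
    refine ⟨J, by exact_mod_cast (by linarith : (0 : ℝ) < J), ?_⟩
    nlinarith
  -- the rate
  have hlim : Filter.Tendsto (fun i : ℕ => C2 * (2 : ℝ) ^ (-(c2 * i))) Filter.atTop (nhds 0) := by
    have h1 : Filter.Tendsto (fun i : ℕ => ((2 : ℝ) ^ (-c2)) ^ i) Filter.atTop (nhds 0) := by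
      refine tendsto_pow_atTop_nhds_zero_of_lt_one (by positivity) ?_
      exact Real.rpow_lt_one_of_one_lt_of_neg (by norm_num) (by linarith)
    have h2 := h1.const_mul C2
    rw [mul_zero] at h2
    refine h2.congr fun i => ?_
    rw [← Real.rpow_natCast, ← Real.rpow_mul (by norm_num)]
    ring_nf
  obtain ⟨i₂, hi₂⟩ := Filter.eventually_atTop.1
    (hlim.eventually (gt_mem_nhds (show (0 : ℝ) < δ / 8 by positivity)))
  obtain ⟨i₃, hi₃⟩ := hyp_big hb hY0 haY (by norm_num) W₀ hy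
  set i : ℕ := max (max i₀ i₂) (max i₃ (i₁ + X)) with hi
  have hii0 : i₀ ≤ i := (le_max_left _ _).trans (le_max_left _ _)
  have hii2 : i₂ ≤ i := (le_max_right _ _).trans (le_max_left _ _)
  have hii3 : i₃ ≤ i := (le_max_left _ _).trans (le_max_right _ _)
  have hii1 : i₁ + X ≤ i := (le_max_right _ _).trans (le_max_right _ _)
  have hrate := hi₂ i hii2
  obtain ⟨k₁, hk₁, hH⟩ := hi₃ i hii3
  clear_value i
  -- thresholds of the modes
  have hw' : ∀ j : ℕ × ℕ, ∃ k₀ : ℕ, j ≠ (0, 0) → ∀ k : ℕ, k₀ ≤ k →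
      (1 / (1 + ((2 * Real.pi * ((j.1 * 2 ^ (i - i₁) : ℕ) : ℝ) / 2 ^ i) ^ 2 +
        (2 * Real.pi * ((j.2 * 2 ^ (i - i₁) : ℕ) : ℝ) / 2 ^ i) ^ 2) / Y) -
        C2 * (2 : ℝ) ^ (-(c2 * i)) - δ / 8) / SpecI.epsK (2 ^ i) k ≤
        Ghat2 b (2 ^ i) k (j.1 * 2 ^ (i - i₁)) (j.2 * 2 ^ (i - i₁)) := by
    intro j
    by_cases hj : j = (0, 0)
    · exact ⟨0, fun h => absurd hj h⟩
    · obtain ⟨k₀, hk₀⟩ := hw i hii0 (j.1 * 2 ^ (i - i₁)) (j.2 * 2 ^ (i - i₁)) (by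
        intro h
        apply hj
        have e1 := congrArg Prod.fst h
        have e2 := congrArg Prod.snd h
        simp only at e1 e2
        have h2p : 0 < 2 ^ (i - i₁) := by positivity
        ext
        · exact (Nat.mul_eq_zero.1 e1).resolve_right h2p.ne'
        · exact (Nat.mul_eq_zero.1 e2).resolve_right h2p.ne') (δ / 8) (by positivity)
      exact ⟨k₀, fun _ => hk₀⟩
  choose kj hkj using hw'
  obtain ⟨m₃, hm₃⟩ := pow_unbounded_of_one_lt ((2 * Real.pi * J / 2 ^ i₁) ^ 4 / (6 * Y) / (δ / 8))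
    (one_lt_two (α := ℝ))
  refine ⟨max (max k₁ X) (max m₃ (∑ j ∈ range (J + 1) ×ˢ range (J + 1), kj j)), fun m hm k => ?_⟩
  have hmk1 : k₁ ≤ m := ((le_max_left _ _).trans (le_max_left _ _)).trans hm
  have hmX : X ≤ m := ((le_max_right _ _).trans (le_max_left _ _)).trans hm
  have hm3 : m₃ ≤ m := ((le_max_left _ _).trans (le_max_right _ _)).trans hm
  have hms : ∑ j ∈ range (J + 1) ×ˢ range (J + 1), kj j ≤ m :=
    ((le_max_right _ _).trans (le_max_right _ _)).trans hm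
  have hii1' : i₁ ≤ i := (Nat.le_add_right _ _).trans hii1
  have hmi : m + i - i = m := Nat.add_sub_cancel _ _
  have hXm : X ≤ 2 ^ m := hmX.trans Nat.lt_two_pow_self.le
  have hXi : X ≤ 2 ^ i := ((Nat.le_add_left _ _).trans hii1).trans Nat.lt_two_pow_self.le
  have hξ1 : 1 ≤ 2 ^ m := Nat.one_le_two_pow
  have hHy := hH (m + i) (hmk1.trans (Nat.le_add_right _ _))
  rw [hmi] at hHy
  set ξ : ℝ := ((2 ^ m : ℕ) : ℝ) with hξd
  have hξ2 : ξ = 2 ^ m := by rw [hξd]; push_cast; rfl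
  have hξp : 0 < ξ := by rw [hξ2]; positivity
  have hξ1' : 1 ≤ ξ := by rw [hξd]; exact_mod_cast hξ1
  have hHA : H265.HA (2 ^ (m + i)) b (2 ^ m) hb.le y c C := fun x0 n hn =>
    (hTA (2 ^ (m + i)) b hb.le (2 ^ m) y ⟨le_rfl, le_rfl, hXm,
      (Nat.mul_le_mul_right _ hXi).trans (le_of_eq (by rw [pow_add, mul_comm])),
      pow_dvd_pow 2 (Nat.le_add_right _ _), hy.le, hyys,
      hHy.mono (by norm_num) (by norm_num) hξp.le le_rfl le_rfl⟩ x0 n hn).1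
  have h8 : 8 ≤ 2 ^ i₁ := by
    calc 8 = 2 ^ 3 := by norm_num
      _ ≤ 2 ^ i₁ := Nat.pow_le_pow_right (by norm_num) hi₁
  have hnear := near_tori (N := 2 ^ (m + i)) (M := 2 ^ (i₁ + m)) hb.le hξ1 hc hC.le hy hyc hHA
    (a := 2) (by norm_num) hHy.qu.qk (K := 2 ^ i₁) h8
    (by rw [← pow_add]; exact Nat.pow_le_pow_right (by norm_num) (by omega))
    (le_of_eq (by rw [pow_add])) (by
      push_cast
      rw [le_div_iff₀ h2i] at hyK
      linarith)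
  set e : ℝ := y + √C * ((2 ^ i₁ : ℕ) : ℝ) * Real.exp c * Real.exp (-(c * ((2 ^ i₁ : ℕ) : ℝ) / 4)) +
    (H265.K2 c C * Real.exp (-(c * ((2 ^ i₁ : ℕ) : ℝ) / 32)) + 2 * (2 + 80 * 2) * (1 + 2 / c) * y)
    with he
  have he2 : 2 * e ≤ 2 * (√C * Real.exp c * (8 / c) + H265.K2 c C) *
      Real.exp (-(c / 32 * 2 ^ i₁)) + δ / 4 := by
    have h1 : ((2 ^ i₁ : ℕ) : ℝ) = 2 ^ i₁ := by push_cast; rfl
    rw [he, h1]
    have h2 : (2 : ℝ) ^ i₁ * Real.exp (-(c * 2 ^ i₁ / 4)) ≤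
        8 / c * Real.exp (-(c / 32 * 2 ^ i₁)) := by
      have h3 : c * 2 ^ i₁ / 8 ≤ Real.exp (c * 2 ^ i₁ / 8) := by
        have := Real.add_one_le_exp (c * 2 ^ i₁ / 8)
        linarith
      have h4 : (2 : ℝ) ^ i₁ ≤ 8 / c * Real.exp (c * 2 ^ i₁ / 8) := by
        have h5 := mul_le_mul_of_nonneg_left h3 (by positivity : (0 : ℝ) ≤ 8 / c)
        have h6 : 8 / c * (c * 2 ^ i₁ / 8) = 2 ^ i₁ := by field_simp
        rw [h6] at h5
        exact h5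
      calc (2 : ℝ) ^ i₁ * Real.exp (-(c * 2 ^ i₁ / 4))
          ≤ 8 / c * Real.exp (c * 2 ^ i₁ / 8) * Real.exp (-(c * 2 ^ i₁ / 4)) :=
            mul_le_mul_of_nonneg_right h4 (Real.exp_pos _).le
        _ = 8 / c * Real.exp (-(c * 2 ^ i₁ / 8)) := by
            rw [mul_assoc, ← Real.exp_add]
            congr 2
            ring
        _ ≤ 8 / c * Real.exp (-(c / 32 * 2 ^ i₁)) := by
            refine mul_le_mul_of_nonneg_left (Real.exp_le_exp.2 ?_) (by positivity)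
            have : 0 < c * 2 ^ i₁ := by positivity
            linarith
    have h7 : √C * 2 ^ i₁ * Real.exp c * Real.exp (-(c * 2 ^ i₁ / 4)) ≤
        √C * Real.exp c * (8 / c) * Real.exp (-(c / 32 * 2 ^ i₁)) := by
      have h9 := mul_le_mul_of_nonneg_left h2 (by positivity : 0 ≤ √C * Real.exp c)
      have e1 : √C * 2 ^ i₁ * Real.exp c * Real.exp (-(c * 2 ^ i₁ / 4)) =
          √C * Real.exp c * (2 ^ i₁ * Real.exp (-(c * 2 ^ i₁ / 4))) := by ring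
      have e2 : √C * Real.exp c * (8 / c) * Real.exp (-(c / 32 * 2 ^ i₁)) =
          √C * Real.exp c * (8 / c * Real.exp (-(c / 32 * 2 ^ i₁))) := by ring
      rw [e1, e2]
      exact h9
    have h10 : Real.exp (-(c * 2 ^ i₁ / 32)) = Real.exp (-(c / 32 * 2 ^ i₁)) := by
      congr 1
      ring
    rw [h10]
    have h11 : C3 * y ≤ δ / 4 := by
      rw [le_div_iff₀ (by positivity)] at hyδ
      linarith
    have h12 : C3 * y = 2 * y + 2 * (2 * (2 + 80 * 2) * (1 + 2 / c) * y) := by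
      rw [hC3]
      ring
    nlinarith [h7, h11, h12]
  clear_value e
  set E0 : ℝ := 2 * (√C * Real.exp c * (8 / c) + H265.K2 c C) *
      Real.exp (-(c / 32 * 2 ^ i₁)) with hE0
  have hE00 : 0 ≤ E0 := by positivity
  have hNr : (((2 ^ (i₁ + m) : ℕ)) : ℝ) = 2 ^ i₁ * ξ := by
    rw [hξ2]
    push_cast
    rw [pow_add]
  have hGh0 : 0 ≤ Gh (G b (2 ^ (i₁ + m)) ξ) k := H41.Gh_nonneg hb.le hξp k
  have hξξ : 0 < ξ ^ 2 := by positivity
  -- high modes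
  by_cases hhigh : J < k.1.valMinAbs.natAbs ∨ J < k.2.valMinAbs.natAbs
  · have h1 := high_mode hξp h2i hY0 hδ hNr hJ0 hJ k hhigh
    refine le_trans ?_ hGh0
    have : 1 / (1 + ξ ^ 2 * EE k / Y) - E0 - δ ≤ 0 := by linarith
    exact mul_nonpos_of_nonpos_of_nonneg this hξξ.le
  push Not at hhigh
  obtain ⟨hJ1, hJ2⟩ := hhigh
  have hlow := low_mode (δ := δ / 8) hξ1' h2i hY0 (by positivity) hNr (by
    rw [hξ2]
    exact hm₃.le.trans (pow_le_pow_right₀ (by norm_num) hm3)) k hJ1 hJ2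
  -- the transform on the big torus
  have hTT := hnear.TT_ge (pw k.1) (pw k.2)
  rw [← H705.Gh_TT] at hTT
  have hpw : ∀ j : ZMod (2 ^ (i₁ + m)), pw j =
      2 * Real.pi * ((j.valMinAbs * 2 ^ (i - i₁) : ℤ) : ℝ) / ((2 ^ (m + i) : ℕ) : ℝ) := by
    intro j
    unfold pw
    push_cast
    rw [div_eq_div_iff (by positivity) (by positivity)]
    have h1 : (2 : ℝ) ^ (m + i) = 2 ^ (i - i₁) * 2 ^ (i₁ + m) := by
      rw [← pow_add]
      congr 1
      omega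
    rw [h1]
    ring
  have hbig : TT (G b (2 ^ (m + i)) ξ) (pw k.1) (pw k.2) =
      Gh (G b (2 ^ (m + i)) ξ) (((k.1.valMinAbs.natAbs * 2 ^ (i - i₁) : ℕ) : ZMod (2 ^ (m + i))),
        ((k.2.valMinAbs.natAbs * 2 ^ (i - i₁) : ℕ) : ZMod (2 ^ (m + i)))) := by
    rw [hpw, hpw, TT_int, Gh_abs]
    have h1 : ∀ z : ℤ, (z * 2 ^ (i - i₁)).natAbs = z.natAbs * 2 ^ (i - i₁) := by
      intro z
      rw [Int.natAbs_mul, Int.natAbs_pow]
      rfl
    rw [h1, h1]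
  rw [hbig] at hTT
  set j₁ := k.1.valMinAbs.natAbs with hj1
  set j₂ := k.2.valMinAbs.natAbs with hj2
  have hB1 : 1 / (1 + ξ ^ 2 * EE k / Y) ≤ 1 := by
    have := H764.EE_nonneg k
    rw [div_le_one (by positivity)]
    have : 0 ≤ ξ ^ 2 * EE k / Y := by positivity
    linarith
  have hyδ' : y ≤ δ / 4 := by
    refine hyδ.trans ?_
    have h1 : 1 ≤ C3 := by
      rw [hC3]
      have : 0 ≤ 2 * (2 + 80 * 2 : ℝ) * (1 + 2 / c) := by positivity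
      linarith
    have h2 : δ / (4 * C3) ≤ δ / (4 * 1) := by gcongr
    linarith
  by_cases h0 : (j₁, j₂) = (0, 0)
  · have e1 : j₁ = 0 := congrArg Prod.fst h0
    have e2 : j₂ = 0 := congrArg Prod.snd h0
    rw [e1, e2, zero_mul] at hTT
    have h1 := hHy.qu.qk.zero
    have h2 : (((0 : ℕ) : ZMod (2 ^ (m + i))), ((0 : ℕ) : ZMod (2 ^ (m + i)))) = 0 := by
      simp
    rw [h2] at hTT
    have h3 : (1 / (1 + ξ ^ 2 * EE k / Y) - E0 - δ) * ξ ^ 2 ≤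
        (1 - y) * ξ ^ 2 - 2 * e * ξ ^ 2 := by
      rw [← sub_mul]
      refine mul_le_mul_of_nonneg_right ?_ hξξ.le
      linarith
    linarith
  · have hjm : (j₁, j₂) ∈ range (J + 1) ×ˢ range (J + 1) :=
      mem_product.2 ⟨mem_range.2 (by simp only; omega), mem_range.2 (by simp only; omega)⟩
    have hkk : kj (j₁, j₂) ≤ m + i :=
      ((Finset.single_le_sum (f := kj) (fun _ _ => Nat.zero_le _) hjm).trans hms).trans
        (Nat.le_add_right _ _)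
    have h1 := hkj (j₁, j₂) h0 (m + i) hkk
    rw [Ghat2_eq b (Nat.le_add_left _ _), hmi, ← hξd] at h1
    simp only at h1
    have h2 : ∀ j : ℕ, 2 * Real.pi * ((j * 2 ^ (i - i₁) : ℕ) : ℝ) / 2 ^ i =
        2 * Real.pi * (j : ℝ) / 2 ^ i₁ := by
      intro j
      push_cast
      rw [div_eq_div_iff (by positivity) (by positivity)]
      have h3 : (2 : ℝ) ^ i = 2 ^ (i - i₁) * 2 ^ i₁ := by
        rw [← pow_add]
        congr 1
        omega
      rw [h3]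
      ring
    rw [h2, h2] at h1
    have heps : SpecI.epsK (2 ^ i) (m + i) = 1 / ξ ^ 2 := by
      rw [H41.epsK_eq (Nat.le_add_left _ _), hmi]
    rw [heps, div_div_eq_mul_div, div_one] at h1
    have h4 : (1 / (1 + ξ ^ 2 * EE k / Y) - E0 - δ) * ξ ^ 2 ≤
        (1 / (1 + ((2 * Real.pi * (j₁ : ℝ) / 2 ^ i₁) ^ 2 + (2 * Real.pi * (j₂ : ℝ) / 2 ^ i₁) ^ 2) /
          Y) - C2 * (2 : ℝ) ^ (-(c2 * i)) - δ / 8) * ξ ^ 2 - 2 * e * ξ ^ 2 := by
      rw [← sub_mul]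
      refine mul_le_mul_of_nonneg_right ?_ hξξ.le
      linarith
    linarith

end

end Vale.Agent.P159.H197
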