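import Vale.Agent.P159.H816.Zs3

/-!
P159 / module TYPS (helper197), part 1: zero source probability of the class of sources, **prior
mass `a` at ALL modes** (`nMC N l b a a`), cell channel `obsN N l (t - a)`, every `0 < a < t`.
Follows helper816 (Zs0, Zs2, Zs3), where the fine mass of the prior is `t`.
-/

set_option linter.unusedSectionVars false

namespace Vale.Agent.P159.H197

open Finset Matrix MeasureTheory ProbabilityTheory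
open Vale.Agent.P159.TM.H104 (EM Ex Gr)
open Vale.Agent.P159.TM.Spec (V)
open Vale.Agent.P159.TM.H459 (sd bk bk1)
open Vale.Agent.P159.H37
open Vale.Agent.P159.H864
open Vale.Agent.P159.H859 (dB)
open Vale.Agent.P159.H239 (indh)
open Vale.Agent.P159.H963 (Neu nMC obsN Pn)
open Vale.Agent.P159.H663
open Vale.Agent.P159.H816
open Vale.Agent.P159.H896 (Gam0 Gam0_nonneg tailF tailF_blk tailF_mean tailF_ball tailF_all)
open Vale.Agent.P159.H972 (AP tn)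

noncomputable section

section one

variable {N l : ℕ} [NeZero N] [NeZero (N / l)] {b t s : ℝ} {W : Type*} [Fintype W]

/-- **one condition of the cell channel, source zero, prior mass `s` at all modes** -/
theorem gs0 (hb : 0 ≤ b) (hl : l ∣ N) (hs : 0 < s) (h : s ≤ t) (x₀ : V N)
    {F : Matrix W (V (N / l)) ℝ} (hF : ∀ w, Neu (F w)) {C : Set (W → ℝ)}
    (hCm : MeasurableSet C) (hC : Convex ℝ C) (h0 : (0 : W → ℝ) ∈ C)
    {ρ : ℝ} (hball : ∀ v : V (N / l) → ℝ, ∑ w, (F *ᵥ v) w ^ 2 ≤ ρ → (3 : ℝ) • (F *ᵥ v) ∈ C)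
    {π ν : ℝ}
    (hπ : Ex (nMC N l b s s x₀) 0 (indh {h | ρ < ∑ w, ((((t - s) • (F * cobV N l)) *ᵥ
      re h) w) ^ 2}) ≤ π)
    (hν : ∫ g : V (N / l) → ℝ, Set.indicator {g : V (N / l) → ℝ |
      (3 : ℝ) • (√(t - s) • (F *ᵥ g)) ∉ C} (fun _ => (1 : ℝ)) g ∂(gau (V (N / l))) ≤ ν) :
    Ech (nMC N l b s s x₀) 0 (obsN N l (t - s)) (ind {J | (F * cobV N l) *ᵥ J ∉ C}) ≤
      π + ν := by
  have hE := H963.em_nMC (N := N) hb hl hs le_rfl x₀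
  refine one_split hE 0 (obsN N l (t - s)) (F * cobV N l) hCm hC 0 ?_ ?_ ?_
  · rw [mulVec_zero, mulVec_zero, add_zero, mulVec_zero, smul_zero]
    exact h0
  · refine le_trans (TM.H104.Ex_mono hE (H239.Gr.indh _) (H239.Gr.indh _) (fun h' => ?_) 0) hπ
    by_cases hh : h' ∈ {h : V N → ℤ | ρ < ∑ w, ((((t - s) • (F * cobV N l)) *ᵥ re h) w) ^ 2}
    · rw [H239.indh_of_mem hh]
      exact H239.indh_le_one _ _
    · have h2 : ∑ w, ((((t - s) • (F * cobV N l)) *ᵥ re h') w) ^ 2 ≤ ρ := not_lt.1 hh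
      have h3 : ((t - s) • (F * cobV N l)) *ᵥ re h' =
          F *ᵥ ((t - s) • (cobV N l *ᵥ re h')) := by
        rw [smul_mulVec, mulVec_smul, mulVec_mulVec]
      rw [h3] at h2
      have h4 := hball _ h2
      rw [← h3, ← cond_field hl h hF] at h4
      have h5 : indh {h : V N → ℤ | (3 : ℝ) • ((F * cobV N l) *ᵥ ((obsN N l (t - s))ᵀ *ᵥ
          (obsN N l (t - s) *ᵥ (re h - 0)))) ∉ C} h' = 0 := by
        refine Set.indicator_of_notMem ?_ _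
        simp only [sub_zero]
        exact fun hc => hc h4
      rw [h5]
      exact H239.indh_nonneg _ _
  · simp only [cond_noise hl hF]
    exact hν

/-- **ball condition at the zero source** -/
theorem ts_ball (hb : 0 ≤ b) (hl : l ∣ N) (hs : 0 < s) (h : s < t) (x₀ : V N)
    {F : Matrix W (V (N / l)) ℝ} (hF : ∀ w, Neu (F w)) {k₁ r₁ : ℝ} (hk₁ : 0 < k₁)
    (h1 : ∀ φ : W → ℝ, ∑ i, (Fᵀ *ᵥ φ) i ^ 2 ≤ k₁ * ∑ i, φ i ^ 2) (hr₁ : (F * Fᵀ).trace ≤ r₁)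
    {u : ℝ} (hu : 0 ≤ u) {π : ℝ}
    (hπ : Ex (nMC N l b s s x₀) 0 (indh {h | u / 9 < ∑ w, ((((t - s) • (F * cobV N l)) *ᵥ
      re h) w) ^ 2}) ≤ π) :
    Ech (nMC N l b s s x₀) 0 (obsN N l (t - s))
      (ind {J | u < ∑ w, ((F * cobV N l) *ᵥ J) w ^ 2}) ≤
      π + Real.exp (r₁ / (2 * k₁) - u / (36 * (t - s) * k₁)) := by
  have hc : 0 < t - s := sub_pos.2 h
  have hsq : ∀ v : W → ℝ, ∑ w, ((3 : ℝ) • v) w ^ 2 = 9 * ∑ w, v w ^ 2 := by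
    intro v
    rw [Finset.mul_sum]
    refine Finset.sum_congr rfl fun w _ => ?_
    rw [Pi.smul_apply, smul_eq_mul]
    ring
  have hmain := gs0 hb hl hs h.le x₀ hF (measurableSet_ball u) (convex_ball u)
    (by
      rw [Set.mem_ofPred_eq]
      simpa using hu) (ρ := u / 9) (fun v hv => by
      rw [Set.mem_ofPred_eq, hsq]
      linarith) (π := π) hπ
      (ball_noise hk₁ h1 hr₁ hc (u := u))
  have e : {J : V N → ℝ | (F * cobV N l) *ᵥ J ∉ {v : W → ℝ | ∑ w, v w ^ 2 ≤ u}} =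
      {J | u < ∑ w, ((F * cobV N l) *ᵥ J) w ^ 2} := by
    ext J
    simp only [Set.mem_ofPred_eq, not_le]
  rwa [e] at hmain

/-- **block condition (S1) at the zero source** -/
theorem ts_rs (hb : 0 ≤ b) (hl : l ∣ N) (hs : 0 < s) (h : s < t) (x₀ : V N)
    {q : ℕ} (hq : q ∣ N / l) (B : Finset (V (N / l)))
    {T : Matrix (V (N / l)) (V (N / l)) ℝ} (hT : TC T)
    {t₀ : ℝ} (ht₀ : 0 < t₀) {X Q₁ δ : ℝ} (hX : 0 < X) (hQ : 0 < Q₁) (hδ : 0 ≤ δ)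
    (hAP : (gau (V (N / l))).real {g | δ < rsC N l b t₀ ((X * √t₀) • (dB B *ᵥ g))} ≤ 1 / 30)
    (ha : 9 * Q₁ ^ 2 * (t - s) ≤ X ^ 2 * t₀) {π : ℝ}
    (hπ : Ex (nMC N l b s s x₀) 0 (indh {h | X ^ 2 * t₀ / (12 * Q₁ ^ 2) <
      ∑ w, ((((t - s) • (bE B q T * cobV N l)) *ᵥ re h) w) ^ 2}) ≤ π) :
    Ech (nMC N l b s s x₀) 0 (obsN N l (t - s))
      (ind {J | δ < rsC N l b t₀ (Q₁ • ((bE B q T * cobV N l) *ᵥ J))}) ≤
      π + 2 * Real.exp (-(X ^ 2 * t₀ / (63 * Q₁ ^ 2 * (t - s)))) := by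
  have hc : 0 < t - s := sub_pos.2 h
  have hν := cRs_noise (N := N) (l := l) hb ht₀ hX hQ hq B hT hAP hc ha
  have hmain := gs0 hb hl hs h.le x₀ (bE_neu hq B hT) (cRs_meas hb ht₀ Q₁ δ)
    (cRs_convex hb ht₀ Q₁ δ) (by
      show rsC N l b t₀ _ ≤ δ
      rw [smul_zero]
      unfold rsC
      rw [mulVec_zero, H789.Rs_zero]
      exact hδ)
    (ρ := X ^ 2 * t₀ / (12 * Q₁ ^ 2))
    (fun v hv => cRs_ball hb ht₀ hX hQ B hAP (bE_supp B q T v) hv)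
    (π := π) hπ hν
  have e1 : {J : V N → ℝ | (bE B q T * cobV N l) *ᵥ J ∉ cRs N l b t₀ Q₁ δ} =
      {J | δ < rsC N l b t₀ (Q₁ • ((bE B q T * cobV N l) *ᵥ J))} := by
    ext J
    show ¬ (rsC N l b t₀ (Q₁ • ((bE B q T * cobV N l) *ᵥ J)) ≤ δ) ↔ _
    exact not_le
  rwa [e1] at hmain

end one

section zs

variable {N l : ℕ} [NeZero N] [NeZero (N / l)] {b t s : ℝ} {ι₁ ι₂ : Type*}
  [Fintype ι₁] [Fintype ι₂]

/-- **zero source probability of the complement of the class** (663's letters), every prior -/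
theorem ts_cls (hb : 0 ≤ b) (hl : l ∣ N) (hs : 0 < s) (h : s < t) (x₀ : V N)
    {q : ℕ} (hq : q ∣ N / l) (Bl : ι₁ → Finset (V (N / l)))
    {T : Matrix (V (N / l)) (V (N / l)) ℝ} (hT : TC T)
    {t₀ : ℝ} (ht₀ : 0 < t₀) {X Q₁ δ : ℝ} (hX : 0 < X) (hQ : 0 < Q₁) (hδ : 0 ≤ δ)
    (hAP : ∀ i, (gau (V (N / l))).real
      {g | δ < rsC N l b t₀ ((X * √t₀) • (dB (Bl i) *ᵥ g))} ≤ 1 / 30)
    (ha : 9 * Q₁ ^ 2 * (t - s) ≤ X ^ 2 * t₀) {π₁ : ι₁ → ℝ}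
    (hπ₁ : ∀ i, Ex (nMC N l b s s x₀) 0 (indh {h | X ^ 2 * t₀ / (12 * Q₁ ^ 2) <
      ∑ w, ((((t - s) • (bE (Bl i) q T * cobV N l)) *ᵥ re h) w) ^ 2}) ≤ π₁ i)
    (F : ι₂ → Matrix (V (N / l)) (V (N / l)) ℝ) (hF : ∀ j w, Neu (F j w)) {k r u : ι₂ → ℝ}
    (hk : ∀ j, 0 < k j) (hFk : ∀ j, ∀ φ : V (N / l) → ℝ,
      ∑ i, ((F j)ᵀ *ᵥ φ) i ^ 2 ≤ k j * ∑ i, φ i ^ 2)
    (hFr : ∀ j, (F j * (F j)ᵀ).trace ≤ r j) (hu : ∀ j, 0 ≤ u j) {π₂ : ι₂ → ℝ}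
    (hπ₂ : ∀ j, Ex (nMC N l b s s x₀) 0 (indh {h | u j / 9 <
      ∑ w, ((((t - s) • (F j * cobV N l)) *ᵥ re h) w) ^ 2}) ≤ π₂ j) :
    Ech (nMC N l b s s x₀) 0 (obsN N l (t - s)) (ind (cls N l b t₀ Q₁ δ q T Bl F u)ᶜ) ≤
      ∑ i, (π₁ i + 2 * Real.exp (-(X ^ 2 * t₀ / (63 * Q₁ ^ 2 * (t - s))))) +
        ∑ j, (π₂ j + Real.exp (r j / (2 * k j) - u j / (36 * (t - s) * k j))) := by
  have hE := H963.em_nMC (N := N) hb hl hs le_rfl x₀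
  have hc : 0 < t - s := sub_pos.2 h
  -- the range condition holds almost surely
  have h1 : Ech (nMC N l b s s x₀) 0 (obsN N l (t - s))
      (ind (cls N l b t₀ Q₁ δ q T Bl F u)ᶜ) =
      Ech (nMC N l b s s x₀) 0 (obsN N l (t - s))
      (ind (cls0 N l b t₀ Q₁ δ q T Bl F u)ᶜ) := by
    unfold H37.Ech
    congr 2
    funext g
    congr 1
    have h2 := range_src (N := N) (l := l) hl (t - s) (e := 0) (by simp [H963.Neu]) g
    rw [mulVec_zero, zero_add] at h2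
    rw [zero_add]
    by_cases h3 : (obsN N l (t - s))ᵀ *ᵥ g ∈ cls0 N l b t₀ Q₁ δ q T Bl F u
    · have h4 : (obsN N l (t - s))ᵀ *ᵥ g ∈ cls N l b t₀ Q₁ δ q T Bl F u := ⟨h2, h3⟩
      have h5 : (obsN N l (t - s))ᵀ *ᵥ g ∉ (cls N l b t₀ Q₁ δ q T Bl F u)ᶜ := fun hh => hh h4
      have h6 : (obsN N l (t - s))ᵀ *ᵥ g ∉ (cls0 N l b t₀ Q₁ δ q T Bl F u)ᶜ := fun hh => hh h3
      unfold H663.ind
      rw [Set.indicator_of_notMem h5, Set.indicator_of_notMem h6]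
    · have h4 : (obsN N l (t - s))ᵀ *ᵥ g ∉ cls N l b t₀ Q₁ δ q T Bl F u := fun hh => h3 hh.2
      unfold H663.ind
      rw [Set.indicator_of_mem (show _ ∈ (cls N l b t₀ Q₁ δ q T Bl F u)ᶜ from h4),
        Set.indicator_of_mem (show _ ∈ (cls0 N l b t₀ Q₁ δ q T Bl F u)ᶜ from h3)]
  rw [h1]
  -- union bound
  set BB : ι₁ ⊕ ι₂ → Set (V N → ℝ) :=
    Sum.elim (fun i => bad₁ N l b t₀ Q₁ δ q T (Bl i)) (fun j => bad₂ N l (F j) (u j)) with hBB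
  have hBm : ∀ a, MeasurableSet (BB a) := by
    rintro (i | j)
    · exact bad₁_meas hb ht₀ _ _ _ _ _
    · exact bad₂_meas _ _
  have h2 := Ech_union hE 0 (obsN N l (t - s)) Finset.univ hBm
    (cls0_meas hb ht₀ Q₁ δ q T Bl F u).compl (fun J hJ => by
      by_contra hc2
      refine hJ ⟨fun i => ?_, fun j => ?_⟩
      · by_contra h3
        refine hc2 ⟨Sum.inl i, Finset.mem_univ _, ?_⟩
        show δ < rsC N l b t₀ (Q₁ • ((bE (Bl i) q T * cobV N l) *ᵥ J))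
        rw [← mulVec_mulVec]
        exact not_le.1 h3
      · by_contra h3
        refine hc2 ⟨Sum.inr j, Finset.mem_univ _, ?_⟩
        show u j < ∑ w, ((F j * cobV N l) *ᵥ J) w ^ 2
        rw [← mulVec_mulVec]
        exact not_le.1 h3)
  refine h2.trans ?_
  rw [Fintype.sum_sum_type]
  refine add_le_add (Finset.sum_le_sum fun i _ => ?_) (Finset.sum_le_sum fun j _ => ?_)
  · exact ts_rs hb hl hs h x₀ hq (Bl i) hT ht₀ hX hQ hδ (hAP i) ha (hπ₁ i)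
  · exact ts_ball hb hl hs h x₀ (hF j) (hk j) (hFk j) (hFr j) (hu j) (hπ₂ j)

end zs

section parts

variable {b : ℝ} {n r s : ℕ} [NeZero (2 ^ r / 2 ^ s)] {t a X Q₁ L u w Λ Y : ℝ}
  {T W₃ : Matrix (V (2 ^ r / 2 ^ s)) (V (2 ^ r / 2 ^ s)) ℝ}

/-- (S1) -/
theorem ts_blk (hb : 0 ≤ b) (hsn : s ≤ n) (hnr : n ≤ r) (ht1 : tn n ≤ t)
    (ht4 : t ≤ 4 * tn n) (ha : 0 < a) (hat : a < t) (hT : TC T) (x₀ : V (2 ^ r))
    (hQ1 : 1 ≤ Q₁) (hX : 0 < X) (hY : 0 ≤ Y)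
    (hX2 : Cz b * Q₁ ^ 2 * (Y + 1 + ((r - s : ℕ) : ℝ)) ≤ X ^ 2)
    (hs1 : Cz b * (3 + r) * ((2 : ℝ) ^ (r - n)) ^ 4 * (X ^ 2 + ((2 : ℝ) ^ (r - s)) ^ 2) ≤ 4 ^ n)
    (β : V (2 ^ (r - n))) :
    Ex (nMC (2 ^ r) (2 ^ s) b a a x₀) 0 (indh {h | X ^ 2 * tn n / (12 * Q₁ ^ 2) <
      ∑ w, ((((t - a) • (bE (bS (2 ^ r / 2 ^ s) (2 ^ (r - n)) (2 ^ (n - s)) β) (2 ^ (n - s)) T *
        cobV (2 ^ r) (2 ^ s))) *ᵥ re h) w) ^ 2}) ≤ 2 * Real.exp (-Y) := by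
  have hκ := kb0_pos hb
  have hκ1 := kb0_le hb
  have hτ := tn_pos n
  have hτF := tn_mul n
  have ht : 0 < t := hτ.trans_le ht1
  have hsr : s ≤ r := hsn.trans hnr
  have hl : (2 : ℕ) ^ s ∣ 2 ^ r := pow_dvd_pow 2 hsr
  have hnq : (2 : ℕ) ^ r / 2 ^ s = 2 ^ (r - n) * 2 ^ (n - s) := by
    rw [Nat.pow_div hsr two_pos, ← pow_add]
    congr 1
    omega
  have hq : (2 : ℕ) ^ (n - s) ∣ 2 ^ r / 2 ^ s := ⟨2 ^ (r - n), by rw [hnq, mul_comm]⟩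
  have hq0 : 0 < (2 : ℕ) ^ (n - s) := by positivity
  have hql2 : ((((2 : ℕ) ^ (n - s) : ℕ) : ℝ) * (((2 : ℕ) ^ s : ℕ) : ℝ)) ^ 2 = 4 ^ n := by
    push_cast
    rw [← pow_add, Nat.sub_add_cancel hsn, four_pow']
  have hF : (0 : ℝ) < 4 ^ n := by positivity
  have hcard := card_bS (n := 2 ^ r / 2 ^ s) hq0 hnq β
  have hlog := log_nu hsr
  have hQ0 : 0 < Q₁ := by linarith
  have hρ0 : 0 ≤ X ^ 2 * tn n / (12 * Q₁ ^ 2) := by positivity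
  have hκρ : kb0 b * (X ^ 2 * tn n / (12 * Q₁ ^ 2)) / (64 * t ^ 2 * 4 ^ n) ≤ X ^ 2 := by
    have h1 : tn n ≤ t ^ 2 * 4 ^ n := by
      have h2 : tn n ^ 2 ≤ t ^ 2 := pow_le_pow_left₀ hτ.le ht1 2
      have h3 : tn n ^ 2 * 4 ^ n = tn n := by
        rw [pow_two, mul_assoc, hτF, mul_one]
      calc tn n = tn n ^ 2 * 4 ^ n := h3.symm
        _ ≤ t ^ 2 * 4 ^ n := mul_le_mul_of_nonneg_right h2 hF.le
    rw [div_le_iff₀ (by positivity)]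
    have h4 : X ^ 2 * tn n / (12 * Q₁ ^ 2) ≤ X ^ 2 * tn n := by
      refine div_le_self (by positivity) ?_
      nlinarith
    calc kb0 b * (X ^ 2 * tn n / (12 * Q₁ ^ 2)) ≤ 1 * (X ^ 2 * tn n) :=
          mul_le_mul hκ1 h4 hρ0 zero_le_one
      _ ≤ X ^ 2 * (t ^ 2 * 4 ^ n) := by
          rw [one_mul]
          exact mul_le_mul_of_nonneg_left h1 (sq_nonneg _)
      _ ≤ X ^ 2 * (64 * t ^ 2 * 4 ^ n) := by
          refine mul_le_mul_of_nonneg_left ?_ (sq_nonneg _)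
          have : 0 ≤ t ^ 2 * 4 ^ n := by positivity
          linarith
  refine (Ex_mono_c hb hl ha le_rfl x₀ (by linarith) (by linarith : t - a ≤ t) _).trans
    ((tailF_blk hb hl ha le_rfl hκ zero_le_one (kb0_eq hb) le_rfl x₀ ht hq
      (bS (2 ^ r / 2 ^ s) (2 ^ (r - n)) (2 ^ (n - s)) β) hT hρ0 ?_).trans ?_)
  · rw [hql2, nu_cast hsr]
    refine side_le (c₁ := 1) (c₂ := 2) (B := X ^ 2 + ((2 : ℝ) ^ (r - s)) ^ 2) Gam0_nonneg le_rfl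
      (by positivity) ?_ (by positivity) ?_ hF ?_
    · rw [div_le_div_iff₀ (by positivity) hF]
      nlinarith
    · linarith [sq_nonneg X]
    · rw [one_mul]
      exact side_G hb hnr ha.le (hat.le.trans ht4) (by positivity) (by norm_num) (by norm_num) hs1
  · rw [hql2, hcard]
    refine mul_le_mul_of_nonneg_left (Real.exp_le_exp.2 ?_) zero_le_two
    have hq2 : (0 : ℝ) < (((2 : ℕ) ^ (n - s) : ℕ) : ℝ) ^ 2 := by positivity
    have e1 : (((2 : ℕ) ^ (n - s) : ℕ) : ℝ) ^ 2 *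
        (2 + Real.log (((2 : ℕ) ^ r / 2 ^ s : ℕ) : ℝ)) /
        (8 * (((2 : ℕ) ^ (n - s) : ℕ) : ℝ) ^ 2) =
        (2 + Real.log (((2 : ℕ) ^ r / 2 ^ s : ℕ) : ℝ)) / 8 := by
      field_simp
    rw [e1]
    set D : ℝ := ((r - s : ℕ) : ℝ) with hD
    have hD0 : 0 ≤ D := Nat.cast_nonneg _
    have h1 : Y + 1 + D ≤ kb0 b * (X ^ 2 * tn n / (12 * Q₁ ^ 2)) / (128 * t ^ 2 * 4 ^ n) := by
      rw [le_div_iff₀ (by positivity)]
      have h2 : t ^ 2 * 4 ^ n ≤ 16 * tn n := by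
        have h3 : t ^ 2 ≤ (4 * tn n) ^ 2 := pow_le_pow_left₀ ht.le ht4 2
        calc t ^ 2 * 4 ^ n ≤ (4 * tn n) ^ 2 * 4 ^ n := mul_le_mul_of_nonneg_right h3 hF.le
          _ = 16 * tn n * (tn n * 4 ^ n) := by ring
          _ = 16 * tn n := by rw [hτF, mul_one]
      have h5 : 0 ≤ Y + 1 + D := by linarith
      have h6 : 24576 * Q₁ ^ 2 * (Y + 1 + D) ≤ kb0 b * X ^ 2 := by
        have h7 := mul_le_mul_of_nonneg_left hX2 hκ.le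
        refine le_trans ?_ h7
        have h8 := Cz_kb hb (c := 24576) (by norm_num)
        rw [div_le_iff₀ hκ] at h8
        have h9 : 0 ≤ Q₁ ^ 2 * (Y + 1 + D) := by positivity
        calc 24576 * Q₁ ^ 2 * (Y + 1 + D) = 24576 * (Q₁ ^ 2 * (Y + 1 + D)) := by ring
          _ ≤ Cz b * kb0 b * (Q₁ ^ 2 * (Y + 1 + D)) := mul_le_mul_of_nonneg_right h8 h9
          _ = _ := by ring
      calc (Y + 1 + D) * (128 * t ^ 2 * 4 ^ n) = 128 * (Y + 1 + D) * (t ^ 2 * 4 ^ n) := by ring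
        _ ≤ 128 * (Y + 1 + D) * (16 * tn n) := mul_le_mul_of_nonneg_left h2 (by positivity)
        _ = (24576 * Q₁ ^ 2 * (Y + 1 + D)) * (tn n / (12 * Q₁ ^ 2)) := by
            field_simp
            ring
        _ ≤ (kb0 b * X ^ 2) * (tn n / (12 * Q₁ ^ 2)) :=
            mul_le_mul_of_nonneg_right h6 (by positivity)
        _ = _ := by ring
    linarith

/-- (S2) -/
theorem ts_mean (hb : 0 ≤ b) (hsn : s ≤ n) (hnr : n ≤ r) (ht1 : tn n ≤ t)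
    (ht4 : t ≤ 4 * tn n) (ha : 0 < a) (hat : a < t) (hT : TC T) (x₀ : V (2 ^ r))
    (hY : 0 ≤ Y) (hL2 : Cz b * (1 + ((r - s : ℕ) : ℝ)) * (Y + 1) ≤ L ^ 2)
    (hs2 : Cz b * (3 + r) * ((2 : ℝ) ^ (r - n)) ^ 4 * (L ^ 2 + 1) ≤ 4 ^ s)
    (β β' : V (2 ^ (r - n))) :
    Ex (nMC (2 ^ r) (2 ^ s) b a a x₀) 0 (indh {h | (2 ^ s * tn n * L) ^ 2 / 9 <
      ∑ w, ((((t - a) • (H663.rowM (T *ᵥ (av (2 ^ r / 2 ^ s) (2 ^ (r - n)) (2 ^ (n - s)) β -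
        av (2 ^ r / 2 ^ s) (2 ^ (r - n)) (2 ^ (n - s)) β')) *
        cobV (2 ^ r) (2 ^ s))) *ᵥ re h) w) ^ 2}) ≤ 2 * Real.exp (-Y) := by
  have hκ := kb0_pos hb
  have hκ1 := kb0_le hb
  have hτ := tn_pos n
  have ht : 0 < t := hτ.trans_le ht1
  have hsr : s ≤ r := hsn.trans hnr
  have hl : (2 : ℕ) ^ s ∣ 2 ^ r := pow_dvd_pow 2 hsr
  have hnq : (2 : ℕ) ^ r / 2 ^ s = 2 ^ (r - n) * 2 ^ (n - s) := by
    rw [Nat.pow_div hsr two_pos, ← pow_add]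
    congr 1
    omega
  have hq0 : 0 < (2 : ℕ) ^ (n - s) := by positivity
  have hl2 : ((((2 : ℕ) ^ s : ℕ) : ℝ)) ^ 2 = 4 ^ s := by
    push_cast
    exact four_pow' s
  have hF : (0 : ℝ) < 4 ^ s := by positivity
  have hlog := log_nu hsr
  have hlog0 : 0 ≤ Real.log (((2 : ℕ) ^ r / 2 ^ s : ℕ) : ℝ) := Real.log_natCast_nonneg _
  set D : ℝ := ((r - s : ℕ) : ℝ) with hD
  have hD0 : 0 ≤ D := Nat.cast_nonneg _
  have hρ : (2 ^ s * tn n * L) ^ 2 / 9 = 4 ^ s * tn n ^ 2 * L ^ 2 / 9 := by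
    rw [mul_pow, mul_pow, four_pow']
  have hρ0 : 0 ≤ (2 ^ s * tn n * L) ^ 2 / 9 := by positivity
  have hτt : tn n ^ 2 ≤ t ^ 2 := pow_le_pow_left₀ hτ.le ht1 2
  refine (Ex_mono_c hb hl ha le_rfl x₀ (by linarith) (by linarith : t - a ≤ t) _).trans ?_
  set av₁ := av (2 ^ r / 2 ^ s) (2 ^ (r - n)) (2 ^ (n - s)) β with hav₁
  set av₂ := av (2 ^ r / 2 ^ s) (2 ^ (r - n)) (2 ^ (n - s)) β' with hav₂
  have hset : {h : V (2 ^ r) → ℤ | (2 ^ s * tn n * L) ^ 2 / 9 <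
      ∑ w, (((t • (H663.rowM (T *ᵥ (av₁ - av₂)) * cobV (2 ^ r) (2 ^ s))) *ᵥ re h) w) ^ 2} =
      {h : V (2 ^ r) → ℤ | (2 ^ s * tn n * L) ^ 2 / 9 <
      ∑ w, (((t • (H896.rowM T av₁ av₂ * cobV (2 ^ r) (2 ^ s))) *ᵥ re h) w) ^ 2} := by
    ext h
    simp only [Set.mem_ofPred_eq]
    rw [row_conv, Fintype.univ_ofSubsingleton, Finset.sum_singleton]
    have e : ((t • (H896.rowM T av₁ av₂ * cobV (2 ^ r) (2 ^ s))) *ᵥ re h) (default : Unit) =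
        t * ((T *ᵥ (av₁ - av₂)) ⬝ᵥ (cobV (2 ^ r) (2 ^ s) *ᵥ re h)) := by
      rw [Matrix.smul_mulVec, Pi.smul_apply, smul_eq_mul, ← Matrix.mulVec_mulVec]
      rfl
    rw [e]
  rw [hset]
  refine (tailF_mean hb hl ha le_rfl hκ zero_le_one (kb0_eq hb) le_rfl x₀ hT
    (fun y => av_nonneg β y) (sum_av hq0 hnq β) (fun y => av_nonneg β' y) (sum_av hq0 hnq β')
    ht hρ0 ?_).trans ?_
  · rw [hl2, hρ]
    refine side_le (c₁ := 1) (c₂ := 2) (B := L ^ 2 + 1) Gam0_nonneg le_rfl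
      (by positivity) ?_ (by positivity) ?_ hF ?_
    · rw [div_le_div_iff₀ (by positivity) hF]
      nlinarith
    · have h1 : kb0 b * (4 ^ s * tn n ^ 2 * L ^ 2 / 9) / (16 * 4 ^ s * t ^ 2) ≤ L ^ 2 := by
        rw [div_le_iff₀ (by positivity)]
        calc kb0 b * (4 ^ s * tn n ^ 2 * L ^ 2 / 9) ≤ 1 * (4 ^ s * tn n ^ 2 * L ^ 2) :=
              mul_le_mul hκ1 (by
                have : 0 ≤ 4 ^ s * tn n ^ 2 * L ^ 2 := by positivity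
                linarith) (by positivity) zero_le_one
          _ ≤ 4 ^ s * t ^ 2 * L ^ 2 := by
              rw [one_mul]
              exact mul_le_mul_of_nonneg_right (mul_le_mul_of_nonneg_left hτt hF.le)
                (sq_nonneg _)
          _ ≤ L ^ 2 * (16 * 4 ^ s * t ^ 2) := by
              have : 0 ≤ 4 ^ s * t ^ 2 * L ^ 2 := by positivity
              linarith
      linarith [sq_nonneg L]
    · rw [one_mul]
      exact side_G hb hnr ha.le (hat.le.trans ht4) (by positivity) (by norm_num) (by norm_num) hs2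
  · rw [hl2, hρ]
    refine mul_le_mul_of_nonneg_left (Real.exp_le_exp.2 ?_) zero_le_two
    have h1 : Y + 1 ≤ kb0 b * (4 ^ s * tn n ^ 2 * L ^ 2 / 9) /
        (32 * t ^ 2 * 4 ^ s * (2 + Real.log (((2 : ℕ) ^ r / 2 ^ s : ℕ) : ℝ))) := by
      rw [le_div_iff₀ (by positivity)]
      have h3 : t ^ 2 ≤ 16 * tn n ^ 2 := by
        have := pow_le_pow_left₀ ht.le ht4 2
        refine this.trans (le_of_eq (by ring))
      have h4 : 2 + Real.log (((2 : ℕ) ^ r / 2 ^ s : ℕ) : ℝ) ≤ 2 * (1 + D) := by linarith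
      have h6 : 9216 * ((1 + D) * (Y + 1)) ≤ kb0 b * L ^ 2 := by
        have h7 := mul_le_mul_of_nonneg_left hL2 hκ.le
        refine le_trans ?_ h7
        have h8 := Cz_kb hb (c := 9216) (by norm_num)
        rw [div_le_iff₀ hκ] at h8
        have h9 : 0 ≤ (1 + D) * (Y + 1) := by positivity
        calc 9216 * ((1 + D) * (Y + 1)) ≤ Cz b * kb0 b * ((1 + D) * (Y + 1)) :=
              mul_le_mul_of_nonneg_right h8 h9
          _ = _ := by ring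
      calc (Y + 1) * (32 * t ^ 2 * 4 ^ s * (2 + Real.log (((2 : ℕ) ^ r / 2 ^ s : ℕ) : ℝ)))
          ≤ (Y + 1) * (32 * (16 * tn n ^ 2) * 4 ^ s * (2 * (1 + D))) := by
            refine mul_le_mul_of_nonneg_left ?_ (by linarith)
            refine mul_le_mul ?_ h4 (by linarith) (by positivity)
            exact mul_le_mul_of_nonneg_right (by linarith) hF.le
        _ = (9216 * ((1 + D) * (Y + 1))) * (4 ^ s * tn n ^ 2 / 9) := by ring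
        _ ≤ (kb0 b * L ^ 2) * (4 ^ s * tn n ^ 2 / 9) :=
            mul_le_mul_of_nonneg_right h6 (by positivity)
        _ = _ := by ring
    linarith

/-- (S3) -/
theorem ts_quad (hb : 0 ≤ b) (hsn : s ≤ n) (hnr : n ≤ r) (ht1 : tn n ≤ t)
    (ht4 : t ≤ 4 * tn n) (ha : 0 < a) (hat : a < t) (x₀ : V (2 ^ r))
    (hWn : ∀ x, Neu (W₃ x)) (hw : 0 < w) (hWw : (W₃ * W₃ᵀ).trace ≤ w)
    (hY : 0 ≤ Y) (hu : 0 ≤ u)
    (hu2 : Cz b * ((2 : ℝ) ^ (r - n)) ^ 2 * (tn n * w) * (Y + 1) ≤ u)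
    (hs3 : Cz b * (3 + r) * ((2 : ℝ) ^ (r - n)) ^ 4 *
      (u / (tn n * w) + Λ ^ 2 + ((2 : ℝ) ^ (r - s)) ^ 2) ≤ 4 ^ r) :
    Ex (nMC (2 ^ r) (2 ^ s) b a a x₀) 0 (indh {h | u / 9 <
      ∑ x, ((((t - a) • (W₃ * cobV (2 ^ r) (2 ^ s))) *ᵥ re h) x) ^ 2}) ≤ 2 * Real.exp (-Y) := by
  have hκ := kb0_pos hb
  have hκ1 := kb0_le hb
  have hτ := tn_pos n
  have ht : 0 < t := hτ.trans_le ht1
  have hsr : s ≤ r := hsn.trans hnr
  have hl : (2 : ℕ) ^ s ∣ 2 ^ r := pow_dvd_pow 2 hsr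
  have hN2 : ((((2 : ℕ) ^ r : ℕ) : ℝ)) ^ 2 = 4 ^ r := by
    push_cast
    exact four_pow' r
  have hF : (0 : ℝ) < 4 ^ r := by positivity
  have hM2 := N2_M hnr
  have hM1 : (1 : ℝ) ≤ (2 : ℝ) ^ (r - n) := one_le_pow₀ (by norm_num)
  set M : ℝ := (2 : ℝ) ^ (r - n) with hM
  have hM21 : 1 ≤ M ^ 2 := one_le_pow₀ hM1
  have hτt : tn n ^ 2 ≤ t ^ 2 := pow_le_pow_left₀ hτ.le ht1 2
  have h16 : 4 ^ r * t ^ 2 ≤ 16 * (M ^ 2 * tn n) := by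
    have h3 : t ^ 2 ≤ (4 * tn n) ^ 2 := pow_le_pow_left₀ ht.le ht4 2
    calc 4 ^ r * t ^ 2 ≤ 4 ^ r * (4 * tn n) ^ 2 := mul_le_mul_of_nonneg_left h3 hF.le
      _ = 16 * ((tn n * 4 ^ r) * tn n) := by ring
      _ = _ := by rw [hM2]
  have h1 : tn n ≤ 4 ^ r * t ^ 2 := by
    calc tn n ≤ M ^ 2 * tn n := le_mul_of_one_le_left hτ.le hM21
      _ = 4 ^ r * tn n ^ 2 := by rw [← hM2]; ring
      _ ≤ 4 ^ r * t ^ 2 := mul_le_mul_of_nonneg_left hτt hF.le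
  refine (Ex_mono_c hb hl ha le_rfl x₀ (by linarith) (by linarith : t - a ≤ t) _).trans
    ((tailF_ball hb hl ha le_rfl hκ zero_le_one (kb0_eq hb) le_rfl x₀ hWn ht
      (ρ := u / 9) (by positivity) hw
      (fun φ => (tr_op W₃ φ).trans (mul_le_mul_of_nonneg_right hWw (sq_vec_nonneg φ)))
      hWw ?_).trans ?_)
  · rw [hN2, TM.H764.card_V, nu_cast hsr]
    refine side_le (c₁ := 17 / 2) (c₂ := 2)
      (B := u / (tn n * w) + Λ ^ 2 + ((2 : ℝ) ^ (r - s)) ^ 2) Gam0_nonneg le_rfl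
      (by positivity) ?_ (by positivity) ?_ hF ?_
    · rw [div_le_div_iff₀ (by positivity) hF]
      nlinarith
    · have h2 : 17 * kb0 b * (u / 9) / (4 * 4 ^ r * t ^ 2 * w) ≤ u / (tn n * w) := by
        rw [div_le_div_iff₀ (by positivity) (by positivity)]
        have h3 : 17 * kb0 b * (u / 9) ≤ 4 * u := by nlinarith
        calc 17 * kb0 b * (u / 9) * (tn n * w) ≤ 4 * u * (tn n * w) :=
              mul_le_mul_of_nonneg_right h3 (by positivity)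
          _ ≤ 4 * u * (4 ^ r * t ^ 2 * w) := by
              refine mul_le_mul_of_nonneg_left ?_ (by positivity)
              exact mul_le_mul_of_nonneg_right h1 hw.le
          _ = _ := by ring
      nlinarith [sq_nonneg Λ, div_nonneg hu (mul_nonneg hτ.le hw.le)]
    · have := side_G hb hnr ha.le (hat.le.trans ht4) (B := u / (tn n * w) + Λ ^ 2 + ((2 : ℝ) ^ (r - s)) ^ 2)
        (F := 4 ^ r) (by positivity) (c := 17) le_rfl (by norm_num) hs3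
      refine le_trans (le_of_eq ?_) this
      ring
  · rw [hN2]
    refine mul_le_mul_of_nonneg_left (Real.exp_le_exp.2 ?_) zero_le_two
    have e1 : w / (2 * w) = 1 / 2 := by field_simp
    rw [e1]
    have h2 : Y + 1 ≤ 17 * kb0 b * (u / 9) / (8 * 4 ^ r * t ^ 2 * w) := by
      rw [le_div_iff₀ (by positivity)]
      have h6 : 1152 * ((M ^ 2 * (tn n * w)) * (Y + 1)) ≤ kb0 b * u := by
        have h7 := mul_le_mul_of_nonneg_left hu2 hκ.le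
        refine le_trans ?_ h7
        have h8 := Cz_kb hb (c := 1152) (by norm_num)
        rw [div_le_iff₀ hκ] at h8
        have h9 : 0 ≤ (M ^ 2 * (tn n * w)) * (Y + 1) := by positivity
        calc 1152 * ((M ^ 2 * (tn n * w)) * (Y + 1)) ≤
            Cz b * kb0 b * ((M ^ 2 * (tn n * w)) * (Y + 1)) := mul_le_mul_of_nonneg_right h8 h9
          _ = _ := by ring
      have hκu : 0 ≤ kb0 b * u := by positivity
      calc (Y + 1) * (8 * 4 ^ r * t ^ 2 * w) = 8 * (Y + 1) * w * (4 ^ r * t ^ 2) := by ring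
        _ ≤ 8 * (Y + 1) * w * (16 * (M ^ 2 * tn n)) :=
            mul_le_mul_of_nonneg_left h16 (by positivity)
        _ = (1152 * ((M ^ 2 * (tn n * w)) * (Y + 1))) / 9 := by ring
        _ ≤ kb0 b * u / 9 := by linarith
        _ ≤ _ := by linarith
    linarith

/-- norm -/
theorem ts_nrm (hb : 0 ≤ b) (hsn : s ≤ n) (hnr : n ≤ r) (ht1 : tn n ≤ t)
    (ht4 : t ≤ 4 * tn n) (ha : 0 < a) (hat : a < t) (hT : TC T) (x₀ : V (2 ^ r))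
    (hw : 0 < w) (hY : 0 ≤ Y) (hu : 0 ≤ u)
    (hΛ2 : Cz b * (((2 : ℝ) ^ (r - n)) ^ 2 * (Y + 1 + ((r - s : ℕ) : ℝ)) +
      ((2 : ℝ) ^ (r - s)) ^ 2) ≤ Λ ^ 2)
    (hs3 : Cz b * (3 + r) * ((2 : ℝ) ^ (r - n)) ^ 4 *
      (u / (tn n * w) + Λ ^ 2 + ((2 : ℝ) ^ (r - s)) ^ 2) ≤ 4 ^ r) :
    Ex (nMC (2 ^ r) (2 ^ s) b a a x₀) 0 (indh {h | (√(tn n) * Λ) ^ 2 / 9 <
      ∑ x, ((((t - a) • (T * Pn * cobV (2 ^ r) (2 ^ s))) *ᵥ re h) x) ^ 2}) ≤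
      2 * Real.exp (-Y) := by
  have hκ := kb0_pos hb
  have hκ1 := kb0_le hb
  have hτ := tn_pos n
  have ht : 0 < t := hτ.trans_le ht1
  have hsr : s ≤ r := hsn.trans hnr
  have hl : (2 : ℕ) ^ s ∣ 2 ^ r := pow_dvd_pow 2 hsr
  have hN2 : ((((2 : ℕ) ^ r : ℕ) : ℝ)) ^ 2 = 4 ^ r := by
    push_cast
    exact four_pow' r
  have hF : (0 : ℝ) < 4 ^ r := by positivity
  have hM2 := N2_M hnr
  have hM1 : (1 : ℝ) ≤ (2 : ℝ) ^ (r - n) := one_le_pow₀ (by norm_num)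
  set M : ℝ := (2 : ℝ) ^ (r - n) with hM
  have hM21 : 1 ≤ M ^ 2 := one_le_pow₀ hM1
  have hlog := log_nu hsr
  set D : ℝ := ((r - s : ℕ) : ℝ) with hD
  have hD0 : 0 ≤ D := Nat.cast_nonneg _
  have hτt : tn n ^ 2 ≤ t ^ 2 := pow_le_pow_left₀ hτ.le ht1 2
  have h16 : 4 ^ r * t ^ 2 ≤ 16 * (M ^ 2 * tn n) := by
    have h3 : t ^ 2 ≤ (4 * tn n) ^ 2 := pow_le_pow_left₀ ht.le ht4 2
    calc 4 ^ r * t ^ 2 ≤ 4 ^ r * (4 * tn n) ^ 2 := mul_le_mul_of_nonneg_left h3 hF.le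
      _ = 16 * ((tn n * 4 ^ r) * tn n) := by ring
      _ = _ := by rw [hM2]
  have h1 : tn n ≤ 4 ^ r * t ^ 2 := by
    calc tn n ≤ M ^ 2 * tn n := le_mul_of_one_le_left hτ.le hM21
      _ = 4 ^ r * tn n ^ 2 := by rw [← hM2]; ring
      _ ≤ 4 ^ r * t ^ 2 := mul_le_mul_of_nonneg_left hτt hF.le
  have hρ : (√(tn n) * Λ) ^ 2 / 9 = tn n * Λ ^ 2 / 9 := by
    rw [mul_pow, Real.sq_sqrt hτ.le]
  rw [hρ]
  refine (Ex_mono_c hb hl ha le_rfl x₀ (by linarith) (by linarith : t - a ≤ t) _).trans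
    ((tailF_all hb hl ha le_rfl hκ zero_le_one (kb0_eq hb) le_rfl x₀ ht hT
      (ρ := tn n * Λ ^ 2 / 9) (by positivity) ?_).trans ?_)
  · rw [hN2, nu_cast hsr]
    refine side_le (c₁ := 17 / 2) (c₂ := 2)
      (B := u / (tn n * w) + Λ ^ 2 + ((2 : ℝ) ^ (r - s)) ^ 2) Gam0_nonneg le_rfl
      (by positivity) ?_ (by positivity) ?_ hF ?_
    · rw [div_le_div_iff₀ (by positivity) hF]
      nlinarith
    · have h2 : 17 * kb0 b * (tn n * Λ ^ 2 / 9) / (4 * 4 ^ r * t ^ 2) ≤ Λ ^ 2 := by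
        rw [div_le_iff₀ (by positivity)]
        have h0 : 0 ≤ tn n * Λ ^ 2 := by positivity
        have h3 : 17 * kb0 b * (tn n * Λ ^ 2 / 9) ≤ 4 * (tn n * Λ ^ 2) := by nlinarith
        calc 17 * kb0 b * (tn n * Λ ^ 2 / 9) ≤ 4 * (tn n * Λ ^ 2) := h3
          _ ≤ 4 * (4 ^ r * t ^ 2 * Λ ^ 2) := by
              refine mul_le_mul_of_nonneg_left ?_ (by norm_num)
              exact mul_le_mul_of_nonneg_right h1 (sq_nonneg _)
          _ = _ := by ring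
      have h5 : 0 ≤ u / (tn n * w) := div_nonneg hu (mul_nonneg hτ.le hw.le)
      nlinarith [sq_nonneg Λ]
    · have := side_G hb hnr ha.le (hat.le.trans ht4) (B := u / (tn n * w) + Λ ^ 2 + ((2 : ℝ) ^ (r - s)) ^ 2)
        (F := 4 ^ r) (by positivity) (c := 17) le_rfl (by norm_num) hs3
      refine le_trans (le_of_eq ?_) this
      ring
  · rw [hN2]
    refine mul_le_mul_of_nonneg_left (Real.exp_le_exp.2 ?_) zero_le_two
    have h2 : 17 * (Y + 1 + D) ≤ 17 * kb0 b * (tn n * Λ ^ 2 / 9) / (8 * 4 ^ r * t ^ 2) := by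
      rw [le_div_iff₀ (by positivity)]
      have h6 : 1152 * (M ^ 2 * (Y + 1 + D)) ≤ kb0 b * Λ ^ 2 := by
        have h7 := mul_le_mul_of_nonneg_left hΛ2 hκ.le
        refine le_trans ?_ h7
        have h8 := Cz_kb hb (c := 1152) (by norm_num)
        rw [div_le_iff₀ hκ] at h8
        have h9 : 0 ≤ M ^ 2 * (Y + 1 + D) := by positivity
        have h10 : 0 ≤ ((2 : ℝ) ^ (r - s)) ^ 2 := by positivity
        calc 1152 * (M ^ 2 * (Y + 1 + D)) ≤ Cz b * kb0 b * (M ^ 2 * (Y + 1 + D)) :=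
              mul_le_mul_of_nonneg_right h8 h9
          _ ≤ Cz b * kb0 b * (M ^ 2 * (Y + 1 + D) + ((2 : ℝ) ^ (r - s)) ^ 2) :=
              mul_le_mul_of_nonneg_left (by linarith) (mul_nonneg (Cz_pos hb).le hκ.le)
          _ = _ := by ring
      calc 17 * (Y + 1 + D) * (8 * 4 ^ r * t ^ 2) = 136 * (Y + 1 + D) * (4 ^ r * t ^ 2) := by ring
        _ ≤ 136 * (Y + 1 + D) * (16 * (M ^ 2 * tn n)) :=
            mul_le_mul_of_nonneg_left h16 (by positivity)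
        _ = (1152 * (M ^ 2 * (Y + 1 + D))) * (17 * tn n / 9) := by ring
        _ ≤ (kb0 b * Λ ^ 2) * (17 * tn n / 9) :=
            mul_le_mul_of_nonneg_right h6 (by positivity)
        _ = _ := by ring
    linarith

end parts

section unif

variable {N l nb q : ℕ} [NeZero N] [NeZero (N / l)] [NeZero nb] {b t a t₀ X Q₁ δ Lip u w Λ Y : ℝ}
  {T W₃ : Matrix (V (N / l)) (V (N / l)) ℝ}

/-- **the concrete class, one exponent** -/
theorem ts_unif (hb : 0 ≤ b) (hl : l ∣ N) (hsn : N / l = nb * q) (ha : 0 < a) (hat : a < t)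
    (x₀ : V N) (hT : TC T) (ht₀ : 0 < t₀)
    (hWn : ∀ x, Neu (W₃ x)) (hw : 0 < w) (hWw : (W₃ * W₃ᵀ).trace ≤ w) (hδ : 0 ≤ δ)
    (hX : 0 < X) (hQ : 0 < Q₁) (hu : 0 ≤ u)
    (hAP : ∀ β : V nb, (gau (V (N / l))).real
      {g | δ < rsC N l b t₀ ((X * √t₀) • (dB (bS (N / l) nb q β) *ᵥ g))} ≤ 1 / 30)
    (hXQ : 9 * Q₁ ^ 2 * (t - a) ≤ X ^ 2 * t₀)
    (p1 : ∀ β : V nb, Ex (nMC N l b a a x₀) 0 (indh {h | X ^ 2 * t₀ / (12 * Q₁ ^ 2) <
      ∑ w, ((((t - a) • (bE (bS (N / l) nb q β) q T * cobV N l)) *ᵥ re h) w) ^ 2}) ≤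
      2 * Real.exp (-Y))
    (p2 : ∀ β β' : V nb, Ex (nMC N l b a a x₀) 0 (indh {h | Lip ^ 2 / 9 <
      ∑ w, ((((t - a) • (H663.rowM (T *ᵥ (av (N / l) nb q β - av (N / l) nb q β')) *
        cobV N l)) *ᵥ re h) w) ^ 2}) ≤ 2 * Real.exp (-Y))
    (p3 : Ex (nMC N l b a a x₀) 0 (indh {h | u / 9 <
      ∑ x, ((((t - a) • (W₃ * cobV N l)) *ᵥ re h) x) ^ 2}) ≤ 2 * Real.exp (-Y))
    (p4 : Ex (nMC N l b a a x₀) 0 (indh {h | Λ ^ 2 / 9 <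
      ∑ x, ((((t - a) • (T * Pn * cobV N l)) *ᵥ re h) x) ^ 2}) ≤ 2 * Real.exp (-Y))
    {ν2 : ℝ} (hν : ((N / l : ℕ) : ℝ) ^ 2 = ν2)
    (n1 : Y ≤ X ^ 2 * t₀ / (63 * Q₁ ^ 2 * (t - a)))
    (n2 : Y + 1 ≤ Lip ^ 2 / (36 * (t - a) * (2 / (q : ℝ) ^ 2)))
    (n3 : Y + 1 ≤ u / (36 * (t - a) * w))
    (n4 : Y + ν2 ≤ Λ ^ 2 / (36 * (t - a) * 1)) :
    Ech (nMC N l b a a x₀) 0 (obsN N l (t - a))
      (ind (clsG N l b t₀ Q₁ δ nb q T W₃ Lip u Λ)ᶜ) ≤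
      13 * (nb : ℝ) ^ 4 * Real.exp (-Y) := by
  have hq0 : 0 < q := by
    rcases Nat.eq_zero_or_pos q with h | h
    · rw [h, mul_zero] at hsn
      exact absurd hsn (NeZero.ne _)
    · exact h
  have hqR : (0 : ℝ) < q := by exact_mod_cast hq0
  have hq : q ∣ N / l := ⟨nb, by rw [hsn, mul_comm]⟩
  have hTP := tc_TPn hT
  have kTP : ∀ φ : V (N / l) → ℝ, ∑ i, ((T * Pn)ᵀ *ᵥ φ) i ^ 2 ≤ 1 * ∑ i, φ i ^ 2 := by
    intro φ
    rw [hTP.ti.transpose, one_mul]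
    exact hTP.contr φ
  have hrow : ∀ β β' : V nb, ∑ i, (T *ᵥ (av (N / l) nb q β - av (N / l) nb q β')) i ^ 2 ≤
      2 / (q : ℝ) ^ 2 := fun β β' => (hT.contr _).trans (av_sub_sq hq0 hsn β β')
  have hmain := ts_cls hb hl ha hat x₀ hq (bS (N / l) nb q) hT ht₀ hX hQ hδ hAP hXQ
    (π₁ := fun _ => 2 * Real.exp (-Y)) p1 (FG (N / l) nb q T W₃)
    (by
      rintro (p | (_ | _)) x
      · exact H663.rowM_neu (neu_av hq0 hsn hT _ _) x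
      · exact neu_TPn hT x
      · exact hWn x)
    (k := kG q w) (r := rG (N / l) q w) (u := uG Lip u Λ)
    (by
      rintro (p | (_ | _))
      · show 0 < 2 / (q : ℝ) ^ 2
        positivity
      · exact zero_lt_one
      · exact hw)
    (by
      rintro (p | (_ | _)) φ
      · exact (H663.rowM_tr_sq _ _).trans
          (mul_le_mul_of_nonneg_right (hrow p.1.1 p.1.2) (sq_vec_nonneg φ))
      · exact kTP φ
      · exact (tr_op W₃ φ).trans (mul_le_mul_of_nonneg_right hWw (sq_vec_nonneg φ)))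
    (by
      rintro (p | (_ | _))
      · exact (H663.rowM_trace _).le.trans (hrow p.1.1 p.1.2)
      · refine (trace_le_card kTP).trans (le_of_eq ?_)
        rw [one_mul, TM.H764.card_V]
        rfl
      · exact hWw)
    (by
      rintro (p | (_ | _))
      · exact sq_nonneg _
      · exact sq_nonneg _
      · exact hu)
    (π₂ := fun _ => 2 * Real.exp (-Y))
    (by
      rintro (p | (_ | _))
      · exact p2 p.1.1 p.1.2
      · exact p4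
      · exact p3)
  refine hmain.trans ?_
  have hE0 : 0 < Real.exp (-Y) := Real.exp_pos _
  have hM1 : (1 : ℝ) ≤ nb := by exact_mod_cast NeZero.pos nb
  have hA : ∑ _β : V nb, (2 * Real.exp (-Y) +
      2 * Real.exp (-(X ^ 2 * t₀ / (63 * Q₁ ^ 2 * (t - a))))) ≤
      (nb : ℝ) ^ 2 * (4 * Real.exp (-Y)) := by
    rw [Finset.sum_const, nsmul_eq_mul, Finset.card_univ, TM.H764.card_V]
    refine mul_le_mul_of_nonneg_left ?_ (by positivity)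
    have := Real.exp_le_exp.2 (neg_le_neg n1)
    linarith
  have hB : ∀ j : Jx nb, 2 * Real.exp (-Y) + Real.exp (rG (N / l) q w j / (2 * kG q w j) -
      uG Lip u Λ j / (36 * (t - a) * kG q w j)) ≤ 3 * Real.exp (-Y) := by
    intro j
    have h2 := Real.exp_le_exp.2 (expG (N := N) (l := l) hq0 hw hν (hν ▸ sq_nonneg _) n2 n3 n4 j)
    linarith
  have hC := (Finset.sum_le_sum fun j (_ : j ∈ Finset.univ) => hB j)
  rw [Finset.sum_const, nsmul_eq_mul, Finset.card_univ] at hC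
  have hC2 := hC.trans (mul_le_mul_of_nonneg_right (card_Jx nb)
    (show 0 ≤ 3 * Real.exp (-Y) by positivity))
  refine (add_le_add hA hC2).trans ?_
  have hM2 : (nb : ℝ) ^ 2 ≤ (nb : ℝ) ^ 4 := pow_le_pow_right₀ hM1 (by norm_num)
  have hM4 : 1 ≤ (nb : ℝ) ^ 4 := one_le_pow₀ hM1
  have e1 : (nb : ℝ) ^ 2 * (4 * Real.exp (-Y)) + ((nb : ℝ) ^ 4 + 2) * (3 * Real.exp (-Y)) =
      (4 * (nb : ℝ) ^ 2 + 3 * (nb : ℝ) ^ 4 + 6) * Real.exp (-Y) := by ring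
  rw [e1]
  refine mul_le_mul_of_nonneg_right ?_ hE0.le
  linarith

end unif

section thm2

variable {b : ℝ} {n r s : ℕ} [NeZero (2 ^ r / 2 ^ s)] {t a δ X Q₁ L u w Λ Y : ℝ}
  {T W₃ : Matrix (V (2 ^ r / 2 ^ s)) (V (2 ^ r / 2 ^ s)) ℝ}

/-- **zero source probability of the complement of the concrete class, Good letters**: posterior
mass `t` in `[t_n, 4 t_n]`, EVERY prior `0 < a < t` -/
theorem ts_good (hb : 0 ≤ b) (hsn : s ≤ n) (hnr : n ≤ r) (ht1 : tn n ≤ t)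
    (ht4 : t ≤ 4 * tn n) (ha : 0 < a) (hat : a < t) (x₀ : V (2 ^ r)) (hT : TC T)
    (hWn : ∀ x, Neu (W₃ x)) (hw : 0 < w) (hWw : (W₃ * W₃ᵀ).trace ≤ w) (hδ : 0 ≤ δ)
    (hQ1 : 1 ≤ Q₁) (hQX : 6 * Q₁ ≤ X) (hY : 0 ≤ Y) (hu : 0 ≤ u)
    (hAP : AP b n r s X (tn n) δ)
    (hX2 : Cz b * Q₁ ^ 2 * (Y + 1 + ((r - s : ℕ) : ℝ)) ≤ X ^ 2)
    (hL2 : Cz b * (1 + ((r - s : ℕ) : ℝ)) * (Y + 1) ≤ L ^ 2)
    (hu2 : Cz b * ((2 : ℝ) ^ (r - n)) ^ 2 * (tn n * w) * (Y + 1) ≤ u)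
    (hΛ2 : Cz b * (((2 : ℝ) ^ (r - n)) ^ 2 * (Y + 1 + ((r - s : ℕ) : ℝ)) +
      ((2 : ℝ) ^ (r - s)) ^ 2) ≤ Λ ^ 2)
    (hs1 : Cz b * (3 + r) * ((2 : ℝ) ^ (r - n)) ^ 4 * (X ^ 2 + ((2 : ℝ) ^ (r - s)) ^ 2) ≤ 4 ^ n)
    (hs2 : Cz b * (3 + r) * ((2 : ℝ) ^ (r - n)) ^ 4 * (L ^ 2 + 1) ≤ 4 ^ s)
    (hs3 : Cz b * (3 + r) * ((2 : ℝ) ^ (r - n)) ^ 4 *
      (u / (tn n * w) + Λ ^ 2 + ((2 : ℝ) ^ (r - s)) ^ 2) ≤ 4 ^ r) :
    Ech (nMC (2 ^ r) (2 ^ s) b a a x₀) 0 (obsN (2 ^ r) (2 ^ s) (t - a))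
      (ind (clsG (2 ^ r) (2 ^ s) b (tn n) Q₁ δ (2 ^ (r - n)) (2 ^ (n - s)) T W₃
        (2 ^ s * tn n * L) u (√(tn n) * Λ))ᶜ) ≤
      13 * ((2 : ℝ) ^ (r - n)) ^ 4 * Real.exp (-Y) := by
  have hτ := tn_pos n
  have ht : 0 < t := hτ.trans_le ht1
  have hct4 : t - a ≤ 4 * tn n := by linarith
  have hsr : s ≤ r := hsn.trans hnr
  have hX0 : 0 < X := by linarith
  have hQ0 : 0 < Q₁ := by linarith
  have hnq : (2 : ℕ) ^ r / 2 ^ s = 2 ^ (r - n) * 2 ^ (n - s) := by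
    rw [Nat.pow_div hsr two_pos, ← pow_add]
    congr 1
    omega
  have hXQ : 9 * Q₁ ^ 2 * (t - a) ≤ X ^ 2 * tn n := by
    have h1 : (6 * Q₁) ^ 2 ≤ X ^ 2 := pow_le_pow_left₀ (by linarith) hQX 2
    calc 9 * Q₁ ^ 2 * (t - a) ≤ 9 * Q₁ ^ 2 * (4 * tn n) :=
          mul_le_mul_of_nonneg_left hct4 (by positivity)
      _ = (6 * Q₁) ^ 2 * tn n := by ring
      _ ≤ _ := mul_le_mul_of_nonneg_right h1 hτ.le
  have h := ts_unif (N := 2 ^ r) (l := 2 ^ s) (nb := 2 ^ (r - n)) (q := 2 ^ (n - s)) (Y := Y)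
    (Lip := 2 ^ s * tn n * L) (Λ := √(tn n) * Λ) (u := u) hb (pow_dvd_pow 2 hsr) hnq ha hat x₀ hT
    hτ hWn hw hWw hδ hX0 hQ0 hu (fun β => by
      rw [bS_eq_blk hnq]
      exact ap_blk hb hτ hsr hAP _) hXQ
    (fun β => ts_blk hb hsn hnr ht1 ht4 ha hat hT x₀ hQ1 hX0 hY hX2 hs1 β)
    (fun β β' => ts_mean hb hsn hnr ht1 ht4 ha hat hT x₀ hY hL2 hs2 β β')
    (ts_quad hb hsn hnr ht1 ht4 ha hat x₀ hWn hw hWw hY hu hu2 hs3)
    (ts_nrm hb hsn hnr ht1 ht4 ha hat hT x₀ hw hY hu hΛ2 hs3)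
    (ν2 := ((2 : ℝ) ^ (r - s)) ^ 2) (by rw [nu_cast hsr])
    (noise1 hb ht4 ha hat hQ0 hY hX2) (noise2 hb hsn ht4 ha hat hY hL2)
    (noise3 hb ht4 ha hat hw hY hu2) (noise4 hb ht4 ha hat hY hΛ2)
  push_cast at h
  exact h

end thm2

end

end Vale.Agent.P159.H197
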