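import Vale.Agent.P159.H197.Modes
import Vale.Agent.P159.TM.H41.IFin

/-!
P159, START (ST4): THE WINDOW IN TWO DIMENSIONS. Lower bound for ALL plane waves of the torus of
side `2^k` with mass `ξ⁻²`, `ξ = 2^(k-i)`; `SpecI.WIN` is the case of the axis.
-/

open Finset Filter Topology

namespace Vale.Agent.P159.H197

open Vale.Agent.P159 Vale.Agent.P159.R2.H254 Vale.Agent.P159.TM Vale.Agent.P159.TM.SpecI
open Vale.Agent.P159.TM.H968 (nr)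
open Vale.Agent.P159.TM.H943 (cw sum_cw)
open Vale.Agent.P159.TM.H764 (Gh cN frm)
open Vale.Agent.P159.TM.H41 (G)

noncomputable section

/-! ### two-dimensional waves -/

/-- `Ĝ(2π(j₁,j₂)/n)` on the torus -/
def Ghat2 (b κ : ℝ) (k : ℕ) (j₁ j₂ : ℕ) : ℝ :=
  ∑ z : V (2 ^ k), exT b κ k (fun h => (h 0 : ℝ) * (h z : ℝ)) *
    (Real.cos (2 * Real.pi * j₁ * (z.1.val : ℝ) / 2 ^ k) *
      Real.cos (2 * Real.pi * j₂ * (z.2.val : ℝ) / 2 ^ k))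

lemma sum_cw' (n : ℕ) [NeZero n] {j : ℕ} (hj : 2 * j < n) (z : ZMod n) :
    ∑ s : ZMod n, cw n j s * cw n j (s + z) =
      n * cnrm (2 * j) * Real.cos (2 * Real.pi * j * (z.val : ℝ) / n) := by
  rcases Nat.eq_zero_or_pos j with rfl | h
  · unfold cw
    simp [cnrm, ZMod.card]
  · rw [sum_cw n j (fun hd => by have := Nat.le_of_dvd (by omega) hd; omega)]
    unfold cnrm
    rw [if_neg (by omega)]
    ring

/-- the double sum over a translation invariant kernel -/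
lemma sum_wave2 {n : ℕ} [NeZero n] {j₁ j₂ : ℕ} (h1 : 2 * j₁ < n) (h2 : 2 * j₂ < n)
    (K : V n → V n → ℝ) (hK : ∀ x y t, K (x + t) (y + t) = K x y) :
    ∑ x : V n, ∑ y : V n, (cw n j₁ x.1 * cw n j₂ x.2 * (cw n j₁ y.1 * cw n j₂ y.2)) * K x y =
      (n : ℝ) ^ 2 * nr (2 * j₁, 2 * j₂) *
        ∑ z : V n, K 0 z * (Real.cos (2 * Real.pi * j₁ * (z.1.val : ℝ) / n) *
          Real.cos (2 * Real.pi * j₂ * (z.2.val : ℝ) / n)) := by
  have e1 : ∀ x : V n, ∑ y : V n, (cw n j₁ x.1 * cw n j₂ x.2 * (cw n j₁ y.1 * cw n j₂ y.2)) * K x y =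
      ∑ z : V n, ((cw n j₁ x.1 * cw n j₁ (x.1 + z.1)) * (cw n j₂ x.2 * cw n j₂ (x.2 + z.2))) *
        K 0 z := by
    intro x
    rw [← Equiv.sum_comp (Equiv.addLeft x)]
    refine Finset.sum_congr rfl fun z _ => ?_
    have h2 : K x (x + z) = K 0 z := by
      have := hK 0 z x
      rw [zero_add, add_comm z x] at this
      exact this
    simp only [Equiv.coe_addLeft, Prod.fst_add, Prod.snd_add]
    rw [h2]
    ring
  rw [Finset.sum_congr rfl fun x _ => e1 x, Finset.sum_comm, Finset.mul_sum]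
  refine Finset.sum_congr rfl fun z _ => ?_
  rw [← Finset.sum_mul, Fintype.sum_prod_type]
  simp only
  rw [← Finset.sum_mul_sum, sum_cw' n h1, sum_cw' n h2]
  unfold nr
  ring

/-- the second moment of the mode `(2 j₁, 2 j₂)` on the torus -/
theorem exT_fm2 {b κ : ℝ} (hb : 0 ≤ b) (hκ : 0 < κ) {k j₁ j₂ : ℕ} (h1 : 2 * j₁ < 2 ^ k)
    (h2 : 2 * j₂ < 2 ^ k) :
    exT b κ k (fun h => fm2 k (2 * j₁) (2 * j₂) h ^ 2) =
      nr (2 * j₁, 2 * j₂) * Ghat2 b κ k j₁ j₂ / 4 ^ k := by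
  have hε : 0 < epsK κ k := by
    unfold epsK
    positivity
  have h4 : ((4 : ℝ) ^ k) = (2 ^ k) ^ 2 := by
    rw [← pow_mul, mul_comm, pow_mul]
    norm_num
  have e1 : ∀ h : V (2 ^ k) → ℤ, fm2 k (2 * j₁) (2 * j₂) h ^ 2 =
      ∑ x : V (2 ^ k), ∑ y : V (2 ^ k), ((1 / 4 ^ k) ^ 2 * (cw (2 ^ k) j₁ x.1 * cw (2 ^ k) j₂ x.2 *
        (cw (2 ^ k) j₁ y.1 * cw (2 ^ k) j₂ y.2))) * ((h x : ℝ) * (h y : ℝ)) := by
    intro h
    have e2 : fm2 k (2 * j₁) (2 * j₂) h = ∑ x : V (2 ^ k),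
        (1 / 4 ^ k) * ((cw (2 ^ k) j₁ x.1 * cw (2 ^ k) j₂ x.2) * (h x : ℝ)) := by
      unfold fm2 cw
      rw [Finset.sum_div]
      refine Finset.sum_congr rfl fun x _ => ?_
      have a1 : ∀ (j : ℕ) (t : ℝ), ((2 * j : ℕ) : ℝ) * Real.pi * ((t + 1 / 2) / 2 ^ k) =
          2 * Real.pi * j * ((t + 1 / 2) / ((2 ^ k : ℕ) : ℝ)) := by
        intro j t
        push_cast
        ring
      rw [a1, a1]
      ring
    rw [e2, pow_two, Finset.sum_mul_sum]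
    refine Finset.sum_congr rfl fun x _ => Finset.sum_congr rfl fun y _ => ?_
    ring
  unfold exT
  have e2 : (fun h : V (2 ^ k) → ℤ => fm2 k (2 * j₁) (2 * j₂) h ^ 2) = fun h => ∑ x : V (2 ^ k),
      ∑ y : V (2 ^ k), ((1 / 4 ^ k) ^ 2 * (cw (2 ^ k) j₁ x.1 * cw (2 ^ k) j₂ x.2 *
        (cw (2 ^ k) j₁ y.1 * cw (2 ^ k) j₂ y.2))) * ((h x : ℝ) * (h y : ℝ)) := funext e1
  rw [e2, H943.ex_double hb hε]
  set K : V (2 ^ k) → V (2 ^ k) → ℝ := fun x y =>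
    ex b univ ∅ (full (epsK κ k)) (fun h : V (2 ^ k) → ℤ => (h x : ℝ) * (h y : ℝ)) with hK
  have hinv : ∀ x y t : V (2 ^ k), K (x + t) (y + t) = K x y := by
    intro x y t
    have := H943.ex_shift (n := 2 ^ k) b (epsK κ k) t
      (fun h : V (2 ^ k) → ℤ => (h x : ℝ) * (h y : ℝ))
    simp only [hK]
    exact this
  have e3 := sum_wave2 h1 h2 K hinv
  have e4 : ∑ x : V (2 ^ k), ∑ y : V (2 ^ k),
      ((1 / 4 ^ k) ^ 2 * (cw (2 ^ k) j₁ x.1 * cw (2 ^ k) j₂ x.2 *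
        (cw (2 ^ k) j₁ y.1 * cw (2 ^ k) j₂ y.2))) * K x y =
      (1 / 4 ^ k) ^ 2 * ∑ x : V (2 ^ k), ∑ y : V (2 ^ k),
        (cw (2 ^ k) j₁ x.1 * cw (2 ^ k) j₂ x.2 * (cw (2 ^ k) j₁ y.1 * cw (2 ^ k) j₂ y.2)) *
          K x y := by
    rw [Finset.mul_sum]
    refine Finset.sum_congr rfl fun x _ => ?_
    rw [Finset.mul_sum]
    exact Finset.sum_congr rfl fun y _ => by ring
  rw [e4, e3]
  unfold Ghat2
  have e5 : ∑ z : V (2 ^ k), K 0 z * (Real.cos (2 * Real.pi * j₁ * (z.1.val : ℝ) / ((2 ^ k : ℕ) : ℝ)) *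
      Real.cos (2 * Real.pi * j₂ * (z.2.val : ℝ) / ((2 ^ k : ℕ) : ℝ))) =
      ∑ z : V (2 ^ k), exT b κ k (fun h => (h 0 : ℝ) * (h z : ℝ)) *
        (Real.cos (2 * Real.pi * j₁ * (z.1.val : ℝ) / 2 ^ k) *
          Real.cos (2 * Real.pi * j₂ * (z.2.val : ℝ) / 2 ^ k)) := by
    refine Finset.sum_congr rfl fun z _ => ?_
    rw [H943.cast_pow_two k]
    rfl
  rw [e5, H943.cast_pow_two k, h4]
  have h3 : ((2 : ℝ) ^ k) ≠ 0 := by positivity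
  field_simp

/-- the dictionary -/
theorem Ghat2_eq (b : ℝ) {i k : ℕ} (hik : i ≤ k) (j₁ j₂ : ℕ) :
    Ghat2 b (2 ^ i) k j₁ j₂ =
      Gh (G b (2 ^ k) ((2 ^ (k - i) : ℕ) : ℝ)) ((j₁ : ZMod (2 ^ k)), (j₂ : ZMod (2 ^ k))) := by
  rw [H764.Gh_prod _ (fun w => H41.G_refl b _ w)]
  unfold Ghat2 SpecI.exT
  rw [H41.epsK_eq hik]
  refine Finset.sum_congr rfl fun z _ => ?_
  rw [H41.ex_Ex, ← H41.G_eq]
  have e1 : ∀ (j : ℕ) (z : ZMod (2 ^ k)),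
      cN ((j : ZMod (2 ^ k)) * z) = Real.cos (2 * Real.pi * j * (z.val : ℝ) / 2 ^ k) := by
    intro j z
    have e2 : (j : ZMod (2 ^ k)) * z = (((j : ℤ) * (z.val : ℤ) : ℤ) : ZMod (2 ^ k)) := by
      push_cast
      rw [ZMod.natCast_zmod_val]
    rw [e2, H764.cN_int]
    congr 1
    push_cast
    ring
  simp only [e1]

/-- arithmetic of `win2` -/
lemma win_arith {P Q r E δ e g : ℝ} (hP : 0 < P) (hQ : 0 < Q) (hr : 1 / 4 ≤ r) (hδ : 0 ≤ δ)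
    (he : 0 ≤ e) (hE : 1 ≤ E)
    (key : r / (Q * E) - δ / (16 * Q) - δ / (16 * Q) - e / Q ≤ r * g / P) :
    (1 / E - 4 * e - δ) / (Q / P) ≤ g := by
  have hr1 : 0 < r := by linarith
  have hE0 : 0 < E := by linarith
  have h0 : 0 < Q / P := by positivity
  rw [div_le_iff₀ h0]
  have g3 := mul_le_mul_of_nonneg_right key (mul_pos hP h0).le
  have g1 : (r / (Q * E) - δ / (16 * Q) - δ / (16 * Q) - e / Q) * (P * (Q / P)) =
      r / E - δ / 8 - e := by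
    field_simp
    ring
  have g2 : r * g / P * (P * (Q / P)) = r * (g * (Q / P)) := by
    field_simp
  rw [g1, g2] at g3
  have g4 : (1 / E - 4 * e - δ) * r ≤ r * (g * (Q / P)) := by
    refine le_trans ?_ g3
    have : (1 / E - 4 * e - δ) * r = r / E - 4 * e * r - δ * r := by ring
    rw [this]
    nlinarith
  exact le_of_mul_le_mul_left (by linarith : r * (1 / E - 4 * e - δ) ≤ r * (g * (Q / P))) hr1

/-- **(ST4)**: the window in two dimensions -/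
theorem win2 {b : ℝ} (hb : 0 < b) (hY : 0 < helicity b) : ∃ C c : ℝ, 0 < C ∧ 0 < c ∧
    ∃ i₀ : ℕ, ∀ i : ℕ, i₀ ≤ i → ∀ j₁ j₂ : ℕ, (j₁, j₂) ≠ (0, 0) → ∀ δ : ℝ, 0 < δ → ∃ k₀ : ℕ,
      ∀ k : ℕ, k₀ ≤ k →
      (1 / (1 + ((2 * Real.pi * j₁ / 2 ^ i) ^ 2 + (2 * Real.pi * j₂ / 2 ^ i) ^ 2) / helicity b) -
        C * (2 : ℝ) ^ (-(c * i)) - δ) / epsK (2 ^ i) k ≤ Ghat2 b (2 ^ i) k j₁ j₂ := by
  have h2 : SpecI.UV b := H574.uv_kann hb.le (H389.kann hb.le)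
  have h34 := H992.iasm1 hY (H968.igc hb) h2 H992.logm H970.susm
  have h5 := H519.ih_box hb
  have h6 := H129.torI hb.le
  obtain ⟨C, c, hC, hc, i₀, hi⟩ := h5 h34.1 h34.2
  refine ⟨4 * C, c, by positivity, hc, i₀, fun i hii j₁ j₂ hj δ hδ => ?_⟩
  obtain ⟨k₁, hk₁⟩ := hi i hii
  have hκ : (0 : ℝ) < 2 ^ i := by positivity
  obtain ⟨C', c', hC', hc', hUV⟩ := h2 (2 ^ i) hκ
  set Y := helicity b with hYd
  set D : ℝ := (2 ^ i) ^ 2 + Real.pi ^ 2 * ((((2 * j₁ : ℕ) : ℝ)) ^ 2 + (((2 * j₂ : ℕ) : ℝ)) ^ 2) / Y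
    with hD
  have hDpos : 0 < D := by
    have : 0 ≤ Real.pi ^ 2 * ((((2 * j₁ : ℕ) : ℝ)) ^ 2 + (((2 * j₂ : ℕ) : ℝ)) ^ 2) / Y := by
      positivity
    have h7 : (0 : ℝ) < (2 ^ i) ^ 2 := by positivity
    linarith
  -- the level `a`
  have hlim : Filter.Tendsto (fun a : ℕ => C' * (2 : ℝ) ^ (-(c' * a))) Filter.atTop (nhds 0) := by
    have h8 : ∀ a : ℕ, C' * (2 : ℝ) ^ (-(c' * a)) = C' * ((2 : ℝ) ^ (-c')) ^ a := by
      intro a
      rw [← Real.rpow_natCast, ← Real.rpow_mul (by norm_num)]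
      ring_nf
    simp only [h8]
    have h9 : (2 : ℝ) ^ (-c') < 1 := Real.rpow_lt_one_of_one_lt_of_neg (by norm_num) (by linarith)
    have := (tendsto_pow_atTop_nhds_zero_of_lt_one (Real.rpow_nonneg (by norm_num) (-c')) h9).const_mul C'
    simpa using this
  have hδ' : 0 < δ / (16 * 4 ^ i) := by positivity
  obtain ⟨a, ha⟩ := ((Metric.tendsto_atTop.1 hlim) (δ / (16 * 4 ^ i)) hδ')
  have ha' := ha a le_rfl
  rw [Real.dist_eq, sub_zero, abs_of_nonneg (by positivity)] at ha'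
  obtain ⟨k₂, hk₂⟩ := igm2 hb hY hκ a (2 * j₁) (2 * j₂) (by
    intro h
    apply hj
    have e1 := congrArg Prod.fst h
    have e2 := congrArg Prod.snd h
    simp only at e1 e2
    ext
    · simp only; omega
    · simp only; omega) (δ := δ / (16 * 4 ^ i)) hδ'
  obtain ⟨k₃, hk₃⟩ : ∃ k₃ : ℕ, ∀ k ≥ k₃, 2 * j₁ < 2 ^ k ∧ 2 * j₂ < 2 ^ k := by
    refine ⟨2 * j₁ + 2 * j₂, fun k hk => ?_⟩
    have : k < 2 ^ k := Nat.lt_two_pow_self
    omega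
  refine ⟨max (max k₁ k₂) (max k₃ a), fun k hk => ?_⟩
  have hka : a ≤ k := (le_max_right _ _).trans ((le_max_right _ _).trans hk)
  have hkk1 : k₁ ≤ k := (le_max_left _ _).trans ((le_max_left _ _).trans hk)
  have hkk2 : k₂ ≤ k := (le_max_right _ _).trans ((le_max_left _ _).trans hk)
  have hkk3 := hk₃ k ((le_max_left _ _).trans ((le_max_right _ _).trans hk))
  -- the functional
  set φ : V (2 ^ k) → ℝ := fun x =>
    Real.cos ((2 * j₁ : ℕ) * Real.pi * (((x.1.val : ℝ) + 1 / 2) / 2 ^ k)) *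
      Real.cos ((2 * j₂ : ℕ) * Real.pi * (((x.2.val : ℝ) + 1 / 2) / 2 ^ k)) / 4 ^ k with hφ
  have hφ1 : ∀ x, |φ x| ≤ 1 / 4 ^ k := by
    intro x
    simp only [hφ]
    rw [abs_div, abs_of_pos (show (0 : ℝ) < 4 ^ k by positivity), abs_mul]
    exact div_le_div_of_nonneg_right (mul_le_one₀ (Real.abs_cos_le_one _) (abs_nonneg _)
      (Real.abs_cos_le_one _)) (by positivity)
  have hfm : ∀ h : V (2 ^ k) → ℤ, fm2 k (2 * j₁) (2 * j₂) h = SpecI.pr φ h := by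
    intro h
    unfold fm2 SpecI.pr
    rw [Finset.sum_div]
    refine Finset.sum_congr rfl fun x _ => ?_
    simp only [hφ]
    ring
  have f1 := hk₂ k hkk2
  have f2 := hUV k a hka φ hφ1
  have f3 := hk₁ k hkk1 φ hφ1
  have f4 := h6 (2 ^ i) hκ k φ
  have f5 := exT_fm2 hb.le hκ hkk3.1 hkk3.2
  have hfun : (fun h : V (2 ^ k) → ℤ => fm2 k (2 * j₁) (2 * j₂) h ^ 2) =
      fun h => SpecI.pr φ h ^ 2 := funext fun h => by rw [hfm]
  rw [hfun] at f1 f5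
  rw [← hD] at f1
  rw [f5] at f4
  set r := nr (2 * j₁, 2 * j₂) with hr
  have hr0 : 1 / 4 ≤ r := by
    have a1 := H968.half_le_cnrm (2 * j₁)
    have a2 := H968.half_le_cnrm (2 * j₂)
    have : r = cnrm (2 * j₁) * cnrm (2 * j₂) := rfl
    rw [this]
    nlinarith
  have hr1 : 0 < r := by linarith
  have key : r / D - δ / (16 * 4 ^ i) - δ / (16 * 4 ^ i) - C * (2 : ℝ) ^ (-(c * i)) / 4 ^ i ≤
      r * Ghat2 b (2 ^ i) k j₁ j₂ / 4 ^ k := by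
    linarith
  -- arithmetic
  have h4k : (0 : ℝ) < 4 ^ k := by positivity
  have h4i : (0 : ℝ) < 4 ^ i := by positivity
  have h22 : ((2 : ℝ) ^ i) ^ 2 = 4 ^ i := by
    rw [← pow_mul, mul_comm, pow_mul]
    norm_num
  have heps : epsK (2 ^ i) k = 4 ^ i / 4 ^ k := by
    unfold epsK
    rw [h22]
  have hD2 : D = 4 ^ i * (1 + ((2 * Real.pi * j₁ / 2 ^ i) ^ 2 +
      (2 * Real.pi * j₂ / 2 ^ i) ^ 2) / Y) := by
    rw [hD, div_pow, div_pow, h22]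
    push_cast
    field_simp
  have hE1 : 1 ≤ 1 + ((2 * Real.pi * j₁ / 2 ^ i) ^ 2 + (2 * Real.pi * j₂ / 2 ^ i) ^ 2) / Y := by
    have : 0 ≤ ((2 * Real.pi * j₁ / 2 ^ i) ^ 2 + (2 * Real.pi * j₂ / 2 ^ i) ^ 2) / Y := by
      positivity
    linarith
  rw [heps]
  rw [hD2] at key
  rw [mul_assoc 4 C]
  exact win_arith h4k h4i hr0 hδ.le (by positivity) hE1 key

end

end Vale.Agent.P159.H197
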